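import Mathlib

/-! Row 220: the differential algebra of the Gauss–Codazzi system in Lagrangian form. -/

set_option autoImplicit false
open Filter Asymptotics

namespace Crest.Agent.R220

variable {A : Type*} [CommRing A] [Algebra ℝ A]

structure Sys (A : Type*) [CommRing A] [Algebra ℝ A] where
  d : Bool → Derivation ℝ A A
  comm : ∀ f, d true (d false f) = d false (d true f)
  L : A
  M : A
  N : A
  v : A
  E : A
  G : List Bool → A
  ρ : ℝ
  hv : L * v = 1
  dG : ∀ i l, d i (G l) = G (i :: l)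
  dE : ∀ i, d i E = 2 * G [i] * E
  c1 : d false L - d true M = G [false] * (L + N)
  c2 : d false M - d true N = -(G [true] * (L + N))
  ga : L * N - M ^ 2 = -(algebraMap ℝ A ρ * (E * (G [true, true] + G [false, false])))

namespace Sys

variable (S : Sys A)

noncomputable def K : A := -(algebraMap ℝ A S.ρ * (S.E * (S.G [true, true] + S.G [false, false])))
def u : A := S.M * S.v
noncomputable def X : Derivation ℝ A A := S.v • S.d true
noncomputable def Y : Derivation ℝ A A := S.d false - S.u • S.d true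
noncomputable def H : A := 1 + S.u ^ 2 + S.K * S.v ^ 2
noncomputable def c : A := S.G [false] * S.H
def ψ : A := S.G [true] + S.u * S.G [false]
noncomputable def a (k : ℕ) : A := S.X^[k] S.v
noncomputable def b (k : ℕ) : A := S.X^[k] S.u
noncomputable def F1 (k : ℕ) : A := S.Y (S.a k) + S.X (S.b k)
noncomputable def F2 (k : ℕ) : A := S.Y (S.b k) - S.K * S.X (S.a k)

theorem X_apply (f : A) : S.X f = S.v * S.d true f := by simp [X]
theorem Y_apply (f : A) : S.Y f = S.d false f - S.u * S.d true f := by simp [Y]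
theorem a_zero : S.a 0 = S.v := rfl
theorem b_zero : S.b 0 = S.u := rfl
theorem a_succ (k : ℕ) : S.a (k + 1) = S.X (S.a k) := Function.iterate_succ_apply' _ _ _
theorem b_succ (k : ℕ) : S.b (k + 1) = S.X (S.b k) := Function.iterate_succ_apply' _ _ _

theorem leib (D : Derivation ℝ A A) (x y : A) : D (x * y) = x * D y + y * D x := by
  simp [Derivation.leibniz]

theorem leib2 (D : Derivation ℝ A A) (x : A) : D (x ^ 2) = 2 * x * D x := by
  rw [sq, leib]; ring

theorem D_two (D : Derivation ℝ A A) : D 2 = 0 := by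
  simpa using D.map_natCast 2

theorem uL : S.u * S.L = S.M := by unfold u; linear_combination S.M * S.hv

theorem N_eq : S.N = S.K * S.v + S.u ^ 2 * S.L := by
  unfold K u; linear_combination S.v * S.ga - (S.N + S.M ^ 2 * S.v) * S.hv

theorem H_eq : (S.L + S.N) * S.v = S.H := by
  rw [S.N_eq]; unfold H; linear_combination (1 + S.u ^ 2) * S.hv

theorem Lc : S.L * S.c = S.G [false] * (S.L + S.N) := by
  unfold c; rw [← S.H_eq]; linear_combination S.G [false] * (S.L + S.N) * S.hv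

theorem D_v (D : Derivation ℝ A A) : D S.v = -(S.v ^ 2 * D S.L) := by
  have := congrArg D S.hv
  rw [leib, D.map_one_eq_zero] at this
  linear_combination S.v * this - D S.v * S.hv

theorem D_L (D : Derivation ℝ A A) : D S.L = -(S.L ^ 2 * D S.v) := by
  have := congrArg D S.hv
  rw [leib, D.map_one_eq_zero] at this
  linear_combination S.L * this - D S.L * S.hv

theorem D_u (D : Derivation ℝ A A) : D S.u = S.v * D S.M - S.u * S.v * D S.L := by
  unfold u; rw [leib, S.D_v]; ring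

theorem F1_zero : S.F1 0 = -(S.c * S.v) := by
  unfold F1 c
  rw [a_zero, b_zero, X_apply, Y_apply, S.D_v, S.D_v, S.D_u, ← S.H_eq]
  linear_combination (-S.v ^ 2) * S.c1

theorem F2_zero : S.F2 0 = S.v * S.X S.K - S.ψ * S.H := by
  have h := congrArg (S.d true) (show S.N = S.K * S.v + S.u * S.M by
    rw [S.N_eq, ← S.uL]; ring)
  rw [map_add, leib, leib] at h
  have hu := S.D_u (S.d false)
  have hM : S.v * S.M = S.u := mul_comm _ _
  unfold F2 ψ
  rw [a_zero, b_zero, X_apply, X_apply, Y_apply, ← S.H_eq]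
  linear_combination hu + S.v * S.c2 - S.u * S.v * S.c1 + S.v * h + S.d true S.u * hM

theorem XY (f : A) : S.X (S.Y f) = S.Y (S.X f) + S.c * S.X f := by
  have h := S.F1_zero
  unfold F1 at h
  rw [a_zero, b_zero, X_apply, Y_apply] at h
  simp only [X_apply, Y_apply, map_sub, leib, S.comm]
  linear_combination (-S.d true f) * h

theorem F1_succ (k : ℕ) : S.F1 (k + 1) = S.X (S.F1 k) - S.c * S.a (k + 1) := by
  unfold F1
  rw [map_add, XY, a_succ, b_succ]; ring

theorem F2_succ (k : ℕ) :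
    S.F2 (k + 1) = S.X (S.F2 k) - S.c * S.b (k + 1) + S.X S.K * S.a (k + 1) := by
  unfold F2
  rw [map_sub, XY, leib, a_succ, b_succ]; ring

theorem div (e f : A) :
    S.L * (S.X e + S.Y f + S.c * f) = S.d true (e - S.M * f) + S.d false (S.L * f) := by
  rw [X_apply, Y_apply, map_sub, leib, leib]
  linear_combination S.d true e * S.hv - S.d true f * S.uL + f * S.Lc - f * S.c1

noncomputable def α1 (k : ℕ) : A := -((k + 1) * S.c) - 2 * S.G [false] * S.K * S.v ^ 2
noncomputable def α2 : A := -(2 * S.G [false] * S.u * S.v)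
noncomputable def β1 (k : ℕ) : A := (k + 2) * S.X S.K - 2 * S.ψ * S.K * S.v
noncomputable def β2 (k : ℕ) : A := -((k + 1) * S.c) - 2 * S.u * S.ψ
noncomputable def R1 (k : ℕ) : A := S.F1 k - S.α1 k * S.a k - S.α2 * S.b k
noncomputable def R2 (k : ℕ) : A := S.F2 k - S.β1 k * S.a k - S.β2 k * S.b k

theorem R1_succ (k : ℕ) : S.R1 (k + 1) =
    S.X (S.R1 k) + S.X (S.α1 k) * S.a k + S.X S.α2 * S.b k := by
  unfold R1
  rw [F1_succ, map_sub, map_sub, leib, leib, a_succ, b_succ]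
  unfold α1; push_cast; ring

theorem R2_succ (k : ℕ) : S.R2 (k + 1) =
    S.X (S.R2 k) + S.X (S.β1 k) * S.a k + S.X (S.β2 k) * S.b k := by
  unfold R2
  rw [F2_succ, map_sub, map_sub, leib, leib, a_succ, b_succ]
  unfold β1 β2; push_cast; ring

theorem X_H : S.X S.H = 2 * S.u * S.b 1 + 2 * S.K * S.v * S.a 1 + S.v ^ 2 * S.X S.K := by
  unfold H
  rw [map_add, map_add, Derivation.map_one_eq_zero, leib, leib2, leib2, a_succ, b_succ, a_zero, b_zero]
  ring

theorem R1_one : S.R1 1 = -(S.v * (S.X (S.G [false]) * S.H + S.G [false] * S.v ^ 2 * S.X S.K)) := by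
  unfold R1
  rw [F1_succ, F1_zero, map_neg, leib]
  unfold α1 α2 c
  rw [leib, X_H, a_succ, a_zero]
  push_cast; ring

theorem R2_one : S.R2 1 = S.v ^ 3 * S.d true (S.d true S.K)
    - (S.X (S.G [true]) + S.u * S.X (S.G [false])) * S.H - S.ψ * S.v ^ 2 * S.X S.K := by
  have h : S.X (S.X S.K) = S.v ^ 2 * S.d true (S.d true S.K) + S.d true S.K * S.X S.v := by
    rw [S.X_apply S.K, leib, S.X_apply (S.d true S.K)]; ring
  have hψ : S.X S.ψ = S.X (S.G [true]) + S.u * S.X (S.G [false]) + S.G [false] * S.b 1 := by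
    unfold ψ; rw [map_add, leib, b_succ, b_zero]; ring
  unfold R2
  rw [F2_succ, F2_zero, map_sub, leib, leib, h, hψ, X_H]
  unfold β1 β2 c
  rw [a_succ, a_zero, S.X_apply S.K]
  push_cast; ring

/-- differential polynomials of weight `≤ n` and order `≤ j` -/
inductive DP : ℕ → ℕ → A → Prop
  | a (i : ℕ) : DP i i (S.a i)
  | b (i : ℕ) : DP i i (S.b i)
  | L : DP 0 0 S.L
  | E : DP 0 0 S.E
  | G (l : List Bool) : DP (l.length - 2) 0 (S.G l)
  | const (c : ℝ) : DP 0 0 (algebraMap ℝ A c)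
  | add {n j : ℕ} {e f : A} : DP n j e → DP n j f → DP n j (e + f)
  | mul {n m j : ℕ} {e f : A} : DP n j e → DP m j f → DP (n + m) j (e * f)
  | mono {n j n' j' : ℕ} {e : A} : DP n j e → n ≤ n' → j ≤ j' → DP n' j' e

namespace DP

variable {S}

theorem mul' {n m j i n' j' : ℕ} {e f : A} (h1 : S.DP n j e) (h2 : S.DP m i f)
    (hn : n + m ≤ n' := by omega) (hj : j ≤ j' := by omega) (hi : i ≤ j' := by omega) :
    S.DP n' j' (e * f) := ((h1.mono le_rfl hj).mul (h2.mono le_rfl hi)).mono hn le_rfl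

theorem mul0 {n j : ℕ} {e f : A} (h1 : S.DP 0 0 e) (h2 : S.DP n j f) : S.DP n j (e * f) :=
  h1.mul' h2

theorem neg {n j : ℕ} {e : A} (h : S.DP n j e) : S.DP n j (-e) := by
  simpa using (DP.const (-1)).mul0 h

theorem sub {n j : ℕ} {e f : A} (h : S.DP n j e) (h' : S.DP n j f) : S.DP n j (e - f) := by
  simpa [sub_eq_add_neg] using h.add h'.neg

theorem nat (k : ℕ) : S.DP 0 0 (k : A) := by simpa using DP.const (S := S) k
theorem zero {n j : ℕ} : S.DP n j 0 := by simpa using (nat 0).mono n.zero_le j.zero_le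
theorem one : S.DP 0 0 1 := by simpa using nat (S := S) 1
theorem two : S.DP 0 0 2 := by simpa using nat (S := S) 2
theorem v : S.DP 0 0 S.v := DP.a 0
theorem u : S.DP 0 0 S.u := DP.b 0
theorem pow0 {e : A} (h : S.DP 0 0 e) (k : ℕ) : S.DP 0 0 (e ^ k) := by
  induction k with
  | zero => simpa using one
  | succ k ih => rw [pow_succ]; exact ih.mul0 h
theorem G1 (i : Bool) : S.DP 0 0 (S.G [i]) := DP.G [i]
theorem K : S.DP 0 0 S.K :=
  ((DP.const _).mul0 (DP.E.mul0 ((DP.G [true, true]).add (DP.G [false, false])))).neg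
theorem H : S.DP 0 0 S.H := (one.add (u.pow0 2)).add (K.mul0 (v.pow0 2))
theorem c : S.DP 0 0 S.c := (G1 _).mul0 H
theorem ψ : S.DP 0 0 S.ψ := (G1 _).add (u.mul0 (G1 _))
theorem M : S.DP 0 0 S.M := by rw [← S.uL]; exact u.mul0 L
theorem N : S.DP 0 0 S.N := by rw [S.N_eq]; exact (K.mul0 v).add ((u.pow0 2).mul0 L)

/-- closure under a derivation, given its values on the generators -/
theorem deriv (D : Derivation ℝ A A) (s : ℕ) (ha : ∀ i, S.DP (i + 1) (i + s) (D (S.a i)))
    (hb : ∀ i, S.DP (i + 1) (i + s) (D (S.b i))) (hE : S.DP 1 s (D S.E))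
    (hG : ∀ l, S.DP (l.length - 2 + 1) s (D (S.G l))) {n j : ℕ} {e : A} (h : S.DP n j e) :
    S.DP (n + 1) (j + s) (D e) := by
  induction h with
  | a i => exact ha i
  | b i => exact hb i
  | L => rw [S.D_L]; exact ((L.pow0 2).mul0 (ha 0)).neg
  | E => simpa using hE
  | G l => simpa using hG l
  | const c => rw [D.map_algebraMap]; exact zero
  | add _ _ ih1 ih2 => rw [map_add]; exact ih1.add ih2
  | mul h1 h2 ih1 ih2 => rw [leib]; exact (h1.mul' ih2).add (h2.mul' ih1)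
  | mono _ h1 h2 ih => exact ih.mono (by omega) (by omega)

theorem dG (i : Bool) (l : List Bool) : S.DP (l.length - 2 + 1) 0 (S.d i (S.G l)) := by
  rw [S.dG]; exact (DP.G _).mono (by simp; omega) le_rfl

theorem dE (i : Bool) : S.DP 0 0 (S.d i S.E) := by
  rw [S.dE]; exact (two.mul0 (G1 i)).mul0 E

theorem X {n j : ℕ} {e : A} (h : S.DP n j e) : S.DP (n + 1) (j + 1) (S.X e) := by
  refine deriv S.X 1 (fun i => S.a_succ i ▸ DP.a _) (fun i => S.b_succ i ▸ DP.b _) ?_ (fun l => ?_) h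
  · rw [X_apply]; exact v.mul' (dE _)
  · rw [X_apply]; exact v.mul' (dG _ l)

theorem dK (i : Bool) : S.DP 1 0 (S.d i S.K) := by
  unfold Sys.K
  rw [map_neg, leib, Derivation.map_algebraMap, mul_zero, add_zero, leib, map_add]
  have h1 : S.DP 0 0 (S.G [true, true] + S.G [false, false]) :=
    (DP.G [true, true]).add (DP.G [false, false])
  exact ((DP.const _).mul0 ((E.mul0 ((dG i [true, true]).add (dG i [false, false]))).add
    (h1.mul' (dE i)))).neg

theorem ddK (i : Bool) : S.DP 2 0 (S.d i (S.d i S.K)) := by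
  have g := fun l => DP.G (S := S) l
  unfold Sys.K
  simp only [map_neg, leib, Derivation.map_algebraMap, mul_zero, add_zero, map_add, S.dG, S.dE, D_two]
  have h1 : S.DP 0 0 (2 * S.G [i] * S.E) := (two.mul0 (G1 i)).mul0 E
  have h2 : S.DP 0 0 (S.G [true, true] + S.G [false, false]) :=
    (g [true, true]).add (g [false, false])
  have h3 : S.DP 1 0 (S.G [i, true, true] + S.G [i, false, false]) :=
    (g [i, true, true]).add (g [i, false, false])
  have h4 : S.DP 2 0 (S.G [i, i, true, true] + S.G [i, i, false, false]) :=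
    (g [i, i, true, true]).add (g [i, i, false, false])
  have h5 : S.DP 0 0 (S.G [i, i]) := g [i, i]
  refine ((DP.const _).mul0 (DP.add (DP.add (E.mul0 h4) (h3.mul' h1)) (DP.add ?_ ?_))).neg
  · exact h2.mul' (((two.mul0 (G1 i)).mul0 h1).add (E.mul0 (two.mul0 h5)))
  · exact h1.mul' h3

theorem XK : S.DP 1 0 (S.X S.K) := by rw [X_apply]; exact v.mul0 (dK _)
theorem XG (i : Bool) : S.DP 1 0 (S.X (S.G [i])) := by rw [X_apply]; exact v.mul0 (dG _ [i])
theorem α1 (k : ℕ) : S.DP 0 0 (S.α1 k) :=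
  (((nat k).add one).mul0 c).neg.sub (((two.mul0 (G1 _)).mul0 K).mul0 (v.pow0 2))
theorem α2 : S.DP 0 0 S.α2 := (((two.mul0 (G1 _)).mul0 u).mul0 v).neg
theorem β1 (k : ℕ) : S.DP 1 0 (S.β1 k) :=
  (((nat k).add two).mul0 XK).sub ((((two.mul0 ψ).mul0 K).mul0 v).mono zero_le_one le_rfl)
theorem β2 (k : ℕ) : S.DP 0 0 (S.β2 k) :=
  (((nat k).add one).mul0 c).neg.sub ((two.mul0 u).mul0 ψ)

theorem R1 (k : ℕ) : S.DP (k + 2) k (S.R1 (k + 1)) := by
  induction k with
  | zero =>
    rw [R1_one]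
    exact (v.mul0 (((XG _).mul' H).add (((G1 _).mul0 (v.pow0 2)).mul' XK))).neg
  | succ k ih =>
    rw [R1_succ]
    exact (ih.X.add ((α1 _).X.mul' (DP.a _))).add (α2.X.mul' (DP.b _))

theorem R2 (k : ℕ) : S.DP (k + 2) k (S.R2 (k + 1)) := by
  induction k with
  | zero =>
    rw [R2_one]
    exact (((v.pow0 3).mul0 (ddK _)).sub (((XG _).add (u.mul0 (XG _))).mul' H)).sub
      ((ψ.mul0 (v.pow0 2)).mul' XK)
  | succ k ih =>
    rw [R2_succ]
    exact (ih.X.add ((β1 _).X.mul' (DP.a _))).add ((β2 _).X.mul' (DP.b _))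

theorem F1 (k : ℕ) : S.DP (k + 1) k (S.F1 k) := by
  induction k with
  | zero => rw [F1_zero]; exact (c.mul' v).neg
  | succ k ih => rw [F1_succ]; exact ih.X.sub (c.mul' (DP.a _))

theorem F2 (k : ℕ) : S.DP (k + 1) k (S.F2 k) := by
  induction k with
  | zero => rw [F2_zero]; exact (v.mul0 XK).sub (ψ.mul' H)
  | succ k ih => rw [F2_succ]; exact (ih.X.sub (c.mul' (DP.b _))).add (XK.mul' (DP.a _))

theorem Y {n j : ℕ} {e : A} (h : S.DP n j e) : S.DP (n + 1) (j + 1) (S.Y e) := by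
  refine deriv S.Y 1 (fun i => ?_) (fun i => ?_) ?_ (fun l => ?_) h
  · rw [show S.Y (S.a i) = S.F1 i - S.b (i + 1) by rw [b_succ]; unfold Sys.F1; ring]
    exact ((F1 i).mono le_rfl (by omega)).sub (DP.b _)
  · rw [show S.Y (S.b i) = S.F2 i + S.K * S.a (i + 1) by rw [a_succ]; unfold Sys.F2; ring]
    exact ((F2 i).mono le_rfl (by omega)).add (K.mul0 (DP.a _))
  · rw [Y_apply]; exact ((dE _).sub (u.mul0 (dE _))).mono (by omega) (by omega)
  · rw [Y_apply]; exact ((dG _ l).sub (u.mul0 (dG _ l))).mono (by omega) (by omega)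

theorem d (i : Bool) {n j : ℕ} {e : A} (h : S.DP n j e) : S.DP (n + 1) (j + 1) (S.d i e) := by
  have h1 : S.d true e = S.L * S.X e := by
    rw [X_apply]; linear_combination (-S.d true e) * S.hv
  cases i
  · rw [show S.d false e = S.Y e + S.u * (S.L * S.X e) by rw [← h1, Y_apply]; ring]
    exact h.Y.add (u.mul0 (L.mul0 h.X))
  · rw [h1]; exact L.mul0 h.X

/-- at most one factor of a monomial is large -/
theorem bound {T : Type*} (ev : A →ₐ[ℝ] (T → ℝ)) (F : Filter T) (Λ : T → ℝ) (t Nn J : ℕ)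
    (hΛ : (fun _ => (1 : ℝ)) =O[F] Λ)
    (h1 : ∀ i ≤ t, ev (S.a i) =O[F] (fun _ => (1 : ℝ)) ∧ ev (S.b i) =O[F] (fun _ => (1 : ℝ)))
    (hL : ev S.L =O[F] (fun _ => (1 : ℝ))) (hE : ev S.E =O[F] (fun _ => (1 : ℝ)))
    (h2 : ∀ l : List Bool, l.length ≤ t + 2 → ev (S.G l) =O[F] (fun _ => (1 : ℝ)))
    (h3 : ∀ i ≤ J, ev (S.a i) =O[F] Λ ∧ ev (S.b i) =O[F] Λ)
    (h4 : ∀ l : List Bool, l.length ≤ Nn + 2 → ev (S.G l) =O[F] Λ)
    {n j : ℕ} {e : A} (h : S.DP n j e) :
    (n ≤ t → ev e =O[F] (fun _ => (1 : ℝ))) ∧ (n ≤ Nn → j ≤ J → n ≤ 2 * t + 1 → ev e =O[F] Λ) := by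
  induction h with
  | a i => exact ⟨fun h => (h1 i h).1, fun _ h _ => (h3 i h).1⟩
  | b i => exact ⟨fun h => (h1 i h).2, fun _ h _ => (h3 i h).2⟩
  | L => exact ⟨fun _ => hL, fun _ _ _ => hL.trans hΛ⟩
  | E => exact ⟨fun _ => hE, fun _ _ _ => hE.trans hΛ⟩
  | G l => exact ⟨fun h => h2 l (by omega), fun h _ _ => h4 l (by omega)⟩
  | const c =>
    have : ev (algebraMap ℝ A c) =O[F] (fun _ => (1 : ℝ)) := by
      rw [AlgHom.commutes]; exact isBigO_const_one _ _ _
    exact ⟨fun _ => this, fun _ _ _ => this.trans hΛ⟩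
  | add _ _ ih1 ih2 =>
    rw [map_add]
    exact ⟨fun h => (ih1.1 h).add (ih2.1 h), fun h h' h'' => (ih1.2 h h' h'').add (ih2.2 h h' h'')⟩
  | @mul n m j e f _ _ ih1 ih2 =>
    rw [map_mul]
    refine ⟨fun h => ((ih1.1 (by omega)).mul (ih2.1 (by omega))).congr_right fun _ => one_mul _,
      fun h h' h'' => ?_⟩
    rcases le_or_gt n t with hn | hn
    · exact ((ih1.1 hn).mul (ih2.2 (by omega) h' (by omega))).congr_right fun _ => one_mul _
    · exact ((ih1.2 (by omega) h' (by omega)).mul (ih2.1 (by omega))).congr_right fun _ => mul_one _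
  | mono _ h1 h2 ih =>
    exact ⟨fun h => ih.1 (by omega), fun h h' h'' => ih.2 (by omega) (by omega) (by omega)⟩

end DP

/-- the first density of the energy identity (times two) -/
noncomputable def E1 (φ g a b : A) : A := φ * b ^ 2 - φ * S.K * a ^ 2 + 2 * g * S.K * a * b
/-- the second density of the energy identity (times two) -/
noncomputable def E2 (φ g a b : A) : A := 2 * φ * a * b - g * b ^ 2 + g * S.K * a ^ 2

noncomputable def cA (k : ℕ) (φ g : A) : A :=
  -(S.X φ * S.K) - φ * S.X S.K + S.Y g * S.K + g * S.Y S.K + 2 * g * S.K * S.α1 k + 2 * φ * S.β1 k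
    + S.c * g * S.K
noncomputable def cB (k : ℕ) (φ g : A) : A :=
  S.X φ - S.Y g + 2 * φ * S.α2 - 2 * g * S.β2 k - S.c * g
noncomputable def cC (k : ℕ) (φ g : A) : A :=
  S.Y φ + S.X g * S.K + g * S.X S.K + φ * S.α1 k + g * S.K * S.α2 + φ * S.β2 k - g * S.β1 k + S.c * φ

theorem energy (k : ℕ) (φ g : A) :
    S.X (S.E1 φ g (S.a k) (S.b k)) + S.Y (S.E2 φ g (S.a k) (S.b k)) + S.c * S.E2 φ g (S.a k) (S.b k) =
      S.cA k φ g * S.a k ^ 2 + S.cB k φ g * S.b k ^ 2 + 2 * S.cC k φ g * S.a k * S.b k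
        + 2 * (φ * S.b k + g * S.K * S.a k) * S.R1 k + 2 * (φ * S.a k - g * S.b k) * S.R2 k := by
  unfold E1 E2 cA cB cC R1 R2 F1 F2
  simp only [map_add, map_sub, leib, leib2, D_two]
  ring

theorem elliptic (k : ℕ) (ξ : A) :
    S.X (ξ ^ 2 * S.K * S.a k * S.a (k + 1)) + S.Y (-(ξ ^ 2 * S.a k * S.b (k + 1)))
      + S.c * -(ξ ^ 2 * S.a k * S.b (k + 1)) =
      ξ ^ 2 * (S.K * S.a (k + 1) ^ 2 + S.b (k + 1) ^ 2)
        + ξ * S.a (k + 1) * (S.a k * (2 * S.K * S.X ξ + ξ * S.X S.K - ξ * S.β1 (k + 1)))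
        - ξ * S.b (k + 1) * (S.a k * (2 * S.Y ξ + ξ * S.c + ξ * S.β2 (k + 1)) + ξ * S.F1 k)
        - ξ * S.a k * (ξ * S.R2 (k + 1)) := by
  unfold R2 F1 F2
  simp only [map_neg, leib, leib2, ← a_succ, ← b_succ]
  ring

end Sys

end Crest.Agent.R220
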