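import Crest.Agent.R220.Defs

/-! Row 220: calculus of partial derivatives and the bump. -/

set_option autoImplicit false
open scoped ContDiff Topology
open Set MeasureTheory Filter

namespace Crest.Agent.R220

@[simp] theorem Ds_nil (f : P → ℝ) : Ds [] f = f := rfl
@[simp] theorem Ds_cons (i : Bool) (l : List Bool) (f : P → ℝ) : Ds (i :: l) f = D i (Ds l f) := rfl

theorem Ds_append (l l' : List Bool) (f : P → ℝ) : Ds (l ++ l') f = Ds l (Ds l' f) := by
  induction l with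
  | nil => rfl
  | cons i l ih => simp [ih]

theorem contDiffAt_D {f : P → ℝ} {p : P} (i : Bool) (h : ContDiffAt ℝ ∞ f p) :
    ContDiffAt ℝ ∞ (D i f) p :=
  (h.fderiv_right (m := ∞) (by simp)).clm_apply contDiffAt_const

theorem contDiff_D {f : P → ℝ} (i : Bool) (h : ContDiff ℝ ∞ f) : ContDiff ℝ ∞ (D i f) :=
  contDiff_iff_contDiffAt.2 fun _ => contDiffAt_D i h.contDiffAt

theorem contDiffOn_D {f : P → ℝ} {U : Set P} (hU : IsOpen U) (i : Bool) (h : ContDiffOn ℝ ∞ f U) :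
    ContDiffOn ℝ ∞ (D i f) U := fun _ hp =>
  (contDiffAt_D i (h.contDiffAt (hU.mem_nhds hp))).contDiffWithinAt

theorem contDiffAt_Ds {f : P → ℝ} {p : P} (l : List Bool) (h : ContDiffAt ℝ ∞ f p) :
    ContDiffAt ℝ ∞ (Ds l f) p := by
  induction l with
  | nil => exact h
  | cons i l ih => exact contDiffAt_D i ih

theorem contDiff_Ds {f : P → ℝ} (l : List Bool) (h : ContDiff ℝ ∞ f) : ContDiff ℝ ∞ (Ds l f) :=
  contDiff_iff_contDiffAt.2 fun _ => contDiffAt_Ds l h.contDiffAt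

theorem diffAt {f : P → ℝ} {p : P} (h : ContDiffAt ℝ ∞ f p) : DifferentiableAt ℝ f p :=
  h.differentiableAt (by simp)

theorem D_congr {f g : P → ℝ} {p : P} (i : Bool) (h : f =ᶠ[𝓝 p] g) : D i f =ᶠ[𝓝 p] D i g := by
  filter_upwards [h.fderiv (𝕜 := ℝ)] with q hq
  simp [D, hq]

theorem Ds_congr {f g : P → ℝ} {p : P} (l : List Bool) (h : f =ᶠ[𝓝 p] g) :
    Ds l f =ᶠ[𝓝 p] Ds l g := by
  induction l with
  | nil => exact h
  | cons i l ih => exact D_congr i ih

theorem D_of_hasFDerivAt {f : P → ℝ} {p : P} {f' : P →L[ℝ] ℝ} (i : Bool) (h : HasFDerivAt f f' p) :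
    D i f p = f' (ev i) := by simp [D, h.fderiv]

@[simp] theorem D_const (i : Bool) (c : ℝ) : D i (fun _ => c) = fun _ => 0 := by
  funext p; simp [D]

theorem D_add {f g : P → ℝ} {p : P} (i : Bool) (hf : DifferentiableAt ℝ f p)
    (hg : DifferentiableAt ℝ g p) : D i (fun q => f q + g q) p = D i f p + D i g p := by
  rw [D_of_hasFDerivAt i (hf.hasFDerivAt.fun_add hg.hasFDerivAt)]; simp [D]

theorem D_sub {f g : P → ℝ} {p : P} (i : Bool) (hf : DifferentiableAt ℝ f p)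
    (hg : DifferentiableAt ℝ g p) : D i (fun q => f q - g q) p = D i f p - D i g p := by
  rw [D_of_hasFDerivAt i (hf.hasFDerivAt.fun_sub hg.hasFDerivAt)]; simp [D]

theorem D_neg {f : P → ℝ} {p : P} (i : Bool) : D i (fun q => -f q) p = -D i f p := by
  simp [D]

theorem D_mul {f g : P → ℝ} {p : P} (i : Bool) (hf : DifferentiableAt ℝ f p)
    (hg : DifferentiableAt ℝ g p) :
    D i (fun q => f q * g q) p = f p * D i g p + D i f p * g p := by
  rw [D_of_hasFDerivAt i (hf.hasFDerivAt.fun_mul hg.hasFDerivAt)]; simp [D]; ring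

theorem D_const_mul {f : P → ℝ} {p : P} (i : Bool) (c : ℝ) (hf : DifferentiableAt ℝ f p) :
    D i (fun q => c * f q) p = c * D i f p := by
  rw [D_of_hasFDerivAt i (hf.hasFDerivAt.const_mul c)]; simp [D]

theorem D_comp {f : P → ℝ} {p : P} {F : ℝ → ℝ} {F' : ℝ} (i : Bool) (hF : HasDerivAt F F' (f p))
    (hf : DifferentiableAt ℝ f p) : D i (fun q => F (f q)) p = F' * D i f p := by
  refine (D_of_hasFDerivAt i (hF.comp_hasFDerivAt p hf.hasFDerivAt)).trans ?_; simp [D]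

theorem D_exp {f : P → ℝ} {p : P} (i : Bool) (hf : DifferentiableAt ℝ f p) :
    D i (fun q => Real.exp (f q)) p = Real.exp (f p) * D i f p :=
  D_comp i (Real.hasDerivAt_exp _) hf

theorem D_pow {f : P → ℝ} {p : P} (i : Bool) (n : ℕ) (hf : DifferentiableAt ℝ f p) :
    D i (fun q => f q ^ n) p = n * f p ^ (n - 1) * D i f p :=
  D_comp (F := fun t => t ^ n) i (hasDerivAt_pow n _) hf

theorem D_fst (i : Bool) (p : P) : D i (fun q : P => q.1) p = if i then 1 else 0 := by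
  rw [D_of_hasFDerivAt i hasFDerivAt_fst]; cases i <;> simp [ev]

theorem D_snd (i : Bool) (p : P) : D i (fun q : P => q.2) p = if i then 0 else 1 := by
  rw [D_of_hasFDerivAt i hasFDerivAt_snd]; cases i <;> simp [ev]

theorem D_comm {f : P → ℝ} {p : P} (i j : Bool) (h : ContDiffAt ℝ ∞ f p) :
    D i (D j f) p = D j (D i f) p := by
  have h2 : ContDiffAt ℝ 2 f p := h.of_le (WithTop.coe_le_coe.2 (le_top : ((2 : ℕ∞)) ≤ ⊤))
  have hs := h2.isSymmSndFDerivAt (by simp)
  have hd : DifferentiableAt ℝ (fderiv ℝ f) p :=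
    (h.fderiv_right (m := ∞) (by simp)).differentiableAt (by simp)
  have e : ∀ a b : Bool, D a (D b f) p = fderiv ℝ (fderiv ℝ f) p (ev a) (ev b) := by
    intro a b
    unfold D
    rw [fderiv_clm_apply hd (differentiableAt_const _)]
    simp
  rw [e, e, hs]

theorem Ds_add {f g : P → ℝ} (l : List Bool) (hf : ContDiff ℝ ∞ f) (hg : ContDiff ℝ ∞ g) :
    Ds l (fun q => f q + g q) = fun q => Ds l f q + Ds l g q := by
  induction l with
  | nil => rfl
  | cons i l ih =>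
    funext p
    simp only [Ds_cons, ih]
    exact D_add i (diffAt (contDiff_Ds l hf).contDiffAt) (diffAt (contDiff_Ds l hg).contDiffAt)

theorem Ds_const_mul {f : P → ℝ} (l : List Bool) (c : ℝ) (hf : ContDiff ℝ ∞ f) :
    Ds l (fun q => c * f q) = fun q => c * Ds l f q := by
  induction l with
  | nil => rfl
  | cons i l ih =>
    funext p
    simp only [Ds_cons, ih]
    exact D_const_mul i c (diffAt (contDiff_Ds l hf).contDiffAt)

theorem Ds_zero (l : List Bool) : Ds l (fun _ => (0 : ℝ)) = fun _ => 0 := by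
  induction l with
  | nil => rfl
  | cons i l ih => simp [ih]

theorem D_scale {f : P → ℝ} (i : Bool) (a : ℝ) (c : P) (hf : ContDiff ℝ ∞ f) (p : P) :
    D i (fun q => f (c + a • q)) p = a * D i f (c + a • p) := by
  have h1 : HasFDerivAt (fun q : P => c + a • q) (a • ContinuousLinearMap.id ℝ P) p :=
    ((hasFDerivAt_id p).const_smul a).const_add c
  refine (D_of_hasFDerivAt i ((diffAt hf.contDiffAt).hasFDerivAt.comp p h1)).trans ?_
  simp [D]

theorem Ds_scale {f : P → ℝ} (l : List Bool) (a : ℝ) (c : P) (hf : ContDiff ℝ ∞ f) :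
    Ds l (fun q => f (c + a • q)) = fun p => a ^ l.length * Ds l f (c + a • p) := by
  induction l with
  | nil => simp
  | cons i l ih =>
    funext p
    simp only [Ds_cons, ih, List.length_cons]
    have h2 : ContDiff ℝ ∞ fun q : P => Ds l f (c + a • q) :=
      (contDiff_Ds l hf).comp (contDiff_const.add (contDiff_id.const_smul a))
    rw [D_const_mul i _ (diffAt h2.contDiffAt), D_scale i a c (contDiff_Ds l hf)]
    ring

theorem Ds_bound_of_compact {f : P → ℝ} (l : List Bool) (hf : ContDiff ℝ ∞ f) {K : Set P}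
    (hK : IsCompact K) : ∃ C : ℝ, 0 ≤ C ∧ ∀ p ∈ K, |Ds l f p| ≤ C := by
  obtain ⟨C, hC⟩ := hK.exists_bound_of_continuousOn (contDiff_Ds l hf).continuous.continuousOn
  exact ⟨max C 0, le_max_right _ _, fun p hp => (hC p hp).trans (le_max_left _ _)⟩

theorem norm_sq_le (p : P) : ‖p‖ ^ 2 ≤ p.1 ^ 2 + p.2 ^ 2 := by
  rw [Prod.norm_def]
  rcases le_total ‖p.1‖ ‖p.2‖ with h | h
  · rw [max_eq_right h, Real.norm_eq_abs, sq_abs]; nlinarith [sq_nonneg p.1]
  · rw [max_eq_left h, Real.norm_eq_abs, sq_abs]; nlinarith [sq_nonneg p.2]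

theorem abs_fst_le (p : P) : |p.1| ≤ ‖p‖ := by simpa using norm_fst_le p
theorem abs_snd_le (p : P) : |p.2| ≤ ‖p‖ := by simpa using norm_snd_le p

theorem contDiff_prof : ContDiff ℝ ∞ prof := by unfold prof; fun_prop

theorem contDiff_bump (B : ℕ) (ε : ℝ) : ContDiff ℝ ∞ (bump B ε) := by
  unfold bump
  exact contDiff_const.mul (Real.smoothTransition.contDiff.comp (by fun_prop))

theorem contDiff_lens (B : ℕ) (δ ε : ℝ) : ContDiff ℝ ∞ (lens B δ ε) :=
  (contDiff_const.mul contDiff_prof).add (contDiff_bump B ε)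

theorem bump_nonneg (B : ℕ) {ε : ℝ} (hε : 0 ≤ ε) (p : P) : 0 ≤ bump B ε p :=
  mul_nonneg (pow_nonneg hε _) (Real.smoothTransition.nonneg _)

theorem bump_le (B : ℕ) {ε : ℝ} (hε : 0 ≤ ε) (p : P) : bump B ε p ≤ ε ^ B :=
  mul_le_of_le_one_right (pow_nonneg hε _) (Real.smoothTransition.le_one _)

theorem bump_eq_zero (B : ℕ) {ε : ℝ} (hε : 0 < ε) {p : P} (h : ε ^ 2 ≤ p.1 ^ 2 + p.2 ^ 2) :
    bump B ε p = 0 := by
  have : 1 ≤ (p.1 ^ 2 + p.2 ^ 2) / ε ^ 2 := by rw [le_div_iff₀ (by positivity)]; linarith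
  rw [bump, Real.smoothTransition.zero_of_nonpos (by linarith), mul_zero]

theorem bump_eq_pow (B : ℕ) {ε : ℝ} (hε : 0 < ε) {p : P} (h : p.1 ^ 2 + p.2 ^ 2 ≤ ε ^ 2 / 2) :
    bump B ε p = ε ^ B := by
  have : (p.1 ^ 2 + p.2 ^ 2) / ε ^ 2 ≤ 1 / 2 := by rw [div_le_iff₀ (by positivity)]; linarith
  rw [bump, Real.smoothTransition.one_of_one_le (by linarith), mul_one]

theorem Ds_bump_eq_zero (l : List Bool) (B : ℕ) {ε : ℝ} (hε : 0 < ε) {p : P}
    (h : ε ^ 2 < p.1 ^ 2 + p.2 ^ 2) : Ds l (bump B ε) p = 0 := by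
  have h1 : bump B ε =ᶠ[𝓝 p] fun _ => 0 := by
    have : ∀ᶠ q : P in 𝓝 p, ε ^ 2 < q.1 ^ 2 + q.2 ^ 2 :=
      (isOpen_lt continuous_const (by fun_prop)).mem_nhds h
    filter_upwards [this] with q hq using bump_eq_zero B hε hq.le
  rw [(Ds_congr l h1).eq_of_nhds, Ds_zero]

theorem Ds_bump_eq_zero' (l : List Bool) (B : ℕ) {ε : ℝ} (hε : 0 < ε) {p : P}
    (h : ε < ‖p‖) : Ds l (bump B ε) p = 0 :=
  Ds_bump_eq_zero l B hε (lt_of_lt_of_le (by gcongr) (norm_sq_le p))

/-- the derivatives of positive order of the bump vanish near the centre -/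
theorem Ds_bump_centre (i : Bool) (l : List Bool) (B : ℕ) {ε : ℝ} (hε : 0 < ε) :
    Ds (l ++ [i]) (bump B ε) 0 = 0 := by
  have h1 : bump B ε =ᶠ[𝓝 0] fun _ => ε ^ B := by
    have : ∀ᶠ q : P in 𝓝 0, q.1 ^ 2 + q.2 ^ 2 < ε ^ 2 / 2 :=
      (isOpen_lt (by fun_prop) continuous_const).mem_nhds (by simp; positivity)
    filter_upwards [this] with q hq using bump_eq_pow B hε hq.le
  rw [(Ds_congr _ h1).eq_of_nhds, Ds_append]
  simp [Ds_zero]

theorem bump_eq_scale (B : ℕ) {ε : ℝ} (hε : 0 < ε) :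
    bump B ε = fun p => ε ^ B * bump 0 1 (0 + ε⁻¹ • p) := by
  funext p
  simp only [bump, zero_add, Prod.smul_fst, Prod.smul_snd, smul_eq_mul, pow_zero, one_mul, one_pow,
    div_one]
  congr 2
  field_simp

theorem Ds_bump_bound (l : List Bool) : ∃ C : ℝ, 0 ≤ C ∧ ∀ (B : ℕ) (ε : ℝ), 0 < ε → ∀ p : P,
    |Ds l (bump B ε) p| ≤ C * (ε ^ B / ε ^ l.length) := by
  obtain ⟨C, hC0, hC⟩ := Ds_bound_of_compact l (contDiff_bump 0 1)
    (isCompact_closedBall (0 : P) 1)
  have hC' : ∀ p, |Ds l (bump 0 1) p| ≤ C := by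
    intro p
    by_cases hp : ‖p‖ ≤ 1
    · exact hC p (by simpa using hp)
    · rw [Ds_bump_eq_zero' l 0 one_pos (not_le.1 hp)]; simpa using hC0
  refine ⟨C, hC0, fun B ε hε p => ?_⟩
  have h2 : ContDiff ℝ ∞ fun p : P => bump 0 1 (0 + ε⁻¹ • p) :=
    (contDiff_bump 0 1).comp (contDiff_const.add (contDiff_id.const_smul ε⁻¹))
  rw [bump_eq_scale B hε, Ds_const_mul l _ h2, Ds_scale l _ _ (contDiff_bump 0 1)]
  simp only [abs_mul, abs_pow, abs_inv, abs_of_pos hε]
  calc _ ≤ ε ^ B * (ε⁻¹ ^ l.length * C) := by gcongr; exact hC' _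
    _ = _ := by rw [inv_pow]; field_simp

theorem D_prof (i : Bool) (p : P) :
    D i prof p = (if i then p.1 else p.2) * (1 - (p.1 ^ 2 + p.2 ^ 2)) / 2 := by
  have h1 : HasFDerivAt (fun q : P => q.1 ^ 2 + q.2 ^ 2)
      ((2 * p.1) • ContinuousLinearMap.fst ℝ ℝ ℝ + (2 * p.2) • ContinuousLinearMap.snd ℝ ℝ ℝ) p := by
    have a := (hasFDerivAt_fst (𝕜 := ℝ) (p := p)).pow 2
    have b := (hasFDerivAt_snd (𝕜 := ℝ) (p := p)).pow 2
    exact (a.fun_add b).congr_fderiv (by simp)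
  have h2 : HasDerivAt (fun t : ℝ => t / 4 - t ^ 2 / 8) (1 / 4 - 2 * (p.1 ^ 2 + p.2 ^ 2) / 8)
      (p.1 ^ 2 + p.2 ^ 2) := by
    have := ((hasDerivAt_id' (p.1 ^ 2 + p.2 ^ 2)).div_const 4).fun_sub
      ((hasDerivAt_pow 2 (p.1 ^ 2 + p.2 ^ 2)).div_const 8)
    exact this.congr_deriv (by simp)
  have := D_comp (F := fun t : ℝ => t / 4 - t ^ 2 / 8) (f := fun q : P => q.1 ^ 2 + q.2 ^ 2) i h2
    h1.differentiableAt
  rw [D_of_hasFDerivAt i h1] at this
  refine this.trans ?_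
  cases i <;> simp [ev] <;> ring

theorem lap_prof (p : P) :
    Ds [true, true] prof p + Ds [false, false] prof p = 1 - 2 * (p.1 ^ 2 + p.2 ^ 2) := by
  have e : ∀ i, D i prof = fun p => (1 / 2) * ((if i then p.1 else p.2) * (1 - (p.1 ^ 2 + p.2 ^ 2))) :=
    fun i => funext fun p => by rw [D_prof]; ring
  simp only [Ds_cons, Ds_nil, e, if_true, Bool.false_eq_true, if_false]
  rw [D_const_mul _ _ (by fun_prop), D_const_mul _ _ (by fun_prop), D_mul _ (by fun_prop) (by fun_prop),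
    D_mul _ (by fun_prop) (by fun_prop), D_sub _ (by fun_prop) (by fun_prop),
    D_sub _ (by fun_prop) (by fun_prop), D_add _ (by fun_prop) (by fun_prop),
    D_add _ (by fun_prop) (by fun_prop), D_pow _ _ (by fun_prop), D_pow _ _ (by fun_prop),
    D_pow _ _ (by fun_prop), D_pow _ _ (by fun_prop)]
  simp [D_fst, D_snd]
  ring

theorem Ds_lens (l : List Bool) (B : ℕ) (δ ε : ℝ) :
    Ds l (lens B δ ε) = fun p => δ * Ds l prof p + Ds l (bump B ε) p := by
  unfold lens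
  rw [Ds_add l (contDiff_const.mul contDiff_prof) (contDiff_bump B ε), Ds_const_mul l δ contDiff_prof]

/-- integration by parts -/
theorem integral_mul_D {f g : P → ℝ} (i : Bool) (hf : ContDiff ℝ ∞ f) (hg : ContDiff ℝ ∞ g)
    (hc : HasCompactSupport f) : ∫ p, f p * D i g p = -∫ p, D i f p * g p := by
  have hc' : HasCompactSupport (D i f) := hc.fderiv_apply ℝ (ev i)
  exact integral_mul_fderiv_eq_neg_fderiv_mul_of_integrable
    (((contDiff_D i hf).continuous.mul hg.continuous).integrable_of_hasCompactSupport hc'.mul_right)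
    ((hf.continuous.mul (contDiff_D i hg).continuous).integrable_of_hasCompactSupport hc.mul_right)
    ((hf.continuous.mul hg.continuous).integrable_of_hasCompactSupport hc.mul_right)
    (fun _ _ => diffAt hf.contDiffAt) (fun _ _ => diffAt hg.contDiffAt)

theorem integral_D {f : P → ℝ} (i : Bool) (hf : ContDiff ℝ ∞ f) (hc : HasCompactSupport f) :
    ∫ p, D i f p = 0 := by
  have := integral_mul_D (g := fun _ => 1) i hf contDiff_const hc
  simpa using this.symm

end Crest.Agent.R220
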