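import Mathlib

/-! Row 220: the pointwise inequality behind the multiplier estimate, and the one-variable
functions from which the multipliers are built. -/

set_option autoImplicit false
open scoped ContDiff Topology
open Set Filter

namespace Crest.Agent.R220

theorem small_of_cont (Ψ : ℝ × (ℕ → ℝ) → ℝ) (hc : Continuous Ψ) (h0 : ∀ w, Ψ (0, w) = 0)
    (Z : ℝ) {e : ℝ} (he : 0 < e) :
    ∀ᶠ η in 𝓝 (0 : ℝ), ∀ w : ℕ → ℝ, (∀ i, |w i| ≤ Z) → |Ψ (η, w)| ≤ e := by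
  have h := (isCompact_univ_pi fun _ : ℕ => isCompact_Icc (a := -Z) (b := Z)).eventually_forall_of_forall_eventually
    (x₀ := (0 : ℝ)) (P := fun η w => |Ψ (η, w)| < e) fun w _ =>
      (isOpen_lt hc.abs continuous_const).mem_nhds (by simpa [h0] using he)
  filter_upwards [h] with η hη w hw
  exact (hη w fun i _ => abs_le.1 (hw i)).le

theorem ex_mul {x a b : ℝ} (ha : 0 ≤ a) (hb : 0 ≤ b) (h : |x| ≤ b * a) : ∃ x', |x'| ≤ b ∧ x = a * x' := by
  rcases ha.eq_or_lt with rfl | ha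
  · exact ⟨0, by simpa using hb, by simpa using h⟩
  · exact ⟨x / a, by rw [abs_div, abs_of_pos ha, div_le_iff₀ ha]; exact h, by field_simp⟩

namespace Re

def H (v u K : ℝ) : ℝ := 1 + u ^ 2 + K * v ^ 2
def c (v u K f2 : ℝ) : ℝ := f2 * H v u K
def α1 (k v u K f2 : ℝ) : ℝ := -((k + 1) * c v u K f2) - 2 * f2 * K * v ^ 2
def α2 (v u f2 : ℝ) : ℝ := -(2 * f2 * u * v)
def β1 (k v u K K1 f1 f2 : ℝ) : ℝ := (k + 2) * (v * K1) - 2 * (f1 + u * f2) * K * v
def β2 (k v u K f1 f2 : ℝ) : ℝ := -((k + 1) * c v u K f2) - 2 * u * (f1 + u * f2)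
/-- the value of `Y s` -/
def Ys (v u v1 K K1 f1 f2 y : ℝ) : ℝ := y * (v * (v * K1) - (f1 + u * f2) * H v u K + K * (v * v1))
def cA (k v u K K1 K2 f1 f2 φ Xφ g Yg : ℝ) : ℝ :=
  -(Xφ * K) - φ * (v * K1) + Yg * K + g * (K2 - u * K1) + 2 * g * K * α1 k v u K f2
    + 2 * φ * β1 k v u K K1 f1 f2 + c v u K f2 * g * K
def cB (k v u K f1 f2 φ Xφ g Yg : ℝ) : ℝ :=
  Xφ - Yg + 2 * φ * α2 v u f2 - 2 * g * β2 k v u K f1 f2 - c v u K f2 * g
def cC (k v u K K1 f1 f2 φ Yφ g Xg : ℝ) : ℝ :=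
  Yφ + Xg * K + g * (v * K1) + φ * α1 k v u K f2 + g * K * α2 v u f2 + φ * β2 k v u K f1 f2
    - g * β1 k v u K K1 f1 f2 + c v u K f2 * φ

def PA (η k L v u u1 v1 v2 f1 f2 e0 e1 e2 x y φ γ γ' w : ℝ) : ℝ :=
  let κ := 2 * (x ^ 2 + y ^ 2) - 1
  let o := (η * w) ^ 2
  let K := o * (κ + η * e0)
  (-((1 + η * u1 * y) * (κ + η * e0)) + (2 * k + 3) * φ * (4 * x + η * e1)
    - 4 * φ * (o * f1 + η * u * (o * f2)) * (κ + η * e0) + γ' * (κ + η * e0)
    + γ * L * (η * v2 - η * u * (η * v1)) * (κ + η * e0)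
    + γ * ((4 * y + η * e2) - η * u * (4 * x + η * e1))
    + 2 * γ * (κ + η * e0) * α1 k v (η * u) K (o * f2) + c v (η * u) K (o * f2) * γ * (κ + η * e0))
  - (4 * (2 * k + 3) * φ * (x + η * u * y) + 4 * γ * y - (1 - γ') * κ)

def PB (η k L v u u1 v1 v2 f1 f2 e0 x y φ γ w : ℝ) : ℝ :=
  let κ := 2 * (x ^ 2 + y ^ 2) - 1
  let o := (η * w) ^ 2
  let K := o * (κ + η * e0)
  η * u1 * y - γ * L * (η * v2 - η * u * (η * v1)) + 2 * φ * L * α2 v (η * u) (o * f2)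
    - 2 * γ * β2 k v (η * u) K (o * f1) (o * f2) - c v (η * u) K (o * f2) * γ

def PC (η k v u v1 f1 f2 e0 e1 x y φ γ w : ℝ) : ℝ :=
  let κ := 2 * (x ^ 2 + y ^ 2) - 1
  let o := (η * w) ^ 2
  let K := o * (κ + η * e0)
  let h := H v (η * u) K
  let ψ := f1 + η * u * f2
  η * w * (y * (v * (v * (4 * x + η * e1)) - ψ * h + (κ + η * e0) * (v * (η * v1)))
    + γ * (v * (η * v1)) * (κ + η * e0) + v * γ * (v * (4 * x + η * e1))
    + φ * (-((k + 1) * (f2 * h)) - 2 * f2 * K * v ^ 2) + v * γ * K * -(2 * f2 * (η * u) * v)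
    + φ * (-((k + 1) * (f2 * h)) - 2 * (η * u) * ψ)
    - v * γ * ((k + 2) * (v * (4 * x + η * e1)) - 2 * ψ * K * v) + f2 * h * φ)

section
variable {X : Type*} [TopologicalSpace X] {k v u K f1 f2 : X → ℝ}

@[fun_prop] theorem cont_H (hv : Continuous v) (hu : Continuous u) (hK : Continuous K) :
    Continuous fun x => H (v x) (u x) (K x) := by unfold H; fun_prop
@[fun_prop] theorem cont_c (hv : Continuous v) (hu : Continuous u) (hK : Continuous K)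
    (h2 : Continuous f2) : Continuous fun x => c (v x) (u x) (K x) (f2 x) := by unfold c; fun_prop
@[fun_prop] theorem cont_α1 (hk : Continuous k) (hv : Continuous v) (hu : Continuous u)
    (hK : Continuous K) (h2 : Continuous f2) :
    Continuous fun x => α1 (k x) (v x) (u x) (K x) (f2 x) := by unfold α1; fun_prop
@[fun_prop] theorem cont_α2 (hv : Continuous v) (hu : Continuous u) (h2 : Continuous f2) :
    Continuous fun x => α2 (v x) (u x) (f2 x) := by unfold α2; fun_prop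
@[fun_prop] theorem cont_β2 (hk : Continuous k) (hv : Continuous v) (hu : Continuous u)
    (hK : Continuous K) (h1 : Continuous f1) (h2 : Continuous f2) :
    Continuous fun x => β2 (k x) (v x) (u x) (K x) (f1 x) (f2 x) := by unfold β2; fun_prop
end

theorem contA : Continuous fun z : ℝ × (ℕ → ℝ) => PA z.1 (z.2 0) (z.2 1) (z.2 2) (z.2 3) (z.2 4)
    (z.2 5) (z.2 6) (z.2 7) (z.2 8) (z.2 9) (z.2 10) (z.2 11) (z.2 12) (z.2 13) (z.2 14) (z.2 15)
    (z.2 16) (z.2 17) := by unfold PA; fun_prop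

theorem contB : Continuous fun z : ℝ × (ℕ → ℝ) => PB z.1 (z.2 0) (z.2 1) (z.2 2) (z.2 3) (z.2 4)
    (z.2 5) (z.2 6) (z.2 7) (z.2 8) (z.2 9) (z.2 12) (z.2 13) (z.2 14) (z.2 15) (z.2 17) := by
  unfold PB; fun_prop

theorem contC : Continuous fun z : ℝ × (ℕ → ℝ) => PC z.1 (z.2 0) (z.2 2) (z.2 3) (z.2 5)
    (z.2 7) (z.2 8) (z.2 9) (z.2 10) (z.2 12) (z.2 13) (z.2 14) (z.2 15) (z.2 17) := by
  unfold PC; fun_prop

theorem PA_zero (k L v u u1 v1 v2 f1 f2 e0 e1 e2 x y φ γ γ' w : ℝ) :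
    PA 0 k L v u u1 v1 v2 f1 f2 e0 e1 e2 x y φ γ γ' w = 0 := by unfold PA α1 c H; ring
theorem PB_zero (k L v u u1 v1 v2 f1 f2 e0 x y φ γ w : ℝ) :
    PB 0 k L v u u1 v1 v2 f1 f2 e0 x y φ γ w = 0 := by unfold PB α2 β2 c H; ring
theorem PC_zero (k v u v1 f1 f2 e0 e1 x y φ γ w : ℝ) :
    PC 0 k v u v1 f1 f2 e0 e1 x y φ γ w = 0 := by unfold PC; ring

theorem smallP (Z : ℝ) {e : ℝ} (he : 0 < e) : ∀ᶠ η in 𝓝 (0 : ℝ),
    ∀ k L v u u1 v1 v2 f1 f2 e0 e1 e2 x y φ γ γ' w : ℝ,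
      (∀ t ∈ [k, L, v, u, u1, v1, v2, f1, f2, e0, e1, e2, x, y, φ, γ, γ', w], |t| ≤ Z) →
      |PA η k L v u u1 v1 v2 f1 f2 e0 e1 e2 x y φ γ γ' w| ≤ e ∧
      |PB η k L v u u1 v1 v2 f1 f2 e0 x y φ γ w| ≤ e ∧ |PC η k v u v1 f1 f2 e0 e1 x y φ γ w| ≤ e := by
  filter_upwards [small_of_cont _ contA (fun _ => PA_zero ..) Z he,
    small_of_cont _ contB (fun _ => PB_zero ..) Z he, small_of_cont _ contC (fun _ => PC_zero ..) Z he]
    with η hA hB hC k L v u u1 v1 v2 f1 f2 e0 e1 e2 x y φ γ γ' w h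
  have hb : ∀ i, |[k, L, v, u, u1, v1, v2, f1, f2, e0, e1, e2, x, y, φ, γ, γ', w].getD i k| ≤ Z := by
    intro i
    rw [List.getD_eq_getElem?_getD]
    cases hi : [k, L, v, u, u1, v1, v2, f1, f2, e0, e1, e2, x, y, φ, γ, γ', w][i]? with
    | none => exact h k List.mem_cons_self
    | some t => exact h t (List.mem_of_getElem? hi)
  have hA' := hA _ hb
  have hB' := hB _ hb
  have hC' := hC _ hb
  simp only [List.getD_cons_zero, List.getD_cons_succ] at hA' hB' hC'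
  exact ⟨hA', hB', hC'⟩

theorem eA {η k L v u u1 v1 v2 f1 f2 e0 e1 e2 x y φ γ γ' w σ : ℝ} (hL : L * v = 1) :
    cA k v (η * u) ((η * w) ^ 2 * (2 * (x ^ 2 + y ^ 2) - 1 + η * e0)) ((η * w) ^ 2 * (4 * x + η * e1))
      ((η * w) ^ 2 * (4 * y + η * e2)) ((η * w) ^ 2 * f1) ((η * w) ^ 2 * f2) (σ * φ)
      (σ * (v * (1 + η * u1 * y))) (v * (σ * γ)) (v * (σ * γ') + σ * γ * (η * v2 - η * u * (η * v1))) =
    (η * w) ^ 2 * v * (σ * PA η k L v u u1 v1 v2 f1 f2 e0 e1 e2 x y φ γ γ' w +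
      (4 * (2 * k + 3) * (σ * φ) * (x + η * u * y) + 4 * (σ * γ) * y
        - (σ - σ * γ') * (2 * (x ^ 2 + y ^ 2) - 1))) := by
  unfold cA PA β1
  linear_combination (-((η * w) ^ 2 * σ * γ * (η * v2 - η * u * (η * v1)) *
    (2 * (x ^ 2 + y ^ 2) - 1 + η * e0))) * hL

theorem eB {η k L v u u1 v1 v2 f1 f2 e0 x y φ γ γ' w σ : ℝ} (hL : L * v = 1) :
    cB k v (η * u) ((η * w) ^ 2 * (2 * (x ^ 2 + y ^ 2) - 1 + η * e0))
      ((η * w) ^ 2 * f1) ((η * w) ^ 2 * f2) (σ * φ)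
      (σ * (v * (1 + η * u1 * y))) (v * (σ * γ)) (v * (σ * γ') + σ * γ * (η * v2 - η * u * (η * v1))) =
    v * σ * (PB η k L v u u1 v1 v2 f1 f2 e0 x y φ γ w + (1 - γ')) := by
  unfold cB PB
  linear_combination (σ * γ * (η * v2 - η * u * (η * v1))
    - 2 * σ * φ * α2 v (η * u) ((η * w) ^ 2 * f2)) * hL

theorem eC {η k v u v1 f1 f2 e0 e1 x y φ γ w σ θ : ℝ} :
    cC k v (η * u) ((η * w) ^ 2 * (2 * (x ^ 2 + y ^ 2) - 1 + η * e0)) ((η * w) ^ 2 * (4 * x + η * e1))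
      ((η * w) ^ 2 * f1) ((η * w) ^ 2 * f2) (σ * φ)
      (σ * Ys v (η * u) (η * v1) ((η * w) ^ 2 * (2 * (x ^ 2 + y ^ 2) - 1 + η * e0))
        ((η * w) ^ 2 * (4 * x + η * e1)) ((η * w) ^ 2 * f1) ((η * w) ^ 2 * f2) y + σ * θ)
      (v * (σ * γ)) (σ * γ * (v * (η * v1))) =
    σ * (θ + η * w * PC η k v u v1 f1 f2 e0 e1 x y φ γ w) := by
  unfold cC PC Ys α1 α2 β1 β2 c; ring

theorem quad {om q σ A B C : ℝ} (om0 : 0 < om) (om1 : om ≤ 1) (q0 : 0 < q) (σ0 : 0 ≤ σ)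
    (lA : om ^ 2 * q * (σ / 20) ≤ A) (lB : q * σ * (1 / 4) ≤ B) (lC : |C| ≤ σ * (om * q / 20))
    (a b : ℝ) : om ^ 2 * q / 40 * σ * (a ^ 2 + b ^ 2) ≤ A * a ^ 2 + B * b ^ 2 + 2 * C * a * b := by
  have om2 : om ^ 2 ≤ 1 := pow_le_one₀ om0.le om1
  have t1 := mul_le_mul_of_nonneg_right lA (sq_nonneg a)
  have t2 := mul_le_mul_of_nonneg_right lB (sq_nonneg b)
  have t3 : -(σ * (om * q / 20) * |a * b|) ≤ C * (a * b) :=
    neg_le_of_abs_le (by rw [abs_mul]; gcongr)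
  have t4 : om * |a * b| ≤ om ^ 2 * a ^ 2 / 4 + b ^ 2 := by
    rw [abs_mul, ← sq_abs a, ← sq_abs b]; nlinarith [sq_nonneg (om * |a| / 2 - |b|)]
  have t5 := mul_le_mul_of_nonneg_left t4 (show 0 ≤ σ * q by positivity)
  have t6 := mul_le_mul_of_nonneg_right om2 (show 0 ≤ σ * q * b ^ 2 by positivity)
  have t7 : 0 ≤ σ * q * b ^ 2 := by positivity
  linarith

theorem coer (n m : ℝ) (hn : 1 ≤ n) (hm : 0 ≤ m) : ∀ᶠ η in 𝓝[>] (0 : ℝ),
    ∀ om k L v u u1 v1 v2 f1 f2 K K1 K2 x y σ φ γ γ' θ : ℝ, 0 < om → om ≤ η → 0 ≤ k → k ≤ m →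
      L * v = 1 → 0 < v → v ≤ n → L ≤ n → |u| ≤ η → |u1| ≤ η → |v1| ≤ η → |v2| ≤ η →
      |f1| ≤ om ^ 2 → |f2| ≤ om ^ 2 → |K - om ^ 2 * (2 * (x ^ 2 + y ^ 2) - 1)| ≤ η * om ^ 2 →
      |K1 - om ^ 2 * (4 * x)| ≤ η * om ^ 2 → |K2 - om ^ 2 * (4 * y)| ≤ η * om ^ 2 → |x| ≤ 1 → |y| ≤ 1 →
      0 ≤ σ → |φ| ≤ 10 * σ → |γ| ≤ σ → 0 ≤ γ' → γ' ≤ σ / 2 → |θ| ≤ om / (40 * n) * σ →
      σ / 10 ≤ 4 * (2 * k + 3) * φ * (x + u * y) + 4 * γ * y - (σ - γ') * (2 * (x ^ 2 + y ^ 2) - 1) →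
      ∀ a b : ℝ, om ^ 2 / (40 * n) * σ * (a ^ 2 + b ^ 2) ≤
        cA k v u K K1 K2 f1 f2 φ (σ * (v * (1 + u1 * y))) (v * γ) (v * γ' + γ * (v2 - u * v1)) * a ^ 2
        + cB k v u K f1 f2 φ (σ * (v * (1 + u1 * y))) (v * γ) (v * γ' + γ * (v2 - u * v1)) * b ^ 2
        + 2 * cC k v u K K1 f1 f2 φ (σ * Ys v u v1 K K1 f1 f2 y + θ) (v * γ) (γ * (v * v1)) * a * b := by
  obtain ⟨q, hq⟩ : ∃ q, q = 1 / n := ⟨_, rfl⟩
  have q0 : 0 < q := by rw [hq]; positivity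
  have q1 : q ≤ 1 := by rw [hq, div_le_one (by linarith)]; exact hn
  filter_upwards [nhdsWithin_le_nhds (smallP (10 + n + m) (e := q / 40) (by positivity)),
    Ioc_mem_nhdsGT (one_pos (α := ℝ))] with η hP hη
  intro om k L v u u1 v1 v2 f1 f2 K K1 K2 x y σ φ γ γ' θ om0 omη k0 km hL v0 vn Ln hu hu1 hv1 hv2 hf1 hf2
    hK hK1 hK2 hx hy σ0 hφ hγ γ0 γ1 hθ h0 a b
  have η0 := hη.1
  have L0 : 0 < L := by by_contra h; push Not at h; nlinarith
  have hv : q ≤ v := by rw [hq, div_le_iff₀ (by linarith)]; nlinarith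
  obtain ⟨u, bu, rfl⟩ := ex_mul η0.le zero_le_one (hu.trans_eq (one_mul _).symm)
  obtain ⟨u1, bu1, rfl⟩ := ex_mul η0.le zero_le_one (hu1.trans_eq (one_mul _).symm)
  obtain ⟨v1, bv1, rfl⟩ := ex_mul η0.le zero_le_one (hv1.trans_eq (one_mul _).symm)
  obtain ⟨v2, bv2, rfl⟩ := ex_mul η0.le zero_le_one (hv2.trans_eq (one_mul _).symm)
  obtain ⟨f1, bf1, rfl⟩ := ex_mul (sq_nonneg om) zero_le_one (hf1.trans_eq (one_mul _).symm)
  obtain ⟨f2, bf2, rfl⟩ := ex_mul (sq_nonneg om) zero_le_one (hf2.trans_eq (one_mul _).symm)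
  have o0 : 0 ≤ η * om ^ 2 := by positivity
  obtain ⟨e0, be0, he0⟩ := ex_mul o0 zero_le_one (hK.trans_eq (one_mul _).symm)
  obtain ⟨e1, be1, he1⟩ := ex_mul o0 zero_le_one (hK1.trans_eq (one_mul _).symm)
  obtain ⟨e2, be2, he2⟩ := ex_mul o0 zero_le_one (hK2.trans_eq (one_mul _).symm)
  obtain rfl : K = om ^ 2 * (2 * (x ^ 2 + y ^ 2) - 1 + η * e0) := by linear_combination he0
  obtain rfl : K1 = om ^ 2 * (4 * x + η * e1) := by linear_combination he1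
  obtain rfl : K2 = om ^ 2 * (4 * y + η * e2) := by linear_combination he2
  obtain ⟨φ, bφ, rfl⟩ := ex_mul σ0 (by norm_num) hφ
  obtain ⟨γ, bγ, rfl⟩ := ex_mul σ0 zero_le_one (hγ.trans_eq (one_mul _).symm)
  obtain ⟨γ', bγ', rfl⟩ := ex_mul (x := γ') σ0 (b := 1 / 2) (by norm_num)
    (by rw [abs_of_nonneg γ0]; linarith)
  obtain ⟨θ, bθ, rfl⟩ := ex_mul σ0 (by positivity) hθ
  obtain ⟨w, bw, rfl⟩ := ex_mul (x := om) η0.le zero_le_one (by rw [abs_of_pos om0]; linarith)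
  clear hu hu1 hv1 hv2 hf1 hf2 hK hK1 hK2 he0 he1 he2 hφ hγ hθ
  have h1 : 1 ≤ 10 + n + m := by linarith
  obtain ⟨qA, qB, qC⟩ := hP k L v u u1 v1 v2 f1 f2 e0 e1 e2 x y φ γ γ' w (by
    simp only [List.forall_mem_cons, List.not_mem_nil, false_imp_iff, implies_true, and_true]
    exact ⟨by rw [abs_of_nonneg k0]; linarith, by rw [abs_of_pos L0]; linarith,
      by rw [abs_of_pos v0]; linarith, bu.trans h1, bu1.trans h1, bv1.trans h1, bv2.trans h1,
      bf1.trans h1, bf2.trans h1, be0.trans h1, be1.trans h1, be2.trans h1, hx.trans h1, hy.trans h1,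
      by linarith, bγ.trans h1, by linarith, bw.trans h1⟩)
  have e : (η * w) ^ 2 / (40 * n) = (η * w) ^ 2 * q / 40 := by rw [hq]; field_simp
  rw [eA hL, eB hL, eC, e]
  refine quad om0 (omη.trans hη.2) q0 σ0 ?_ ?_ ?_ a b
  · have := mul_le_mul_of_nonneg_left ((neg_le_neg (show q / 40 ≤ 1 / 20 by linarith)).trans
      (neg_le_of_abs_le qA)) σ0
    gcongr
    linarith
  · have := neg_le_of_abs_le qB
    have := le_of_abs_le bγ'
    gcongr
    linarith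
  · rw [abs_mul, abs_of_nonneg σ0]
    gcongr
    refine (abs_add_le _ _).trans ?_
    rw [abs_mul, abs_of_pos om0]
    have := mul_le_mul_of_nonneg_left qC om0.le
    have e : η * w / (40 * n) = η * w * (q / 40) := by rw [hq]; field_simp
    linarith

theorem main_part {k φ s γ γ' σ x y η : ℝ} (k0 : 0 ≤ k) (hs : |s - x| ≤ η) (hη : η ≤ 1 / 1000)
    (hr : x ^ 2 + y ^ 2 ≤ 7 / 10) (h1 : 0 ≤ φ * s) (h2 : y ^ 2 / 2 - |y| / 16 ≤ γ * y) (h2' : 0 ≤ γ * y)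
    (γ0 : 0 ≤ γ') (γ1 : γ' ≤ σ / 2) (σ2 : σ ≤ 2) (h3 : s ^ 2 - η ≤ φ * s) :
    σ / 10 ≤ 4 * (2 * k + 3) * φ * s + 4 * γ * y - (σ - γ') * (2 * (x ^ 2 + y ^ 2) - 1) := by
  have a1 := mul_nonneg k0 h1
  rcases le_total (x ^ 2 + y ^ 2) (2 / 5) with h | h
  · nlinarith [mul_nonneg (show 0 ≤ σ - γ' - σ / 2 by linarith)
      (show 0 ≤ 1 - 2 * (x ^ 2 + y ^ 2) by linarith),
      mul_nonneg (show 0 ≤ σ by linarith) (show 0 ≤ 4 / 5 - 2 * (x ^ 2 + y ^ 2) by linarith)]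
  · have hy : |y| ≤ 1 := abs_le_of_sq_le_sq (by nlinarith) zero_le_one
    have hx : |x| ≤ 1 := abs_le_of_sq_le_sq (by nlinarith) zero_le_one
    have hs2 : x ^ 2 - 2 * η ≤ s ^ 2 := by
      have : |x * (s - x)| ≤ 1 * η := by rw [abs_mul]; gcongr
      nlinarith [neg_le_of_abs_le this, sq_nonneg (s - x)]
    have η0 : 0 ≤ η := (abs_nonneg _).trans hs
    rcases le_total (2 * (x ^ 2 + y ^ 2) - 1) 0 with h' | h'
    · nlinarith [mul_nonneg (show 0 ≤ σ - γ' by linarith)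
        (show 0 ≤ 1 - 2 * (x ^ 2 + y ^ 2) by linarith), sq_nonneg x]
    · nlinarith [mul_nonneg (show 0 ≤ 2 - (σ - γ') by linarith) h', sq_nonneg x]

end Re

/-- smoothed positive part -/
noncomputable def ff (h t : ℝ) : ℝ := ∫ u in (0 : ℝ)..t, Real.smoothTransition (u / h)

theorem hasDerivAt_ff (h t : ℝ) : HasDerivAt (ff h) (Real.smoothTransition (t / h)) t :=
  (Continuous.integral_hasStrictDerivAt (f := fun u => Real.smoothTransition (u / h))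
    (by fun_prop) 0 t).hasDerivAt

theorem deriv_ff (h : ℝ) : deriv (ff h) = fun t => Real.smoothTransition (t / h) :=
  funext fun t => (hasDerivAt_ff h t).deriv

theorem contDiff_ff (h : ℝ) : ContDiff ℝ ∞ (ff h) := by
  rw [contDiff_infty_iff_deriv, deriv_ff]
  exact ⟨fun t => (hasDerivAt_ff h t).differentiableAt,
    Real.smoothTransition.contDiff.comp (contDiff_id.div_const h)⟩

theorem ff_mono (h : ℝ) : Monotone (ff h) :=
  monotone_of_deriv_nonneg (fun t => (hasDerivAt_ff h t).differentiableAt) fun t => by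
    rw [deriv_ff]; exact Real.smoothTransition.nonneg _

theorem ff_zero {h t : ℝ} (h0 : 0 < h) (ht : t ≤ 0) : ff h t = 0 := by
  unfold ff
  rw [intervalIntegral.integral_congr (g := fun _ => 0) fun u hu => ?_]
  · simp
  · rw [uIcc_of_ge ht] at hu
    exact Real.smoothTransition.zero_of_nonpos (div_nonpos_of_nonpos_of_nonneg hu.2 h0.le)

theorem ff_nonneg {h : ℝ} (h0 : 0 < h) (t : ℝ) : 0 ≤ ff h t := by
  rcases le_total t 0 with ht | ht
  · rw [ff_zero h0 ht]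
  · rw [← ff_zero h0 le_rfl]; exact ff_mono h ht

theorem ff_le {h : ℝ} (h0 : 0 < h) (t : ℝ) : ff h t ≤ |t| * Real.smoothTransition (t / h) := by
  rcases le_total t 0 with ht | ht
  · rw [ff_zero h0 ht]; exact mul_nonneg (abs_nonneg _) (Real.smoothTransition.nonneg _)
  · have := intervalIntegral.integral_mono_on (μ := MeasureTheory.volume) ht
      (f := fun u => Real.smoothTransition (u / h)) (g := fun _ => Real.smoothTransition (t / h))
      (Continuous.intervalIntegrable (by fun_prop) _ _) (Continuous.intervalIntegrable (by fun_prop) _ _)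
      fun u hu => Real.smoothTransition.monotone (by gcongr; exact hu.2)
    simpa [abs_of_nonneg ht, ff] using this

theorem ff_le' {h : ℝ} (h0 : 0 < h) (t : ℝ) : ff h t ≤ |t| :=
  (ff_le h0 t).trans (mul_le_of_le_one_right (abs_nonneg _) (Real.smoothTransition.le_one _))

theorem le_ff {h : ℝ} (h0 : 0 < h) (t : ℝ) : t - h ≤ ff h t := by
  rcases le_total t h with ht | ht
  · linarith [ff_nonneg h0 t]
  · have e : ff h t = ff h h + ∫ u in h..t, Real.smoothTransition (u / h) :=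
      (intervalIntegral.integral_add_adjacent_intervals
        (Continuous.intervalIntegrable (by fun_prop) _ _)
        (Continuous.intervalIntegrable (by fun_prop) _ _)).symm
    rw [e, intervalIntegral.integral_congr (g := fun _ => 1) fun u hu => ?_]
    · simpa using ff_nonneg h0 h
    · rw [uIcc_of_le ht] at hu
      exact Real.smoothTransition.one_of_one_le (by rw [le_div_iff₀ h0]; linarith [hu.1])

/-- the odd multiplier -/
noncomputable def tw (h τ s : ℝ) : ℝ := ff h (s - τ) - ff h (-s - τ)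
/-- its derivative in `s` -/
noncomputable def sg (h τ s : ℝ) : ℝ :=
  Real.smoothTransition ((s - τ) / h) + Real.smoothTransition ((-s - τ) / h)

theorem tw_neg (h τ s : ℝ) : tw h τ (-s) = -tw h τ s := by simp [tw]

theorem tw_mul_abs (h τ s : ℝ) : tw h τ s * s = tw h τ |s| * |s| := by
  rcases le_total 0 s with hs | hs
  · rw [abs_of_nonneg hs]
  · rw [abs_of_nonpos hs, tw_neg]; ring

theorem tw_mul_nonneg (h τ s : ℝ) : 0 ≤ tw h τ s * s := by
  rw [tw_mul_abs]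
  exact mul_nonneg (sub_nonneg.2 (ff_mono h (by linarith [abs_nonneg s]))) (abs_nonneg _)

theorem sg_nonneg (h τ s : ℝ) : 0 ≤ sg h τ s :=
  add_nonneg (Real.smoothTransition.nonneg _) (Real.smoothTransition.nonneg _)

theorem sg_le (h τ s : ℝ) : sg h τ s ≤ 2 := by
  have := Real.smoothTransition.le_one ((s - τ) / h)
  have := Real.smoothTransition.le_one ((-s - τ) / h)
  unfold sg; linarith

theorem sg_le_one {h τ : ℝ} (h0 : 0 < h) (hτ : 0 ≤ τ) (s : ℝ) : sg h τ s ≤ 1 := by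
  unfold sg
  rcases le_total 0 s with hs | hs
  · rw [Real.smoothTransition.zero_of_nonpos (x := (-s - τ) / h)
      (div_nonpos_of_nonpos_of_nonneg (by linarith) h0.le), add_zero]
    exact Real.smoothTransition.le_one _
  · rw [Real.smoothTransition.zero_of_nonpos (x := (s - τ) / h)
      (div_nonpos_of_nonpos_of_nonneg (by linarith) h0.le), zero_add]
    exact Real.smoothTransition.le_one _

theorem sg_zero {h τ s : ℝ} (h0 : 0 < h) (hs : |s| ≤ τ) : sg h τ s = 0 := by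
  have := abs_le.1 hs
  rw [sg, Real.smoothTransition.zero_of_nonpos (div_nonpos_of_nonpos_of_nonneg (by linarith) h0.le),
    Real.smoothTransition.zero_of_nonpos (div_nonpos_of_nonpos_of_nonneg (by linarith) h0.le), add_zero]

theorem one_le_sg {h τ s : ℝ} (h0 : 0 < h) (hs : τ + h ≤ |s|) : 1 ≤ sg h τ s := by
  unfold sg
  rcases le_total 0 s with h1 | h1
  · rw [abs_of_nonneg h1] at hs
    rw [Real.smoothTransition.one_of_one_le (by rw [le_div_iff₀ h0]; linarith)]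
    linarith [Real.smoothTransition.nonneg ((-s - τ) / h)]
  · rw [abs_of_nonpos h1] at hs
    rw [Real.smoothTransition.one_of_one_le (x := (-s - τ) / h) (by rw [le_div_iff₀ h0]; linarith)]
    linarith [Real.smoothTransition.nonneg ((s - τ) / h)]

theorem abs_tw_le {h : ℝ} (h0 : 0 < h) (τ s : ℝ) : |tw h τ s| ≤ (|s| + |τ|) * sg h τ s := by
  have a1 := ff_le h0 (s - τ)
  have a2 := ff_le h0 (-s - τ)
  have a3 := ff_nonneg h0 (s - τ)
  have a4 := ff_nonneg h0 (-s - τ)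
  have b1 := mul_le_mul_of_nonneg_right (abs_sub s τ) (Real.smoothTransition.nonneg ((s - τ) / h))
  have b2 := mul_le_mul_of_nonneg_right (abs_sub (-s) τ) (Real.smoothTransition.nonneg ((-s - τ) / h))
  rw [abs_neg] at b2
  rw [tw, sg, abs_le, mul_add]
  constructor <;> linarith

theorem le_tw_mul {h τ m : ℝ} (h0 : 0 < h) (hm : 0 ≤ m) (hτ : τ ≤ m) (s : ℝ) :
    s ^ 2 - (m + h) * |s| ≤ tw h τ s * s := by
  rw [tw_mul_abs, ← sq_abs]
  have s0 := abs_nonneg s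
  generalize |s| = t at *
  have : t - (m + h) ≤ tw h τ t := by
    have a1 := le_ff h0 (t - τ)
    unfold tw
    rcases le_total (-t - τ) 0 with h1 | h1
    · rw [ff_zero h0 h1]; linarith
    · have := ff_le' h0 (-t - τ)
      rw [abs_of_nonneg h1] at this; linarith
  nlinarith

end Crest.Agent.R220
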