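import Mathlib

/-! Row 220: interface.  A smooth metric `exp (2 Φ) (dp₁² + dp₂²)` without local smooth isometric
immersion.  The metric contains small "lenses" (discs with negative curvature inside a region of
positive curvature) carrying a tiny bump at the centre.  After rescaling a lens by its radius `R`
and rotating, the second fundamental form `(L, M, N)` of an immersion is as in `Hyp`. -/

set_option autoImplicit false
open scoped ContDiff Topology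
open Set MeasureTheory Filter

namespace Crest.Agent.R220

abbrev P := ℝ × ℝ

/-- the two coordinate vectors: `true` is the first, `false` the second -/
def ev (i : Bool) : P := if i then (1, 0) else (0, 1)

/-- partial derivative -/
noncomputable def D (i : Bool) (f : P → ℝ) (p : P) : ℝ := fderiv ℝ f p (ev i)

/-- iterated partial derivative; the head of the list is applied last -/
noncomputable def Ds : List Bool → (P → ℝ) → P → ℝ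
  | [], f => f
  | i :: l, f => D i (Ds l f)

/-- the open square `(-2,2)²` (the norm of `ℝ × ℝ` is the sup norm) -/
def Om : Set P := Metric.ball 0 2

/-- the radial bump of height `ε ^ B` supported in the disc of radius `ε` -/
noncomputable def bump (B : ℕ) (ε : ℝ) (p : P) : ℝ :=
  ε ^ B * Real.smoothTransition (2 - 2 * ((p.1 ^ 2 + p.2 ^ 2) / ε ^ 2))

/-- the lens profile; its Laplacian is `1 - 2 |p|²` -/
noncomputable def prof (p : P) : ℝ := (p.1 ^ 2 + p.2 ^ 2) / 4 - (p.1 ^ 2 + p.2 ^ 2) ^ 2 / 8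

/-- the conformal factor of a lens -/
noncomputable def lens (B : ℕ) (δ ε : ℝ) (p : P) : ℝ := δ * prof p + bump B ε p

/-- the Codazzi and (scaled) Gauss equations at `p` for the metric `exp (2 φ) (dp₁² + dp₂²)` -/
structure GC (r : ℝ) (φ L M N : P → ℝ) (p : P) : Prop where
  c1 : D false L p - D true M p = D false φ p * (L p + N p)
  c2 : D false M p - D true N p = -(D true φ p * (L p + N p))
  ga : r * (L p * N p - M p ^ 2) =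
    -(Real.exp (2 * φ p) * (Ds [true, true] φ p + Ds [false, false] φ p))

/-- the rescaled, normalised second fundamental form on a lens -/
structure Hyp (n B : ℕ) (R δ ε : ℝ) (L M N : P → ℝ) : Prop where
  sL : ContDiff ℝ ∞ L
  sM : ContDiff ℝ ∞ M
  sN : ContDiff ℝ ∞ N
  gc : ∀ p ∈ Om, GC (R ^ 2) (lens B δ ε) L M N p
  lo : ∀ p ∈ Om, 1 / (n : ℝ) ≤ L p
  hi : ∀ p ∈ Om, L p ≤ n
  bM : ∀ p ∈ Om, |M p| ≤ n * R
  bN : ∀ p ∈ Om, |N p| ≤ n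
  M0 : M 0 = 0
  bd : ∀ l : List Bool, 1 ≤ l.length → l.length ≤ 7 → ∀ f ∈ [L, M, N], ∀ p ∈ Om,
    |Ds l f p| ≤ n * R

/-- the a priori estimates -/
structure Est (B : ℕ) (C Λ ε : ℝ) (L M N : P → ℝ) : Prop where
  l2 : ∀ l : List Bool, l.length + 1 ≤ B → ∀ f ∈ [L, M, N],
    ∫ p in Metric.closedBall (0 : P) (1 / 2), Ds l f p ^ 2 ≤ C
  sup : ∀ l : List Bool, l.length + 3 ≤ B → ∀ f ∈ [L, M, N],
    ∀ p ∈ Metric.closedBall (0 : P) (1 / 2), |Ds l f p| ≤ C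
  ann : ∀ l : List Bool, l.length ≤ B → ∀ f ∈ [L, M, N],
    ∫ p in Metric.closedBall (0 : P) (1 / 2) \ Metric.ball 0 (Λ * ε), Ds l f p ^ 2 ≤ C

def EstStmt : Prop :=
  ∀ n B : ℕ, 1 ≤ n → 12 ≤ B → ∀ᶠ R in 𝓝[>] (0 : ℝ), ∀ᶠ δ in 𝓝[>] (0 : ℝ), ∃ C Λ : ℝ, 1 ≤ Λ ∧
    ∀ᶠ ε in 𝓝[>] (0 : ℝ), ∀ L M N : P → ℝ, Hyp n B R δ ε L M N → Est B C Λ ε L M N

def FinalStmt : Prop :=
  ∀ n B : ℕ, 1 ≤ n → 12 ≤ B → ∀ R ∈ Ioc (0 : ℝ) 1, ∀ δ ∈ Ioc (0 : ℝ) 1, ∀ C Λ : ℝ, 1 ≤ Λ →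
    ∀ᶠ ε in 𝓝[>] (0 : ℝ), ∀ L M N : P → ℝ, Hyp n B R δ ε L M N → ¬ Est B C Λ ε L M N

def LensStmt : Prop :=
  ∀ n B : ℕ, 1 ≤ n → 12 ≤ B → ∀ᶠ R in 𝓝[>] (0 : ℝ), ∀ᶠ δ in 𝓝[>] (0 : ℝ), ∀ᶠ ε in 𝓝[>] (0 : ℝ),
    ∀ L M N : P → ℝ, ¬ Hyp n B R δ ε L M N

theorem lens_of (hE : EstStmt) (hF : FinalStmt) : LensStmt := by
  intro n B hn hB
  have h01 : ∀ᶠ t in 𝓝[>] (0 : ℝ), t ∈ Ioc (0 : ℝ) 1 := Ioc_mem_nhdsGT one_pos
  filter_upwards [hE n B hn hB, h01] with R h1 hR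
  filter_upwards [h1, h01] with δ h2 hδ
  obtain ⟨C, Λ, hΛ, h3⟩ := h2
  filter_upwards [h3, hF n B hn hB R hR δ hδ C Λ hΛ] with ε h4 h5 L M N h
  exact h5 L M N h (h4 L M N h)

/-- Gauss–Codazzi for an isometric immersion `(x, y, z)` of a conformally flat metric -/
def GCStmt : Prop :=
  ∀ (U : Set P) (Φ x y z : P → ℝ), IsOpen U → ContDiff ℝ ∞ Φ → ContDiffOn ℝ ∞ x U →
    ContDiffOn ℝ ∞ y U → ContDiffOn ℝ ∞ z U →
    (∀ i j : Bool, ∀ p ∈ U, D i x p * D j x p + D i y p * D j y p + D i z p * D j z p =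
      if i = j then Real.exp (2 * Φ p) else 0) →
    ∃ L M N : P → ℝ, ContDiffOn ℝ ∞ L U ∧ ContDiffOn ℝ ∞ M U ∧ ContDiffOn ℝ ∞ N U ∧
      (∀ p ∈ U, GC 1 Φ L M N p) ∧
      ∀ p ∈ U, L p = 0 → M p = 0 → N p = 0 → D true Φ p = 0 → D false Φ p = 0 →
        ∀ i j : Bool, ∀ f ∈ [x, y, z], Ds [i, j] f p = 0

/-- rescaling and rotating near a point where the second fundamental form does not vanish -/
def ScaleStmt : Prop :=
  ∀ (U : Set P) (Φ L M N : P → ℝ) (q : P), IsOpen U → ContDiff ℝ ∞ Φ → ContDiffOn ℝ ∞ L U →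
    ContDiffOn ℝ ∞ M U → ContDiffOn ℝ ∞ N U → (∀ p ∈ U, GC 1 Φ L M N p) → q ∈ U →
    ¬ (L q = 0 ∧ M q = 0 ∧ N q = 0) →
    ∃ n₀ : ℕ, ∃ η > (0 : ℝ), ∀ n ≥ n₀, ∀ c : P, dist c q < η → ∀ R ∈ Ioo 0 η,
      ∀ (B : ℕ) (δ ε : ℝ), (∀ p : P, p.1 ^ 2 + p.2 ^ 2 ≤ 9 → Φ (c + R • p) = lens B δ ε p) →
        ∃ L' M' N' : P → ℝ, Hyp n B R δ ε L' M' N'

/-- the statement S0341 -/
def MainStmt : Prop :=
    ∃ g : EuclideanSpace ℝ (Fin 2) →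
        (EuclideanSpace ℝ (Fin 2) →L[ℝ] EuclideanSpace ℝ (Fin 2) →L[ℝ] ℝ),
      ContDiffOn ℝ ∞ g {x : EuclideanSpace ℝ (Fin 2) | ∀ i, x i ∈ Set.Ioo (-1 : ℝ) 1} ∧
      (∀ x ∈ {x : EuclideanSpace ℝ (Fin 2) | ∀ i, x i ∈ Set.Ioo (-1 : ℝ) 1}, ∀ v w, g x v w = g x w v) ∧
      (∀ x ∈ {x : EuclideanSpace ℝ (Fin 2) | ∀ i, x i ∈ Set.Ioo (-1 : ℝ) 1}, ∀ v, v ≠ 0 → 0 < g x v v) ∧
      ∀ U : Set (EuclideanSpace ℝ (Fin 2)), IsOpen U → (0 : EuclideanSpace ℝ (Fin 2)) ∈ U →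
        U ⊆ {x : EuclideanSpace ℝ (Fin 2) | ∀ i, x i ∈ Set.Ioo (-1 : ℝ) 1} →
        ¬ ∃ F : EuclideanSpace ℝ (Fin 2) → EuclideanSpace ℝ (Fin 3), ContDiffOn ℝ ∞ F U ∧
          ∀ x ∈ U, ∀ v w, @inner ℝ (EuclideanSpace ℝ (Fin 3)) _ (fderiv ℝ F x v) (fderiv ℝ F x w)
            = g x v w

end Crest.Agent.R220
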