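import Crest.Agent.R220.Fn
import Crest.Agent.R220.Alg

/-! Row 220: uniform bounds, cut-off functions and the basic integral inequalities. -/

set_option autoImplicit false
open scoped ContDiff Topology
open Set MeasureTheory Filter Asymptotics

namespace Crest.Agent.R220

variable {ι : Type}

/-- uniformly bounded on a disc -/
def Bd (r : ℝ) (e : Sm ι) : Prop := e.1 =O[𝓟 {t | rr t.2 ≤ r}] fun _ => (1 : ℝ)

/-- uniformly bounded in `L²` of a disc -/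
def L2 (r : ℝ) (e : Sm ι) : Prop := UI r (e ^ 2).1

theorem Bd.ex {r : ℝ} {e : Sm ι} (h : Bd r e) : ∃ C, 0 ≤ C ∧ ∀ t : ι × Om, rr t.2 ≤ r → |e.1 t| ≤ C := by
  obtain ⟨C, hC⟩ := isBigO_principal.1 h
  exact ⟨max C 0, le_max_right _ _, fun t ht => le_max_of_le_left (by simpa using hC t ht)⟩

theorem Bd.of {r : ℝ} {e : Sm ι} (C : ℝ) (h : ∀ t : ι × Om, rr t.2 ≤ r → |e.1 t| ≤ C) : Bd r e :=
  isBigO_principal.2 ⟨C, fun t ht => by simpa using h t ht⟩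

theorem Bd.add {r : ℝ} {e f : Sm ι} (h : Bd r e) (h' : Bd r f) : Bd r (e + f) := IsBigO.add h h'
theorem Bd.sub {r : ℝ} {e f : Sm ι} (h : Bd r e) (h' : Bd r f) : Bd r (e - f) := IsBigO.sub h h'
theorem Bd.neg {r : ℝ} {e : Sm ι} (h : Bd r e) : Bd r (-e) := IsBigO.neg_left h
theorem Bd.mul {r : ℝ} {e f : Sm ι} (h : Bd r e) (h' : Bd r f) : Bd r (e * f) :=
  (IsBigO.mul h h').congr_right fun _ => one_mul _
theorem Bd.two {r : ℝ} : Bd r (2 : Sm ι) := Bd.of 2 fun t _ => by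
  change |(2 : ℝ)| ≤ 2; simp
theorem Bd.shrink {r r' : ℝ} {e : Sm ι} (h : Bd r e) (h' : r' ≤ r) : Bd r' e :=
  IsBigO.mono h (principal_mono.2 fun _ ht => le_trans ht h')

theorem L2.add {r : ℝ} (hr : r ≤ 1) {e f : Sm ι} (h : L2 r e) (h' : L2 r f) : L2 r (e + f) :=
  ((UI.add h h').const_mul zero_le_two).mono hr _ fun t _ => by
    simp only [SubmonoidClass.coe_pow, Pi.pow_apply, Subalgebra.coe_add, Pi.add_apply]
    nlinarith [sq_nonneg (e.1 t - f.1 t)]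

theorem Bd.mulUI {r : ℝ} (hr : r ≤ 1) {e f : Sm ι} (h : Bd r e) (h' : UI r f.1)
    (h0 : ∀ t : ι × Om, rr t.2 ≤ r → 0 ≤ f.1 t) : UI r (e * f).1 := by
  obtain ⟨C, hC0, hC⟩ := h.ex
  refine (h'.const_mul hC0).mono hr _ fun t ht => ?_
  exact mul_le_mul_of_nonneg_right (le_of_abs_le (hC t ht)) (h0 t ht)

theorem Bd.mulL2 {r : ℝ} (hr : r ≤ 1) {e f : Sm ι} (h : Bd r e) (h' : L2 r f) : L2 r (e * f) := by
  unfold L2
  rw [mul_pow, sq e]
  exact (h.mul h).mulUI hr h' fun t _ => sq_nonneg (f.1 t)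

theorem L2.mulBd {r : ℝ} (hr : r ≤ 1) {e f : Sm ι} (h' : L2 r f) (h : Bd r e) : L2 r (f * e) :=
  mul_comm e f ▸ h.mulL2 hr h'

theorem Bd.ui {r : ℝ} (hr : r ≤ 1) {e : Sm ι} (h : Bd r e) : UI r e.1 := by
  obtain ⟨C, -, hC⟩ := h.ex
  exact (UI.const hr C).mono hr _ fun t ht => le_of_abs_le (hC t ht)

theorem Bd.l2 {r : ℝ} (hr : r ≤ 1) {e : Sm ι} (h : Bd r e) : L2 r e := by
  unfold L2; rw [sq]; exact (h.mul h).ui hr

theorem L2.shrink {r r' : ℝ} (hr : r ≤ 1) {e : Sm ι} (h : L2 r e) (h' : r' ≤ r) : L2 r' e :=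
  UI.shrink hr h' h fun t _ => sq_nonneg (e.1 t)

/-- a fixed smooth function -/
def fix (f : P → ℝ) (hf : ContDiff ℝ ∞ f) : Sm ι := Sm.mk (fun _ => f) fun _ => hf.contDiffOn

@[simp] theorem fix_apply (f : P → ℝ) (hf : ContDiff ℝ ∞ f) (t : ι × Om) :
    (fix f hf).1 t = f t.2 := rfl

theorem d_fix (j : Bool) (f : P → ℝ) (hf : ContDiff ℝ ∞ f) :
    Sm.d j (fix f hf : Sm ι) = fix (D j f) (contDiff_D j hf) :=
  Subtype.ext <| funext fun t => Sm.d_mk j _ _ t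

theorem Bd.fix {r : ℝ} (f : P → ℝ) (hf : ContDiff ℝ ∞ f) : Bd r (fix f hf : Sm ι) := by
  obtain ⟨C, -, hC⟩ := Ds_bound_of_compact [] hf (isCompact_closedBall (0 : P) 2)
  exact Bd.of C fun t _ => hC _ (Metric.ball_subset_closedBall t.2.2)

/-- radial cut-off: `1` for `rr ≤ a`, `0` for `rr ≥ b` -/
noncomputable def cut (a b : ℝ) (p : P) : ℝ := Real.smoothTransition ((b - rr p) / (b - a))

theorem contDiff_cut (a b : ℝ) : ContDiff ℝ ∞ (cut a b) :=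
  Real.smoothTransition.contDiff.comp (by unfold rr; fun_prop)

theorem cut_one {a b : ℝ} (h : a < b) {p : P} (hp : rr p ≤ a) : cut a b p = 1 :=
  Real.smoothTransition.one_of_one_le (by rw [le_div_iff₀ (by linarith)]; linarith)

theorem cut_zero {a b : ℝ} (h : a < b) {p : P} (hp : b ≤ rr p) : cut a b p = 0 :=
  Real.smoothTransition.zero_of_nonpos (div_nonpos_of_nonpos_of_nonneg (by linarith) (by linarith))

theorem cut_nonneg (a b : ℝ) (p : P) : 0 ≤ cut a b p := Real.smoothTransition.nonneg _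
theorem cut_le (a b : ℝ) (p : P) : cut a b p ≤ 1 := Real.smoothTransition.le_one _

theorem D_cut {a b : ℝ} (h : a < b) (j : Bool) {p : P} (hp : rr p < a ∨ b < rr p) :
    D j (cut a b) p = 0 := by
  rcases hp with hp | hp
  · have : cut a b =ᶠ[𝓝 p] fun _ => 1 := by
      filter_upwards [(isOpen_lt continuous_rr continuous_const).mem_nhds hp] with q hq
      exact cut_one h (le_of_lt hq)
    rw [(D_congr j this).eq_of_nhds]; simp
  · have : cut a b =ᶠ[𝓝 p] fun _ => 0 := by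
      filter_upwards [(isOpen_lt continuous_const continuous_rr).mem_nhds hp] with q hq
      exact cut_zero h (le_of_lt hq)
    rw [(D_congr j this).eq_of_nhds]; simp

/-- the standing hypotheses on a family of solutions -/
structure Setup (ι : Type) (B : ℕ) where
  S : Sys (Sm ι)
  hd : S.d = Sm.d
  ε : ι → ℝ
  ε0 : ∀ i, 0 < ε i
  ε1 : ∀ i, ε i ≤ 1 / 4
  base : ∀ k ≤ 5, Bd 1 (S.a k) ∧ Bd 1 (S.b k)
  bL : Bd 1 S.L
  bE : Bd 1 S.E
  bG : ∀ l : List Bool, ∃ C, ∀ t : ι × Om,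
    |(S.G l).1 t| ≤ C * (1 + (ε t.1)⁻¹ ^ (l.length - B) * ind ε t)
  ell : ∃ κ > 0, ∀ t : ι × Om, 11 / 20 ≤ rr t.2 → rr t.2 ≤ 1 → κ ≤ S.K.1 t
  Lpos : ∃ c > 0, ∀ t : ι × Om, c ≤ S.L.1 t

theorem ind_nonneg (ε : ι → ℝ) (t : ι × Om) : 0 ≤ ind ε t := by unfold ind; split_ifs <;> simp
theorem ind_le (ε : ι → ℝ) (t : ι × Om) : ind ε t ≤ 1 := by unfold ind; split_ifs <;> simp
theorem ind_sq (ε : ι → ℝ) (t : ι × Om) : ind ε t ^ 2 = ind ε t := by unfold ind; split_ifs <;> simp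

theorem rr_le (p : P) : rr p ≤ 2 * ‖p‖ ^ 2 := by
  have h1 := pow_le_pow_left₀ (abs_nonneg _) (abs_fst_le p) 2
  have h2 := pow_le_pow_left₀ (abs_nonneg _) (abs_snd_le p) 2
  rw [sq_abs] at h1 h2
  unfold rr; linarith

namespace Setup

variable {B : ℕ} (Z : Setup ι B)

theorem one_le_inv (i : ι) : 1 ≤ (Z.ε i)⁻¹ :=
  (one_le_inv₀ (Z.ε0 i)).2 ((Z.ε1 i).trans (by norm_num))

theorem rr_of_ind {t : ι × Om} (h : ind Z.ε t ≠ 0) : rr t.2 ≤ 2 * Z.ε t.1 ^ 2 := by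
  have : ‖(t.2 : P)‖ ≤ Z.ε t.1 := by
    by_contra h'; exact h (if_neg h')
  exact (rr_le _).trans (by gcongr)

theorem bG' {r : ℝ} (l : List Bool) (hl : l.length ≤ B) : Bd r (Z.S.G l) := by
  obtain ⟨C, hC⟩ := Z.bG l
  refine Bd.of (|C| * 2) fun t _ => (hC t).trans ?_
  rw [Nat.sub_eq_zero_of_le hl, pow_zero, one_mul]
  have := ind_nonneg Z.ε t
  have := ind_le Z.ε t
  exact mul_le_mul (le_abs_self _) (by linarith) (by linarith) (abs_nonneg _)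

/-- polynomials of small weight are bounded -/
theorem bd_of_DP {r : ℝ} (hr : r ≤ 1) {t n j : ℕ} {e : Sm ι} (h : Z.S.DP n j e) (hn : n ≤ t)
    (ht : t + 2 ≤ B) (hs : ∀ i ≤ t, Bd r (Z.S.a i) ∧ Bd r (Z.S.b i)) : Bd r e :=
  (Sys.DP.bound (Sm ι).val (𝓟 {t | rr t.2 ≤ r}) (fun _ => 1) t t t (isBigO_refl _ _) hs
    (Z.bL.shrink hr) (Z.bE.shrink hr) (fun l hl => Z.bG' l (by omega)) hs
    (fun l hl => Z.bG' l (by omega)) h).1 hn

theorem bd1 (hB : 12 ≤ B) {r : ℝ} (hr : r ≤ 1) {n j : ℕ} {e : Sm ι} (h : Z.S.DP n j e)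
    (hn : n ≤ 5 := by omega) : Bd r e :=
  Z.bd_of_DP hr h hn (by omega) fun i hi => ⟨(Z.base i hi).1.shrink hr, (Z.base i hi).2.shrink hr⟩

/-- weighted `L²` bound of a differential polynomial -/
theorem uiW {r : ℝ} (hr : r ≤ 1) {t n j : ℕ} {e : Sm ι} (h : Z.S.DP n j e) (hn : n ≤ 2 * t + 1)
    (ht : t + 2 ≤ B) (hs : ∀ i ≤ t, Bd r (Z.S.a i) ∧ Bd r (Z.S.b i)) (W : Sm ι)
    (hW0 : ∀ t : ι × Om, rr t.2 ≤ r → 0 ≤ W.1 t) (hW1 : UI r W.1)
    (hWa : ∀ i ≤ j, UI r (W * Z.S.a i ^ 2).1 ∧ UI r (W * Z.S.b i ^ 2).1)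
    (hWi : ∃ C, 0 ≤ C ∧ ∀ t : ι × Om, rr t.2 ≤ r → ind Z.ε t ≠ 0 →
      W.1 t * ((Z.ε t.1)⁻¹ ^ (n + 2 - B)) ^ 2 ≤ C * (Z.ε t.1)⁻¹ ^ 2) :
    UI r (W * e ^ 2).1 := by
  set Q : ι × Om → ℝ := fun t => 1 + ∑ i ∈ Finset.range (j + 1),
    ((Z.S.a i).1 t ^ 2 + (Z.S.b i).1 t ^ 2) + ((Z.ε t.1)⁻¹ ^ (n + 2 - B)) ^ 2 * ind Z.ε t with hQ
  have hS : ∀ t, 0 ≤ ∑ i ∈ Finset.range (j + 1), ((Z.S.a i).1 t ^ 2 + (Z.S.b i).1 t ^ 2) :=
    fun t => Finset.sum_nonneg fun _ _ => by positivity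
  have hI : ∀ t : ι × Om, 0 ≤ ((Z.ε t.1)⁻¹ ^ (n + 2 - B)) ^ 2 * ind Z.ε t :=
    fun t => mul_nonneg (sq_nonneg _) (ind_nonneg _ _)
  have key : ∀ f : ι × Om → ℝ, (∀ t, f t ^ 2 ≤ Q t) →
      f =O[𝓟 {t | rr t.2 ≤ r}] fun t => √(Q t) := fun f hf =>
    IsBigO.of_bound' (Eventually.of_forall fun t => by
      rw [Real.norm_eq_abs, Real.norm_eq_abs, abs_of_nonneg (Real.sqrt_nonneg _)]
      exact Real.abs_le_sqrt (hf t))
  have k1 : (fun _ => (1 : ℝ)) =O[𝓟 {t : ι × Om | rr t.2 ≤ r}] fun t => √(Q t) :=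
    key _ fun t => by have := hS t; have := hI t; simp only [hQ]; linarith
  have hb := (Sys.DP.bound (Sm ι).val (𝓟 {t | rr t.2 ≤ r}) (fun t => √(Q t)) t n j k1 hs
    (Z.bL.shrink hr) (Z.bE.shrink hr) (fun l hl => Z.bG' l (by omega)) (fun i hi => ?_)
    (fun l hl => ?_) h).2 le_rfl le_rfl hn
  · obtain ⟨C, hC⟩ := isBigO_principal.1 hb
    obtain ⟨C', hC0, hC'⟩ := hWi
    refine (((hW1.add (UI.sum hr (Finset.range (j + 1)) fun i hi =>
      (hWa i (by simpa [Nat.lt_succ_iff] using hi)).1.add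
        (hWa i (by simpa [Nat.lt_succ_iff] using hi)).2)).add
      ((UI.ind hr Z.ε0).const_mul hC0)).const_mul (sq_nonneg C)).mono hr _ fun t ht => ?_
    have h1 := hC t ht
    rw [Real.norm_eq_abs, Real.norm_eq_abs, abs_of_nonneg (Real.sqrt_nonneg _)] at h1
    have h2 : e.1 t ^ 2 ≤ C ^ 2 * Q t := by
      have := pow_le_pow_left₀ (abs_nonneg _) h1 2
      rwa [sq_abs, mul_pow, Real.sq_sqrt (by have := hS t; have := hI t; simp only [hQ]; linarith)]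
        at this
    have h3 : W.1 t * (((Z.ε t.1)⁻¹ ^ (n + 2 - B)) ^ 2 * ind Z.ε t) ≤
        C' * ((Z.ε t.1)⁻¹ ^ 2 * ind Z.ε t) := by
      by_cases hi : ind Z.ε t = 0
      · simp [hi]
      · rw [← mul_assoc, ← mul_assoc]
        exact mul_le_mul_of_nonneg_right (hC' t ht hi) (ind_nonneg _ _)
    calc (W * e ^ 2).1 t = W.1 t * e.1 t ^ 2 := rfl
      _ ≤ W.1 t * (C ^ 2 * Q t) := mul_le_mul_of_nonneg_left h2 (hW0 t ht)
      _ = C ^ 2 * (W.1 t + ∑ i ∈ Finset.range (j + 1),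
          (W.1 t * (Z.S.a i).1 t ^ 2 + W.1 t * (Z.S.b i).1 t ^ 2)
          + W.1 t * (((Z.ε t.1)⁻¹ ^ (n + 2 - B)) ^ 2 * ind Z.ε t)) := by
        simp only [hQ, ← mul_add, ← Finset.mul_sum]; ring
      _ ≤ _ := by
        refine mul_le_mul_of_nonneg_left ?_ (sq_nonneg C)
        exact add_le_add le_rfl h3
  · have := fun t => Finset.single_le_sum
      (f := fun i => (Z.S.a i).1 t ^ 2 + (Z.S.b i).1 t ^ 2) (fun _ _ => by positivity)
      (Finset.mem_range.2 (Nat.lt_succ_of_le hi))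
    refine ⟨key _ fun t => ?_, key _ fun t => ?_⟩
    · have := this t; have := hI t; have := sq_nonneg ((Z.S.b i).1 t)
      change (Z.S.a i).1 t ^ 2 ≤ _
      simp only [hQ]; linarith
    · have := this t; have := hI t; have := sq_nonneg ((Z.S.a i).1 t)
      change (Z.S.b i).1 t ^ 2 ≤ _
      simp only [hQ]; linarith
  · obtain ⟨C, hC⟩ := Z.bG l
    have k2 : (fun t => (Z.ε t.1)⁻¹ ^ (l.length - B) * ind Z.ε t)
        =O[𝓟 {t : ι × Om | rr t.2 ≤ r}] fun t => √(Q t) := key _ fun t => by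
      have h1 : (Z.ε t.1)⁻¹ ^ (l.length - B) ≤ (Z.ε t.1)⁻¹ ^ (n + 2 - B) :=
        pow_le_pow_right₀ (Z.one_le_inv _) (by omega)
      have h2 := pow_le_pow_left₀ (by have := Z.ε0 t.1; positivity) h1 2
      have h3 := mul_le_mul_of_nonneg_right h2 (ind_nonneg Z.ε t)
      have := hS t
      rw [mul_pow, ind_sq]
      simp only [hQ]; linarith
    refine IsBigO.trans (IsBigO.of_bound C (Eventually.of_forall fun t => ?_)) (k1.add k2)
    have := Z.ε0 t.1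
    have := ind_nonneg Z.ε t
    rw [Real.norm_eq_abs, Real.norm_eq_abs, abs_of_nonneg (by positivity : (0 : ℝ) ≤ 1 + _)]
    exact hC t

theorem l2_of_DP {r : ℝ} (hr : r ≤ 1) {t n j : ℕ} {e : Sm ι} (h : Z.S.DP n j e) (hn : n ≤ 2 * t + 1)
    (ht : t + 2 ≤ B) (hs : ∀ i ≤ t, Bd r (Z.S.a i) ∧ Bd r (Z.S.b i)) (hB : n + 1 ≤ B)
    (ha : ∀ i ≤ j, L2 r (Z.S.a i) ∧ L2 r (Z.S.b i)) : L2 r e := by
  have := Z.uiW hr h hn ht hs 1 (fun _ _ => zero_le_one) (UI.const hr 1)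
    (fun i hi => by rw [one_mul, one_mul]; exact ha i hi) ⟨1, zero_le_one, fun t _ _ => by
      change 1 * _ ≤ _
      rw [one_mul, one_mul, ← pow_mul]
      exact pow_le_pow_right₀ (Z.one_le_inv _) (by omega)⟩
  rwa [one_mul] at this

/-- integration of a pointwise inequality modulo divergences -/
theorem of_div {r : ℝ} (hr : r ≤ 1) (e1 e2 f : Sm ι) (h1 : ∀ t : ι × Om, r < rr t.2 → e1.1 t = 0)
    (h2 : ∀ t : ι × Om, r < rr t.2 → e2.1 t = 0) {g : ι × Om → ℝ} (hg : UI r g) {c : ℝ} (hc : 0 < c)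
    (g0 : ∀ t : ι × Om, rr t.2 ≤ r → 0 ≤ g t) (f0 : ∀ t : ι × Om, rr t.2 ≤ r → 0 ≤ f.1 t)
    (h : ∀ t : ι × Om, rr t.2 ≤ r → c * f.1 t ≤ (Z.S.X e1 + Z.S.Y e2 + Z.S.c * e2).1 t + g t) :
    UI r f.1 := by
  obtain ⟨c0, hc0, hL⟩ := Z.Lpos
  obtain ⟨C, hC0, hC⟩ := (Z.bL.shrink hr).ex
  have d1 := UI.div hr true (e1 - Z.S.M * e2) fun t ht => by simp [h1 t ht, h2 t ht]
  have d2 := UI.div hr false (Z.S.L * e2) fun t ht => by simp [h2 t ht]
  refine (((d1.add d2).add (hg.const_mul hC0)).const_mul (c := (c * c0)⁻¹) (by positivity)).mono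
    hr _ fun t ht => ?_
  have e := congrArg (fun x : Sm ι => x.1 t) (Z.S.div e1 e2)
  rw [Z.hd] at e
  change Z.S.L.1 t * (Z.S.X e1 + Z.S.Y e2 + Z.S.c * e2).1 t = (Sm.d true _).1 t + (Sm.d false _).1 t
    at e
  rw [← e, le_inv_mul_iff₀ (by positivity)]
  have h3 := mul_le_mul_of_nonneg_left (h t ht) (hc0.le.trans (hL t))
  have h4 := mul_le_mul_of_nonneg_right (le_of_abs_le (hC t ht)) (g0 t ht)
  have h5 := mul_le_mul_of_nonneg_right (hL t) (mul_nonneg hc.le (f0 t ht))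
  nlinarith

end Setup

end Crest.Agent.R220
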