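import Crest.Agent.R220.En1

/-! Row 220: the elliptic and the multiplier inequalities, and the induction on the order. -/

set_option autoImplicit false
open scoped ContDiff Topology
open Set MeasureTheory Filter Asymptotics

namespace Crest.Agent.R220

variable {ι : Type}

theorem young {x P Q : ℝ} (hP : 0 ≤ P) (hQ : 0 ≤ Q) (h : x ^ 2 ≤ 4 * P * Q) : -(P + Q) ≤ x :=
  neg_le_of_abs_le (abs_le_of_sq_le_sq (by nlinarith [sq_nonneg (P - Q)]) (by positivity))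

theorem young2 {φ σ W b R θ : ℝ} (hσ : 0 ≤ σ) (hW : 0 ≤ W) (hθ : 0 < θ) (h : φ ^ 2 ≤ σ * W) :
    -(θ * σ * b ^ 2 + θ⁻¹ * (W * R ^ 2)) ≤ 2 * φ * b * R := by
  refine young (by positivity) (by positivity) ?_
  have : 4 * (θ * σ * b ^ 2) * (θ⁻¹ * (W * R ^ 2)) = 4 * (σ * W) * (b * R) ^ 2 := by field_simp
  rw [this]
  nlinarith [mul_le_mul_of_nonneg_right h (sq_nonneg (b * R))]

/-- the cut-off of the elliptic annulus -/
noncomputable def xi (r' r : ℝ) (p : P) : ℝ := cut r' r p * (1 - cut (11 / 20) (3 / 5) p)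

theorem contDiff_xi (r' r : ℝ) : ContDiff ℝ ∞ (xi r' r) :=
  (contDiff_cut _ _).mul (contDiff_const.sub (contDiff_cut _ _))

theorem xi_one {r' r : ℝ} (h : r' < r) {p : P} (h1 : 3 / 5 ≤ rr p) (h2 : rr p ≤ r') : xi r' r p = 1 := by
  rw [xi, cut_one h h2, cut_zero (by norm_num) h1]; simp

theorem xi_zero {r' r : ℝ} (h : r' < r) {p : P} (h1 : rr p ≤ 11 / 20 ∨ r ≤ rr p) : xi r' r p = 0 := by
  rcases h1 with h1 | h1
  · rw [xi, cut_one (by norm_num) h1]; simp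
  · rw [xi, cut_zero h h1]; simp

/-- admissible multipliers -/
structure Coer {B : ℕ} (Z : Setup ι B) (k : ℕ) (φ g σ W : Sm ι) : Prop where
  bφ : Bd 1 φ
  bg : Bd 1 g
  bW : Bd 1 W
  σ0 : ∀ t, 0 ≤ σ.1 t
  W0 : ∀ t, 0 ≤ W.1 t
  h1 : ∀ t : ι × Om, rr t.2 ≤ 1 → φ.1 t ^ 2 ≤ σ.1 t * W.1 t
  h2 : ∀ t : ι × Om, rr t.2 ≤ 1 → g.1 t ^ 2 ≤ σ.1 t * W.1 t
  h3 : ∀ t : ι × Om, rr t.2 ≤ 1 → (g.1 t * Z.S.K.1 t) ^ 2 ≤ σ.1 t * W.1 t
  pos : ∃ c > 0, ∀ t : ι × Om, rr t.2 ≤ 7 / 10 → ∀ a b : ℝ, c * σ.1 t * (a ^ 2 + b ^ 2) ≤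
    (Z.S.cA k φ g).1 t * a ^ 2 + (Z.S.cB k φ g).1 t * b ^ 2 + 2 * (Z.S.cC k φ g).1 t * a * b
  hWi : ∃ C, 0 ≤ C ∧ ∀ t : ι × Om, ind Z.ε t ≠ 0 →
      W.1 t * ((Z.ε t.1)⁻¹ ^ (k + 3 - B)) ^ 2 ≤ C * (Z.ε t.1)⁻¹ ^ 2

namespace Setup

variable {B : ℕ} (Z : Setup ι B)

theorem bdX (hB : 12 ≤ B) {r : ℝ} (hr : r ≤ 1) (f : P → ℝ) (hf : ContDiff ℝ ∞ f) :
    Bd r (Z.S.X (fix f hf)) := by
  rw [Sys.X_apply, Z.hd, d_fix]
  exact (Z.bd1 hB hr Sys.DP.v).mul (Bd.fix _ _)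

theorem bdY (hB : 12 ≤ B) {r : ℝ} (hr : r ≤ 1) (f : P → ℝ) (hf : ContDiff ℝ ∞ f) :
    Bd r (Z.S.Y (fix f hf)) := by
  rw [Sys.Y_apply, Z.hd, d_fix, d_fix]
  exact (Bd.fix _ _).sub ((Z.bd1 hB hr Sys.DP.u).mul (Bd.fix _ _))

theorem elliptic (hB : 12 ≤ B) {r' r : ℝ} (hr' : r' < r) (hr : r ≤ 1) {k t : ℕ}
    (hk : k + 2 ≤ 2 * t + 1) (ht : t + 2 ≤ B) (hs : ∀ i ≤ t, Bd r (Z.S.a i) ∧ Bd r (Z.S.b i))
    (ha : ∀ i ≤ k, L2 r (Z.S.a i) ∧ L2 r (Z.S.b i)) :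
    UI r (fix (xi r' r) (contDiff_xi _ _) ^ 2 * (Z.S.a (k + 1) ^ 2 + Z.S.b (k + 1) ^ 2)).1 := by
  set ξ : Sm ι := fix (xi r' r) (contDiff_xi _ _) with hξ
  have bξ : Bd r ξ := Bd.fix _ _
  have hξ2 : Bd r (ξ ^ 2) := by rw [sq]; exact bξ.mul bξ
  have lw : ∀ {n : ℕ} {e : Sm ι}, Z.S.DP n k e → n ≤ k + 2 → L2 r (ξ * e) := by
    intro n e he hn
    unfold L2
    rw [mul_pow]
    refine Z.uiW hr he (by omega) ht hs (ξ ^ 2) (fun t _ => sq_nonneg (ξ.1 t)) (hξ2.ui hr)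
      (fun i hi => ⟨hξ2.mulUI hr (ha i hi).1 fun t _ => sq_nonneg ((Z.S.a i).1 t),
        hξ2.mulUI hr (ha i hi).2 fun t _ => sq_nonneg ((Z.S.b i).1 t)⟩)
      ⟨0, le_rfl, fun t _ hi => ?_⟩
    have h1 := Z.rr_of_ind hi
    have h2 := Z.ε0 t.1
    have h3 := Z.ε1 t.1
    change xi r' r t.2 ^ 2 * _ ≤ _
    rw [xi_zero hr' (Or.inl (by nlinarith))]
    simp
  have hw := (ha k le_rfl).1
  have l1 : L2 r (Z.S.a k * (2 * Z.S.K * Z.S.X ξ + ξ * Z.S.X Z.S.K - ξ * Z.S.β1 (k + 1))) :=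
    hw.mulBd hr ((((Bd.two.mul (Z.bd1 hB hr Sys.DP.K)).mul (Z.bdX hB hr _ _)).add
      (bξ.mul (Z.bd1 hB hr Sys.DP.XK))).sub (bξ.mul (Z.bd1 hB hr (Sys.DP.β1 _))))
  have l2 : L2 r (Z.S.a k * (2 * Z.S.Y ξ + ξ * Z.S.c + ξ * Z.S.β2 (k + 1)) + ξ * Z.S.F1 k) :=
    (hw.mulBd hr (((Bd.two.mul (Z.bdY hB hr _ _)).add (bξ.mul (Z.bd1 hB hr Sys.DP.c))).add
      (bξ.mul (Z.bd1 hB hr (Sys.DP.β2 _))))).add hr (lw (Sys.DP.F1 k) (by omega))
  have l3 : L2 r (ξ * Z.S.R2 (k + 1)) := lw (Sys.DP.R2 k) le_rfl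
  have l4 : L2 r (ξ * Z.S.a k) := bξ.mulL2 hr hw
  obtain ⟨κ, hκ, hK⟩ := Z.ell
  obtain ⟨m, hm⟩ : ∃ m, m = min κ 1 := ⟨_, rfl⟩
  have m0 : 0 < m := by rw [hm]; positivity
  refine Z.of_div hr (ξ ^ 2 * Z.S.K * Z.S.a k * Z.S.a (k + 1)) (-(ξ ^ 2 * Z.S.a k * Z.S.b (k + 1))) _
    (fun t ht => by simp [hξ, xi_zero hr' (Or.inr ht.le)])
    (fun t ht => by simp [hξ, xi_zero hr' (Or.inr ht.le)])
    ((((UI.add l1 l2).const_mul (c := m⁻¹) (by positivity)).add l3).add l4) (c := m / 2)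
    (by positivity) (fun t _ => ?_) (fun t _ => ?_) fun t ht => ?_
  · simp only [SubmonoidClass.coe_pow, Pi.pow_apply]; positivity
  · simp only [MulMemClass.coe_mul, Pi.mul_apply, Subalgebra.coe_add, Pi.add_apply,
      SubmonoidClass.coe_pow, Pi.pow_apply]
    positivity
  · rw [Z.S.elliptic]
    generalize Z.S.a k * (2 * Z.S.K * Z.S.X ξ + ξ * Z.S.X Z.S.K - ξ * Z.S.β1 (k + 1)) = P1
    generalize Z.S.a k * (2 * Z.S.Y ξ + ξ * Z.S.c + ξ * Z.S.β2 (k + 1)) + ξ * Z.S.F1 k = P2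
    generalize ξ * Z.S.R2 (k + 1) = P3
    generalize ξ * Z.S.a k = P4
    simp only [MulMemClass.coe_mul, Pi.mul_apply, Subalgebra.coe_add, Pi.add_apply,
      SubmonoidClass.coe_pow, Pi.pow_apply, AddSubgroupClass.coe_sub, Pi.sub_apply]
    have hmK : ξ.1 t ^ 2 * m ≤ ξ.1 t ^ 2 * Z.S.K.1 t := by
      rcases le_total (rr t.2) (11 / 20) with h | h
      · simp [hξ, xi_zero hr' (Or.inl h)]
      · exact mul_le_mul_of_nonneg_left (hm ▸ (min_le_left _ _).trans (hK t h (ht.trans hr)))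
          (sq_nonneg _)
    have m1 : m ≤ 1 := hm ▸ min_le_right _ _
    generalize ξ.1 t = x at *
    generalize (Z.S.a (k + 1)).1 t = a
    generalize (Z.S.b (k + 1)).1 t = b
    have y1 := young (x := x * a * P1.1 t) (P := m / 2 * (x * a) ^ 2) (Q := m⁻¹ * P1.1 t ^ 2)
      (by positivity) (by positivity) (by
        rw [show 4 * (m / 2 * (x * a) ^ 2) * (m⁻¹ * P1.1 t ^ 2) = 2 * (x * a * P1.1 t) ^ 2 by
          field_simp; ring]
        nlinarith [sq_nonneg (x * a * P1.1 t)])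
    have y2 := young (x := -(x * b * P2.1 t)) (P := m / 2 * (x * b) ^ 2) (Q := m⁻¹ * P2.1 t ^ 2)
      (by positivity) (by positivity) (by
        rw [show 4 * (m / 2 * (x * b) ^ 2) * (m⁻¹ * P2.1 t ^ 2) = 2 * (x * b * P2.1 t) ^ 2 by
          field_simp; ring]
        nlinarith [sq_nonneg (x * b * P2.1 t)])
    have y3 := mul_le_mul_of_nonneg_right hmK (sq_nonneg a)
    have y4 := mul_le_mul_of_nonneg_right m1 (sq_nonneg (x * b))
    nlinarith [sq_nonneg (P3.1 t - P4.1 t), sq_nonneg (P3.1 t), sq_nonneg (P4.1 t)]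

theorem main (hB : 12 ≤ B) {r' r : ℝ} (h7 : 7 / 10 ≤ r') (hr' : r' < r) (hr : r ≤ 1) {k t : ℕ}
    (hk : k + 2 ≤ 2 * t + 1) (ht : t + 2 ≤ B) (hs : ∀ i ≤ t, Bd r (Z.S.a i) ∧ Bd r (Z.S.b i))
    (ha : ∀ i ≤ k, L2 r (Z.S.a i) ∧ L2 r (Z.S.b i)) {φ g σ W : Sm ι} (hc : Coer Z (k + 1) φ g σ W) :
    UI r (fix (cut (3 / 5) (7 / 10)) (contDiff_cut _ _) * σ *
      (Z.S.a (k + 1) ^ 2 + Z.S.b (k + 1) ^ 2)).1 := by
  have hel := Z.elliptic hB hr' hr hk ht hs ha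
  set ξ : Sm ι := fix (xi r' r) (contDiff_xi _ _) with hξ
  set ρ : Sm ι := fix (cut (3 / 5) (7 / 10)) (contDiff_cut _ _) with hρ
  have bW := hc.bW.shrink hr
  have lw : ∀ {e : Sm ι}, Z.S.DP (k + 2) k e → UI r (W * e ^ 2).1 := fun he =>
    Z.uiW hr he hk ht hs W (fun t _ => hc.W0 t) (bW.ui hr)
      (fun i hi => ⟨bW.mulUI hr (ha i hi).1 fun t _ => sq_nonneg ((Z.S.a i).1 t),
        bW.mulUI hr (ha i hi).2 fun t _ => sq_nonneg ((Z.S.b i).1 t)⟩)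
      (hc.hWi.imp fun C hC => ⟨hC.1, fun t _ hi => hC.2 t hi⟩)
  obtain ⟨c, c0, hpos⟩ := hc.pos
  have bK := Z.bd1 hB hr Sys.DP.K
  have bX : Bd r (Z.S.X ρ) := Z.bdX hB hr _ _
  have bY : Bd r (Z.S.Y ρ) := Z.bdY hB hr _ _
  have bφ := hc.bφ.shrink hr
  have bg := hc.bg.shrink hr
  obtain ⟨C1, C10, hC1⟩ := (((bY.mul bg).sub (bX.mul bφ)).mul bK).ex
  obtain ⟨C2, C20, hC2⟩ := ((bX.mul bφ).sub (bY.mul bg)).ex
  obtain ⟨C3, C30, hC3⟩ := (((bX.mul bg).mul bK).add (bY.mul bφ)).ex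
  refine Z.of_div hr (ρ * Z.S.E1 φ g (Z.S.a (k + 1)) (Z.S.b (k + 1)))
    (ρ * Z.S.E2 φ g (Z.S.a (k + 1)) (Z.S.b (k + 1))) _
    (fun t ht => by simp [hρ, cut_zero (show (3 / 5 : ℝ) < 7 / 10 by norm_num)
      (show 7 / 10 ≤ rr t.2 by linarith)])
    (fun t ht => by simp [hρ, cut_zero (show (3 / 5 : ℝ) < 7 / 10 by norm_num)
      (show 7 / 10 ≤ rr t.2 by linarith)])
    ((((lw (Sys.DP.R1 k)).add (lw (Sys.DP.R2 k))).const_mul (c := 2 * (c / 4)⁻¹) (by positivity)).add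
      (hel.const_mul (c := C1 + C2 + C3) (by positivity))) (c := c / 2)
    (by positivity) (fun t _ => ?_) (fun t _ => ?_) fun t ht => ?_
  · have := hc.W0 t
    simp only [MulMemClass.coe_mul, Pi.mul_apply, Subalgebra.coe_add, Pi.add_apply,
      SubmonoidClass.coe_pow, Pi.pow_apply]
    positivity
  · have := hc.σ0 t
    have : 0 ≤ ρ.1 t := cut_nonneg _ _ _
    simp only [MulMemClass.coe_mul, Pi.mul_apply, Subalgebra.coe_add, Pi.add_apply,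
      SubmonoidClass.coe_pow, Pi.pow_apply]
    positivity
  · have e : Z.S.X (ρ * Z.S.E1 φ g (Z.S.a (k + 1)) (Z.S.b (k + 1))) +
        Z.S.Y (ρ * Z.S.E2 φ g (Z.S.a (k + 1)) (Z.S.b (k + 1))) +
        Z.S.c * (ρ * Z.S.E2 φ g (Z.S.a (k + 1)) (Z.S.b (k + 1))) =
        ρ * (Z.S.cA (k + 1) φ g * Z.S.a (k + 1) ^ 2 + Z.S.cB (k + 1) φ g * Z.S.b (k + 1) ^ 2
          + 2 * Z.S.cC (k + 1) φ g * Z.S.a (k + 1) * Z.S.b (k + 1)
          + 2 * (φ * Z.S.b (k + 1) + g * Z.S.K * Z.S.a (k + 1)) * Z.S.R1 (k + 1)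
          + 2 * (φ * Z.S.a (k + 1) - g * Z.S.b (k + 1)) * Z.S.R2 (k + 1))
        + (((Z.S.Y ρ * g - Z.S.X ρ * φ) * Z.S.K) * Z.S.a (k + 1) ^ 2
          + (Z.S.X ρ * φ - Z.S.Y ρ * g) * Z.S.b (k + 1) ^ 2
          + 2 * (Z.S.X ρ * g * Z.S.K + Z.S.Y ρ * φ) * Z.S.a (k + 1) * Z.S.b (k + 1)) := by
      rw [← Z.S.energy, Sys.leib, Sys.leib]; unfold Sys.E1 Sys.E2; ring
    rw [e]
    have ht1 := ht.trans hr
    have q1 := hC1 t ht
    have q2 := hC2 t ht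
    have q3 := hC3 t ht
    have hz : ξ.1 t ≠ 1 → (Z.S.X ρ).1 t = 0 ∧ (Z.S.Y ρ).1 t = 0 := by
      intro h
      have h' : rr t.2 < 3 / 5 ∨ 7 / 10 < rr t.2 := by
        by_contra h'
        push Not at h'
        exact h (xi_one hr' h'.1 (h'.2.trans h7))
      rw [Sys.X_apply, Sys.Y_apply, Z.hd, hρ, d_fix, d_fix]
      simp [D_cut (show (3 / 5 : ℝ) < 7 / 10 by norm_num) _ h']
    have err : -((C1 + C2 + C3) * (ξ ^ 2 * (Z.S.a (k + 1) ^ 2 + Z.S.b (k + 1) ^ 2)).1 t) ≤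
        (((Z.S.Y ρ * g - Z.S.X ρ * φ) * Z.S.K) * Z.S.a (k + 1) ^ 2
          + (Z.S.X ρ * φ - Z.S.Y ρ * g) * Z.S.b (k + 1) ^ 2
          + 2 * (Z.S.X ρ * g * Z.S.K + Z.S.Y ρ * φ) * Z.S.a (k + 1) * Z.S.b (k + 1)).1 t := by
      by_cases h : ξ.1 t = 1
      · generalize (Z.S.Y ρ * g - Z.S.X ρ * φ) * Z.S.K = P1 at *
        generalize Z.S.X ρ * φ - Z.S.Y ρ * g = P2 at *
        generalize Z.S.X ρ * g * Z.S.K + Z.S.Y ρ * φ = P3 at *
        change -((C1 + C2 + C3) * (ξ.1 t ^ 2 * ((Z.S.a (k + 1)).1 t ^ 2 + (Z.S.b (k + 1)).1 t ^ 2)))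
          ≤ P1.1 t * (Z.S.a (k + 1)).1 t ^ 2 + P2.1 t * (Z.S.b (k + 1)).1 t ^ 2
            + 2 * P3.1 t * (Z.S.a (k + 1)).1 t * (Z.S.b (k + 1)).1 t
        rw [h]
        generalize (Z.S.a (k + 1)).1 t = a
        generalize (Z.S.b (k + 1)).1 t = b
        have := abs_le.1 q1
        have := abs_le.1 q2
        have := abs_le.1 q3
        nlinarith [mul_nonneg (show 0 ≤ P1.1 t + C1 by linarith) (sq_nonneg a),
          mul_nonneg (show 0 ≤ P2.1 t + C2 by linarith) (sq_nonneg b),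
          mul_nonneg (show 0 ≤ P3.1 t + C3 by linarith) (sq_nonneg (a + b)),
          mul_nonneg (show 0 ≤ C3 - P3.1 t by linarith) (sq_nonneg (a - b)),
          mul_nonneg C10 (sq_nonneg b), mul_nonneg C20 (sq_nonneg a)]
      · simp only [MulMemClass.coe_mul, Pi.mul_apply, Subalgebra.coe_add, Pi.add_apply,
          SubmonoidClass.coe_pow, Pi.pow_apply, AddSubgroupClass.coe_sub, Pi.sub_apply, (hz h).1,
          (hz h).2, zero_mul, mul_zero, add_zero, sub_zero, neg_nonpos]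
        positivity
    have mn : c / 2 * (ρ * σ * (Z.S.a (k + 1) ^ 2 + Z.S.b (k + 1) ^ 2)).1 t ≤
        (ρ * (Z.S.cA (k + 1) φ g * Z.S.a (k + 1) ^ 2 + Z.S.cB (k + 1) φ g * Z.S.b (k + 1) ^ 2
          + 2 * Z.S.cC (k + 1) φ g * Z.S.a (k + 1) * Z.S.b (k + 1)
          + 2 * (φ * Z.S.b (k + 1) + g * Z.S.K * Z.S.a (k + 1)) * Z.S.R1 (k + 1)
          + 2 * (φ * Z.S.a (k + 1) - g * Z.S.b (k + 1)) * Z.S.R2 (k + 1))).1 t +
        2 * (c / 4)⁻¹ * ((W * Z.S.R1 (k + 1) ^ 2).1 t + (W * Z.S.R2 (k + 1) ^ 2).1 t) := by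
      have w0 := hc.W0 t
      have s0 := hc.σ0 t
      change c / 2 * (ρ.1 t * σ.1 t * ((Z.S.a (k + 1)).1 t ^ 2 + (Z.S.b (k + 1)).1 t ^ 2)) ≤
        ρ.1 t * ((Z.S.cA (k + 1) φ g).1 t * (Z.S.a (k + 1)).1 t ^ 2
          + (Z.S.cB (k + 1) φ g).1 t * (Z.S.b (k + 1)).1 t ^ 2
          + 2 * (Z.S.cC (k + 1) φ g).1 t * (Z.S.a (k + 1)).1 t * (Z.S.b (k + 1)).1 t
          + 2 * (φ.1 t * (Z.S.b (k + 1)).1 t + g.1 t * Z.S.K.1 t * (Z.S.a (k + 1)).1 t)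
            * (Z.S.R1 (k + 1)).1 t
          + 2 * (φ.1 t * (Z.S.a (k + 1)).1 t - g.1 t * (Z.S.b (k + 1)).1 t) * (Z.S.R2 (k + 1)).1 t) +
        2 * (c / 4)⁻¹ * (W.1 t * (Z.S.R1 (k + 1)).1 t ^ 2 + W.1 t * (Z.S.R2 (k + 1)).1 t ^ 2)
      generalize (Z.S.a (k + 1)).1 t = a
      generalize (Z.S.b (k + 1)).1 t = b
      generalize (Z.S.R1 (k + 1)).1 t = R1
      generalize (Z.S.R2 (k + 1)).1 t = R2
      rcases le_total (7 / 10) (rr t.2) with h | h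
      · have : ρ.1 t = 0 := cut_zero (by norm_num) h
        rw [this]; simp only [zero_mul, mul_zero, zero_add]; positivity
      · have p0 := hpos t h a b
        have θ0 : 0 < c / 4 := by positivity
        have y1 := young2 (b := b) (R := R1) s0 w0 θ0 (hc.h1 t ht1)
        have y2 := young2 (b := a) (R := R1) s0 w0 θ0 (hc.h3 t ht1)
        have y3 := young2 (b := a) (R := R2) s0 w0 θ0 (hc.h1 t ht1)
        have y4 := young2 (b := -b) (R := R2) s0 w0 θ0 (hc.h2 t ht1)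
        have r0 : 0 ≤ ρ.1 t := cut_nonneg _ _ _
        have r1 : ρ.1 t ≤ 1 := cut_le _ _ _
        have z0 : 0 ≤ 2 * (c / 4)⁻¹ * (W.1 t * R1 ^ 2 + W.1 t * R2 ^ 2) := by positivity
        have z1 := mul_le_mul_of_nonneg_right r1 z0
        have z2 := mul_le_mul_of_nonneg_left (add_le_add (add_le_add (add_le_add (add_le_add p0 y1) y2)
          y3) y4) r0
        nlinarith
    rw [Subalgebra.coe_add, Pi.add_apply]
    linarith

/-- the bounds up to order `k` -/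
def Lev (k : ℕ) : Prop := ∀ r < (1 : ℝ), (∀ i ≤ k, L2 r (Z.S.a i) ∧ L2 r (Z.S.b i)) ∧
  ∀ i, i + 2 ≤ k → Bd r (Z.S.a i) ∧ Bd r (Z.S.b i)

theorem lev5 : Z.Lev 5 := fun r hr =>
  ⟨fun i hi => ⟨((Z.base i hi).1.shrink hr.le).l2 hr.le, ((Z.base i hi).2.shrink hr.le).l2 hr.le⟩,
    fun i hi => ⟨(Z.base i (by omega)).1.shrink hr.le, (Z.base i (by omega)).2.shrink hr.le⟩⟩

theorem sob {r' r : ℝ} (hr' : r' < r) (hr : r ≤ 1) (e : Sm ι) (h0 : L2 r e)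
    (h1 : ∀ i, L2 r (Z.S.d i e)) (h2 : L2 r (Z.S.d false (Z.S.d true e))) : Bd r' e := by
  rw [Z.hd] at h1 h2
  obtain ⟨C, hC⟩ := UI.sob hr (fix (cut r' r) (contDiff_cut _ _) * e)
    (fun t ht => by simp [cut_zero hr' ht.le]) (by
      simp only [Sys.leib, map_add, d_fix]
      exact (((Bd.fix _ _).mulL2 hr h2).add hr ((h1 _).mulBd hr (Bd.fix _ _))).add hr
        ((h0.mulBd hr (Bd.fix _ _)).add hr ((Bd.fix _ _).mulL2 hr (h1 _))))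
  refine Bd.of C fun t ht => ?_
  simpa [cut_one hr' ht] using hC t

theorem lev_succ (hB : 12 ≤ B) {k : ℕ} (h5 : 5 ≤ k) (hk : k + 2 ≤ B) (h : Z.Lev k) {φ g W : Sm ι}
    (hc : Coer Z (k + 1) φ g 1 W) : Z.Lev (k + 1) := by
  have hs : ∀ r < (1 : ℝ), ∀ i ≤ k - 2, Bd r (Z.S.a i) ∧ Bd r (Z.S.b i) :=
    fun r hr i hi => (h r hr).2 i (by omega)
  have l2 : ∀ r < (1 : ℝ), ∀ i ≤ k + 1, L2 r (Z.S.a i) ∧ L2 r (Z.S.b i) := by
    intro r hr i hi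
    rcases hi.lt_or_eq with hi | rfl
    · exact (h r hr).1 i (by omega)
    obtain ⟨r', h1, h2, h3⟩ : ∃ r', 7 / 10 ≤ r' ∧ r ≤ r' ∧ r' < 1 :=
      ⟨max r (7 / 10), le_max_right _ _, le_max_left _ _, max_lt hr (by norm_num)⟩
    have h4 : r' < (1 + r') / 2 := by linarith
    have h5' : (1 + r') / 2 < 1 := by linarith
    have e1 := Z.elliptic hB h4 h5'.le (t := k - 2) (by omega) (by omega) (hs _ h5') (h _ h5').1
    have e2 := Z.main hB h1 h4 h5'.le (t := k - 2) (by omega) (by omega) (hs _ h5') (h _ h5').1 hc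
    have e3 := (e1.add e2).shrink h5'.le (h2.trans h4.le) fun t _ => by
      have := cut_nonneg (3 / 5) (7 / 10) t.2
      simp only [MulMemClass.coe_mul, Pi.mul_apply, Subalgebra.coe_add, Pi.add_apply,
        SubmonoidClass.coe_pow, Pi.pow_apply, fix_apply, mul_one]
      positivity
    have key : ∀ t : ι × Om, rr t.2 ≤ r → (Z.S.a (k + 1)).1 t ^ 2 + (Z.S.b (k + 1)).1 t ^ 2 ≤
        (fix (xi r' ((1 + r') / 2)) (contDiff_xi _ _) ^ 2 *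
          (Z.S.a (k + 1) ^ 2 + Z.S.b (k + 1) ^ 2)).1 t +
        (fix (cut (3 / 5) (7 / 10)) (contDiff_cut _ _) * 1 *
          (Z.S.a (k + 1) ^ 2 + Z.S.b (k + 1) ^ 2)).1 t := by
      intro t ht
      simp only [MulMemClass.coe_mul, Pi.mul_apply, Subalgebra.coe_add, Pi.add_apply,
        SubmonoidClass.coe_pow, Pi.pow_apply, fix_apply, mul_one]
      have := cut_nonneg (3 / 5) (7 / 10) t.2
      rcases le_total (rr t.2) (3 / 5) with h | h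
      · rw [cut_one (by norm_num) h, one_mul, le_add_iff_nonneg_left]; positivity
      · rw [xi_one h4 h (ht.trans h2), one_pow, one_mul, le_add_iff_nonneg_right]; positivity
    exact ⟨e3.mono hr.le _ fun t ht => le_trans (le_add_of_nonneg_right (sq_nonneg _)) (key t ht),
      e3.mono hr.le _ fun t ht => le_trans (le_add_of_nonneg_left (sq_nonneg _)) (key t ht)⟩
  refine fun r hr => ⟨l2 r hr, fun i hi => ?_⟩
  have h4 : r < (1 + r) / 2 := by linarith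
  have h5' : (1 + r) / 2 < 1 := by linarith
  have l : ∀ {n : ℕ} {e : Sm ι}, Z.S.DP n n e → n ≤ k + 1 → L2 ((1 + r) / 2) e := fun he hn =>
    Z.l2_of_DP h5'.le he (t := k - 2) (by omega) (by omega) (hs _ h5') (by omega)
      fun i hi => l2 _ h5' i (by omega)
  exact ⟨Z.sob h4 h5'.le _ (l (.a i) (by omega)) (fun j => l ((Sys.DP.a i).d j) (by omega))
      (l (((Sys.DP.a i).d _).d _) (by omega)),
    Z.sob h4 h5'.le _ (l (.b i) (by omega)) (fun j => l ((Sys.DP.b i).d j) (by omega))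
      (l (((Sys.DP.b i).d _).d _) (by omega))⟩

theorem lev_top (hB : 12 ≤ B) {φ g W : Sm ι} (hc : ∀ k, k + 1 ≤ B → Coer Z k φ g 1 W) :
    Z.Lev (B - 1) := by
  have : ∀ k, 5 ≤ k → k + 1 ≤ B → Z.Lev k := by
    intro k hk
    induction k, hk using Nat.le_induction with
    | base => exact fun _ => Z.lev5
    | succ k hk ih => exact fun h => Z.lev_succ hB hk h (ih (by omega)) (hc _ h)
  exact this _ (by omega) (by omega)

theorem out_l2 (hB : 12 ≤ B) (h : Z.Lev (B - 1)) {n : ℕ} {e : Sm ι} (he : Z.S.DP n n e)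
    (hn : n + 1 ≤ B) : L2 (1 / 2) e :=
  Z.l2_of_DP (by norm_num) he (t := B - 3) (by omega) (by omega)
    (fun i hi => (h _ (by norm_num)).2 i (by omega)) hn fun i hi => (h _ (by norm_num)).1 i (by omega)

theorem out_sup (hB : 12 ≤ B) (h : Z.Lev (B - 1)) {n : ℕ} {e : Sm ι} (he : Z.S.DP n n e)
    (hn : n + 3 ≤ B) : Bd (1 / 2) e :=
  Z.bd_of_DP (by norm_num) he (t := B - 3) (by omega) (by omega)
    (fun i hi => (h _ (by norm_num)).2 i (by omega))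

theorem out_ann (hB : 12 ≤ B) (h : Z.Lev (B - 1)) {φ g σ W : Sm ι} (hc : Coer Z B φ g σ W)
    (bσ : Bd 1 σ) (hσ : ∀ t, ind Z.ε t ≠ 0 → σ.1 t = 0) {n : ℕ} {e : Sm ι} (he : Z.S.DP n n e)
    (hn : n ≤ B) : UI (1 / 2) (σ * e ^ 2).1 := by
  obtain ⟨k, rfl⟩ : ∃ k, B = k + 1 := ⟨B - 1, by omega⟩
  have h1 : (1 / 2 : ℝ) ≤ 1 := by norm_num
  have e2 := (Z.main hB (r' := 7 / 10) (r := 4 / 5) le_rfl (by norm_num) (by norm_num) (k := k) (t := k - 2)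
    (by omega) (by omega) (fun i hi => (h _ (by norm_num)).2 i (by omega)) (h _ (by norm_num)).1
    hc).shrink (r' := 1 / 2) (by norm_num) (by norm_num) fun t _ => by
      have := cut_nonneg (3 / 5) (7 / 10) t.2
      have := hc.σ0 t
      simp only [MulMemClass.coe_mul, Pi.mul_apply, Subalgebra.coe_add, Pi.add_apply,
        SubmonoidClass.coe_pow, Pi.pow_apply, fix_apply]
      positivity
  refine Z.uiW h1 he (t := k - 2) (by omega) (by omega)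
    (fun i hi => (h _ (by norm_num)).2 i (by omega)) σ (fun t _ => hc.σ0 t) ((bσ.shrink h1).ui h1)
    (fun i hi => ?_) ⟨0, le_rfl, fun t _ hi => by simp [hσ t hi]⟩
  rcases (hi.trans hn).lt_or_eq with hi | rfl
  · have := (h (1 / 2) (by norm_num)).1 i (by omega)
    exact ⟨(bσ.shrink h1).mulUI h1 this.1 fun t _ => sq_nonneg ((Z.S.a i).1 t),
      (bσ.shrink h1).mulUI h1 this.2 fun t _ => sq_nonneg ((Z.S.b i).1 t)⟩
  · refine ⟨e2.mono h1 _ fun t ht => ?_, e2.mono h1 _ fun t ht => ?_⟩ <;>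
    · simp only [MulMemClass.coe_mul, Pi.mul_apply, Subalgebra.coe_add, Pi.add_apply,
        SubmonoidClass.coe_pow, Pi.pow_apply, fix_apply]
      rw [cut_one (by norm_num) (ht.trans (by norm_num)), one_mul]
      refine mul_le_mul_of_nonneg_left ?_ (hc.σ0 t)
      nlinarith [sq_nonneg ((Z.S.a (k + 1)).1 t), sq_nonneg ((Z.S.b (k + 1)).1 t)]

end Setup

end Crest.Agent.R220
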