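import Crest.Agent.R220.Mult

/-! Row 220: the a priori estimates. -/

set_option autoImplicit false
open scoped ContDiff Topology
open Set MeasureTheory Filter Asymptotics

namespace Crest.Agent.R220

namespace Sys

variable {A : Type*} [CommRing A] [Algebra ℝ A] (S : Sys A)

def ds : List Bool → A → A
  | [], e => e
  | i :: l, e => S.d i (ds l e)

theorem DP.ds {S : Sys A} {e : A} (h : S.DP 0 0 e) (l : List Bool) :
    S.DP l.length l.length (S.ds l e) := by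
  induction l with
  | nil => exact h
  | cons i l ih => exact ih.d i

/-- polynomials in `v` and the derivatives of `L`, `M` of order `≤ j` -/
inductive BP : ℕ → A → Prop
  | v (j : ℕ) : BP j S.v
  | L (j : ℕ) (l : List Bool) : l.length ≤ j → BP j (S.ds l S.L)
  | M (j : ℕ) (l : List Bool) : l.length ≤ j → BP j (S.ds l S.M)
  | neg {j : ℕ} {e : A} : BP j e → BP j (-e)
  | add {j : ℕ} {e f : A} : BP j e → BP j f → BP j (e + f)
  | mul {j : ℕ} {e f : A} : BP j e → BP j f → BP j (e * f)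

theorem BP.succ {S : Sys A} {j : ℕ} {e : A} (h : S.BP j e) :
    S.BP (j + 1) e ∧ S.BP (j + 1) (S.d true e) := by
  induction h with
  | v =>
    refine ⟨.v _, ?_⟩
    rw [S.D_v, sq]
    exact (((BP.v _).mul (.v _)).mul (.L _ [true] (by simp))).neg
  | L l h => exact ⟨.L _ l (by omega), .L _ (true :: l) (by simpa using h)⟩
  | M l h => exact ⟨.M _ l (by omega), .M _ (true :: l) (by simpa using h)⟩
  | neg _ ih => rw [map_neg]; exact ⟨ih.1.neg, ih.2.neg⟩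
  | add _ _ ih1 ih2 => rw [map_add]; exact ⟨ih1.1.add ih2.1, ih1.2.add ih2.2⟩
  | mul _ _ ih1 ih2 => rw [leib]; exact ⟨ih1.1.mul ih2.1, (ih1.1.mul ih2.2).add (ih2.1.mul ih1.2)⟩

theorem BP_ab (k : ℕ) : S.BP k (S.a k) ∧ S.BP k (S.b k) := by
  induction k with
  | zero => exact ⟨.v _, (BP.M 0 [] le_rfl).mul (.v _)⟩
  | succ k ih =>
    rw [a_succ, b_succ, X_apply, X_apply]
    exact ⟨(BP.v _).mul ih.1.succ.2, (BP.v _).mul ih.2.succ.2⟩

end Sys

/-- the family of all solutions with fixed `R, δ` and small `ε` -/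
structure Dat (n B : ℕ) (R δ ε₀ : ℝ) where
  ε : ℝ
  L : P → ℝ
  M : P → ℝ
  N : P → ℝ
  ε0 : 0 < ε
  ε1 : ε ≤ ε₀
  h : Hyp n B R δ ε L M N

variable {n B : ℕ} {R δ ε₀ : ℝ}

theorem Dat.Lpos (hn : 1 ≤ n) (i : Dat n B R δ ε₀) {p : P} (hp : p ∈ Om) : 0 < i.L p :=
  lt_of_lt_of_le (by have : (0 : ℝ) < n := by exact_mod_cast hn
                     positivity) (i.h.lo p hp)

noncomputable def sys (hn : 1 ≤ n) (hR : 0 < R) : Sys (Sm (Dat n B R δ ε₀)) where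
  d := Sm.d
  comm := Sm.d_comm
  L := Sm.mk (fun i => i.L) fun i => i.h.sL.contDiffOn
  M := Sm.mk (fun i => i.M) fun i => i.h.sM.contDiffOn
  N := Sm.mk (fun i => i.N) fun i => i.h.sN.contDiffOn
  v := Sm.mk (fun i p => (i.L p)⁻¹) fun i => i.h.sL.contDiffOn.inv fun _ hp => (i.Lpos hn hp).ne'
  E := Sm.mk (fun i p => Real.exp (2 * lens B δ i.ε p)) fun i =>
    (contDiff_const.mul (contDiff_lens B δ i.ε)).exp.contDiffOn
  G l := Sm.mk (fun i => Ds l (lens B δ i.ε)) fun i => (contDiff_Ds l (contDiff_lens B δ i.ε)).contDiffOn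
  ρ := (R ^ 2)⁻¹
  hv := Subtype.ext <| funext fun t => mul_inv_cancel₀ (t.1.Lpos hn t.2.2).ne'
  dG i l := Subtype.ext <| funext fun t => Sm.d_mk _ _ _ t
  dE i := Subtype.ext <| funext fun t => by
    have hd := diffAt (contDiff_lens B δ t.1.ε).contDiffAt (p := t.2)
    rw [Sm.d_mk, D_exp i (hd.const_mul 2), D_const_mul i 2 hd]
    change _ = 2 * D i (lens B δ t.1.ε) t.2 * Real.exp (2 * lens B δ t.1.ε t.2)
    ring
  c1 := Subtype.ext <| funext fun t => by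
    have := (t.1.h.gc t.2 t.2.2).c1
    rw [← Sm.d_mk false (fun i : Dat n B R δ ε₀ => i.L) (fun i => i.h.sL.contDiffOn) t,
      ← Sm.d_mk true (fun i : Dat n B R δ ε₀ => i.M) (fun i => i.h.sM.contDiffOn) t] at this
    exact this
  c2 := Subtype.ext <| funext fun t => by
    have := (t.1.h.gc t.2 t.2.2).c2
    rw [← Sm.d_mk false (fun i : Dat n B R δ ε₀ => i.M) (fun i => i.h.sM.contDiffOn) t,
      ← Sm.d_mk true (fun i : Dat n B R δ ε₀ => i.N) (fun i => i.h.sN.contDiffOn) t] at this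
    exact this
  ga := Subtype.ext <| funext fun t => by
    have := (t.1.h.gc t.2 t.2.2).ga
    change t.1.L t.2 * t.1.N t.2 - t.1.M t.2 ^ 2 = -((R ^ 2)⁻¹ * (Real.exp (2 * lens B δ t.1.ε t.2) *
      (Ds [true, true] (lens B δ t.1.ε) t.2 + Ds [false, false] (lens B δ t.1.ε) t.2)))
    rw [← mul_neg, ← this]
    field_simp

theorem ds_mk (hn : 1 ≤ n) (hR : 0 < R) (f : Dat n B R δ ε₀ → P → ℝ)
    (h : ∀ i, ContDiffOn ℝ ∞ (f i) Om) (l : List Bool) (t : Dat n B R δ ε₀ × Om) :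
    ((sys hn hR).ds l (Sm.mk f h)).1 t = Ds l (f t.1) t.2 := by
  induction l generalizing t with
  | nil => rfl
  | cons j l ih => exact Sm.d_eq j _ (fun q => ih (t.1, q)) t.2

theorem v_le (hn : 1 ≤ n) (hR : 0 < R) (t : Dat n B R δ ε₀ × Om) :
    0 < (sys hn hR).v.1 t ∧ (sys hn hR).v.1 t ≤ n := by
  have h := t.1.Lpos hn t.2.2
  refine ⟨inv_pos.2 h, ?_⟩
  change (t.1.L t.2)⁻¹ ≤ n
  rw [inv_le_comm₀ h (by exact_mod_cast hn), ← one_div]
  exact t.1.h.lo _ t.2.2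

theorem bd_BP (hn : 1 ≤ n) (hR : 0 < R) {j : ℕ} {e : Sm (Dat n B R δ ε₀)} (h : (sys hn hR).BP j e)
    (hj : j ≤ 5) : Bd 1 e := by
  induction h with
  | v => exact Bd.of n fun t _ => by rw [abs_of_pos (v_le hn hR t).1]; exact (v_le hn hR t).2
  | L l h =>
    refine Bd.of (n + n * R) fun t _ => ?_
    have : 0 ≤ (n : ℝ) * R := by positivity
    rw [show (sys hn hR).L = Sm.mk (fun i => i.L) fun i => i.h.sL.contDiffOn from rfl, ds_mk]
    cases l with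
    | nil => rw [Ds_nil, abs_of_pos (t.1.Lpos hn t.2.2)]; linarith [t.1.h.hi _ t.2.2]
    | cons i l => linarith [t.1.h.bd (i :: l) (by simp) (by omega) t.1.L (by simp) _ t.2.2]
  | M l h =>
    refine Bd.of (n * R) fun t _ => ?_
    rw [show (sys hn hR).M = Sm.mk (fun i => i.M) fun i => i.h.sM.contDiffOn from rfl, ds_mk]
    cases l with
    | nil => exact t.1.h.bM _ t.2.2
    | cons i l => exact t.1.h.bd (i :: l) (by simp) (by omega) t.1.M (by simp) _ t.2.2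
  | neg _ ih => exact ih.neg
  | add _ _ ih1 ih2 => exact ih1.add ih2
  | mul _ _ ih1 ih2 => exact ih1.mul ih2

theorem bG_sys (hn : 1 ≤ n) (hR : 0 < R) (h1 : ε₀ ≤ 1) (l : List Bool) :
    ∃ C, ∀ t : Dat n B R δ ε₀ × Om, |((sys hn hR).G l).1 t| ≤
      C * (1 + (t.1.ε)⁻¹ ^ (l.length - B) * ind (fun i => i.ε) t) := by
  obtain ⟨C1, h0, hC1⟩ := Ds_bound_of_compact l contDiff_prof (isCompact_closedBall (0 : P) 2)
  obtain ⟨C2, h0', hC2⟩ := Ds_bump_bound l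
  refine ⟨|δ| * C1 + C2, fun t => ?_⟩
  change |Ds l (lens B δ t.1.ε) t.2| ≤ _
  rw [Ds_lens]
  have e0 := t.1.ε0
  have a1 : |δ * Ds l prof t.2| ≤ |δ| * C1 := by
    rw [abs_mul]; gcongr; exact hC1 _ (Metric.ball_subset_closedBall t.2.2)
  have a2 : |Ds l (bump B t.1.ε) t.2| ≤ C2 * ((t.1.ε)⁻¹ ^ (l.length - B) * ind (fun i => i.ε) t) := by
    by_cases h : ‖(t.2 : P)‖ ≤ t.1.ε
    · rw [ind, if_pos h, mul_one]
      refine (hC2 B _ e0 _).trans (mul_le_mul_of_nonneg_left ?_ h0')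
      rw [inv_pow, div_le_iff₀ (by positivity), inv_mul_eq_div, le_div_iff₀ (by positivity), ← pow_add]
      exact pow_le_pow_of_le_one e0.le (t.1.ε1.trans h1) (by omega)
    · rw [Ds_bump_eq_zero' l B e0 (not_le.1 h), ind, if_neg h]; simp
  have a3 : 0 ≤ (t.1.ε)⁻¹ ^ (l.length - B) * ind (fun i => i.ε) t :=
    mul_nonneg (by positivity) (ind_nonneg _ _)
  refine (abs_add_le _ _).trans ?_
  nlinarith [mul_nonneg (mul_nonneg (abs_nonneg δ) h0) a3]

theorem D_lap_prof (j : Bool) (p : P) :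
    Ds [j, true, true] prof p + Ds [j, false, false] prof p = -(4 * if j then p.1 else p.2) := by
  have := D_add (p := p) j (diffAt (contDiff_Ds [true, true] contDiff_prof).contDiffAt)
    (diffAt (contDiff_Ds [false, false] contDiff_prof).contDiffAt)
  simp only [lap_prof] at this
  rw [Ds_cons j, Ds_cons j, ← this, D_sub _ (by fun_prop) (by fun_prop), D_const_mul _ _ (by fun_prop),
    D_add _ (by fun_prop) (by fun_prop), D_pow _ _ (by fun_prop), D_pow _ _ (by fun_prop)]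
  cases j <;> simp [D_fst, D_snd] <;> ring

/-- the smallness conditions on the parameters -/
structure Par (n B : ℕ) (η R δ ε₀ : ℝ) : Prop where
  η1 : η ≤ 1 / 1000
  R0 : 0 < R
  R1 : R ≤ 1
  R2 : 2 * (n : ℝ) ^ 4 * R ≤ η
  δ0 : 0 < δ
  δ1 : 100 * δ ≤ η
  ε1 : ε₀ ≤ 1 / 4
  ε2 : ∀ ε ∈ Ioc 0 ε₀, ∀ l : List Bool, l.length ≤ 3 → ∀ p, |Ds l (bump B ε) p| ≤ η * δ / 10

theorem re_K {R δ η E κ b : ℝ} (R0 : 0 < R) (δ0 : 0 < δ) (δ1 : 100 * δ ≤ η) (e1 : |E - 1| ≤ 4 * δ)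
    (e2 : |E| ≤ 2) (hκ : |κ| ≤ 1) (b2 : |b| ≤ η * δ / 5) :
    |-((R ^ 2)⁻¹ * (E * (-(δ * κ) + b))) - δ / R ^ 2 * κ| ≤ η * (δ / R ^ 2) := by
  rw [show -((R ^ 2)⁻¹ * (E * (-(δ * κ) + b))) - δ / R ^ 2 * κ =
    (R ^ 2)⁻¹ * (δ * ((E - 1) * κ) - E * b) by field_simp; ring, abs_mul,
    abs_of_pos (by positivity), show η * (δ / R ^ 2) = (R ^ 2)⁻¹ * (η * δ) by field_simp]
  gcongr
  refine (abs_sub _ _).trans ?_
  rw [abs_mul, abs_mul, abs_mul, abs_of_pos δ0]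
  have a1 : δ * (|E - 1| * |κ|) ≤ δ * (4 * δ * 1) := by gcongr
  have a2 : |E| * |b| ≤ 2 * (η * δ / 5) := by gcongr
  nlinarith

theorem re_K1 {R δ η E κ b b' f x : ℝ} (R0 : 0 < R) (δ0 : 0 < δ) (δ1 : 100 * δ ≤ η) (η1 : η ≤ 1 / 1000)
    (e1 : |E - 1| ≤ 4 * δ) (e2 : |E| ≤ 2) (hκ : |κ| ≤ 1) (b2 : |b| ≤ η * δ / 5) (b3 : |b'| ≤ η * δ / 5)
    (a0 : |f| ≤ δ) (a0' : |x| ≤ 1) :
    |-((R ^ 2)⁻¹ * (E * (-(δ * (4 * x)) + b') + (-(δ * κ) + b) * (2 * f * E))) - δ / R ^ 2 * (4 * x)|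
      ≤ η * (δ / R ^ 2) := by
  rw [show -((R ^ 2)⁻¹ * (E * (-(δ * (4 * x)) + b') + (-(δ * κ) + b) * (2 * f * E)))
      - δ / R ^ 2 * (4 * x) =
    (R ^ 2)⁻¹ * (4 * δ * ((E - 1) * x) - E * b' + 2 * ((δ * κ - b) * (f * E))) by field_simp; ring,
    abs_mul, abs_of_pos (by positivity), show η * (δ / R ^ 2) = (R ^ 2)⁻¹ * (η * δ) by field_simp]
  gcongr
  refine ((abs_add_le _ _).trans (add_le_add_left (abs_sub _ _) _)).trans ?_
  have a4 : |δ * κ - b| ≤ 2 * δ := by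
    refine (abs_sub _ _).trans ?_
    rw [abs_mul, abs_of_pos δ0]
    nlinarith
  rw [abs_mul, abs_mul (E - 1), abs_mul E, abs_mul 2, abs_mul, abs_mul (δ * κ - b), abs_mul f,
    abs_of_pos δ0, abs_two, abs_of_pos (by norm_num : (0 : ℝ) < 4)]
  have a1 : 4 * δ * (|E - 1| * |x|) ≤ 4 * δ * (4 * δ * 1) := by gcongr
  have a2 : |E| * |b'| ≤ 2 * (η * δ / 5) := by gcongr
  have a3 : 2 * (|δ * κ - b| * (|f| * |E|)) ≤ 2 * (2 * δ * (δ * 2)) := by gcongr
  nlinarith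

theorem lens_close {η ε : ℝ} (h : Par n B η R δ ε₀) (hε : ε ∈ Ioc 0 ε₀) {p : P} (ht : rr p ≤ 1) :
    (∀ j, |Ds [j] (lens B δ ε) p| ≤ δ) ∧ |Real.exp (2 * lens B δ ε p) - 1| ≤ 4 * δ := by
  have hb := h.ε2 ε hε
  have δ0 := h.δ0
  have η1 := h.η1
  have δ1 := h.δ1
  have r0 : 0 ≤ rr p := by unfold rr; positivity
  obtain ⟨hx, hy⟩ := abs_le_one_of_rr ht
  have hj : ∀ j : Bool, |if j then p.1 else p.2| ≤ 1 := fun j => by cases j <;> simpa
  refine ⟨fun j => ?_, ?_⟩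
  · rw [Ds_lens]
    have a1 := hb [j] (by simp) p
    have a2 : |Ds [j] prof p| ≤ 1 / 2 := by
      rw [Ds_cons, Ds_nil, D_prof, abs_div, abs_mul, abs_two]
      gcongr
      exact mul_le_one₀ (hj j) (abs_nonneg _) (abs_le.2 ⟨by unfold rr at ht; linarith,
        by unfold rr at r0; linarith⟩)
    refine (abs_add_le _ _).trans ?_
    rw [abs_mul, abs_of_pos δ0]
    nlinarith
  · have a1 : |bump B ε p| ≤ _ := hb [] (by simp) p
    have a2 : |prof p| ≤ 1 / 2 := by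
      unfold prof; unfold rr at ht r0; rw [abs_le]; constructor <;> nlinarith
    have a3 : |2 * lens B δ ε p| ≤ 2 * δ := by
      rw [abs_mul, abs_two]
      gcongr
      refine (abs_add_le _ _).trans ?_
      rw [abs_mul, abs_of_pos δ0]
      nlinarith
    exact (Real.abs_exp_sub_one_le (a3.trans (by linarith))).trans (by linarith)

theorem dK_eq {A : Type*} [CommRing A] [Algebra ℝ A] (S : Sys A) (j : Bool) : S.d j S.K =
    -(algebraMap ℝ _ S.ρ * (S.E * (S.G [j, true, true] + S.G [j, false, false]) +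
      (S.G [true, true] + S.G [false, false]) * (2 * S.G [j] * S.E))) := by
  simp only [Sys.K, map_neg, Sys.leib, map_add, Sys.dG, Sys.dE, Derivation.map_algebraMap]
  rw [mul_zero, add_zero]

theorem K_close (hn : 1 ≤ n) {η : ℝ} (h : Par n B η R δ ε₀) (t : Dat n B R δ ε₀ × Om)
    (ht : rr t.2 ≤ 1) : (∀ j, |((sys hn h.R0).G [j]).1 t| ≤ δ / R ^ 2) ∧
      |(sys hn h.R0).E.1 t| ≤ 2 ∧
      |(sys hn h.R0).K.1 t - δ / R ^ 2 * (2 * rr t.2 - 1)| ≤ η * (δ / R ^ 2) ∧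
      ∀ j, |(Sm.d j (sys hn h.R0).K).1 t - δ / R ^ 2 * (4 * if j then t.2.1.1 else t.2.1.2)| ≤
        η * (δ / R ^ 2) := by
  have hb := h.ε2 t.1.ε ⟨t.1.ε0, t.1.ε1⟩
  have δ0 := h.δ0
  have R0 := h.R0
  have η1 := h.η1
  have δ1 := h.δ1
  have r0 : 0 ≤ rr t.2 := by unfold rr; positivity
  obtain ⟨hx, hy⟩ := abs_le_one_of_rr ht
  have hj : ∀ j : Bool, |if j then t.2.1.1 else t.2.1.2| ≤ 1 := fun j => by cases j <;> simpa
  obtain ⟨g1, e1⟩ := lens_close h ⟨t.1.ε0, t.1.ε1⟩ ht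
  have e2 : |Real.exp (2 * lens B δ t.1.ε t.2)| ≤ 2 := by
    have := abs_le.1 e1; rw [abs_le]; constructor <;> linarith
  have b2 : |Ds [true, true] (bump B t.1.ε) t.2 + Ds [false, false] (bump B t.1.ε) t.2| ≤ η * δ / 5 :=
    (abs_add_le _ _).trans (by linarith [hb [true, true] (by simp) t.2, hb [false, false] (by simp) t.2])
  have hκ : |2 * rr t.2 - 1| ≤ 1 := abs_le.2 ⟨by linarith, by linarith⟩
  have lap : Ds [true, true] (lens B δ t.1.ε) t.2 + Ds [false, false] (lens B δ t.1.ε) t.2 =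
      -(δ * (2 * rr t.2 - 1)) +
        (Ds [true, true] (bump B t.1.ε) t.2 + Ds [false, false] (bump B t.1.ε) t.2) := by
    rw [Ds_lens, Ds_lens]; unfold rr; linear_combination δ * lap_prof t.2
  refine ⟨fun j => (g1 j).trans ?_, e2, ?_, fun j => ?_⟩
  · rw [le_div_iff₀ (by positivity)]
    exact mul_le_of_le_one_right δ0.le (pow_le_one₀ R0.le h.R1)
  · have := re_K R0 δ0 δ1 e1 e2 hκ b2
    rw [← lap] at this
    exact this
  · have b3 : |Ds [j, true, true] (bump B t.1.ε) t.2 + Ds [j, false, false] (bump B t.1.ε) t.2|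
        ≤ η * δ / 5 := (abs_add_le _ _).trans
      (by linarith [hb [j, true, true] (by simp) t.2, hb [j, false, false] (by simp) t.2])
    have lap' : Ds [j, true, true] (lens B δ t.1.ε) t.2 + Ds [j, false, false] (lens B δ t.1.ε) t.2 =
        -(δ * (4 * if j then t.2.1.1 else t.2.1.2)) +
          (Ds [j, true, true] (bump B t.1.ε) t.2 + Ds [j, false, false] (bump B t.1.ε) t.2) := by
      rw [Ds_lens, Ds_lens]; linear_combination δ * D_lap_prof j t.2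
    have := re_K1 R0 δ0 δ1 η1 e1 e2 hκ b2 b3 (g1 j) (hj j)
    rw [← lap, ← lap'] at this
    have e : Sm.d j (sys (B := B) (δ := δ) (ε₀ := ε₀) hn h.R0).K = _ := dK_eq (sys hn h.R0) j
    rw [e]
    exact this

noncomputable def setup (hn : 1 ≤ n) {η : ℝ} (h : Par n B η R δ ε₀) : Setup (Dat n B R δ ε₀) B where
  S := sys hn h.R0
  hd := rfl
  ε i := i.ε
  ε0 i := i.ε0
  ε1 i := i.ε1.trans h.ε1
  base k hk := ⟨bd_BP hn h.R0 (Sys.BP_ab _ k).1 hk, bd_BP hn h.R0 (Sys.BP_ab _ k).2 hk⟩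
  bL := bd_BP hn h.R0 (.L 0 [] le_rfl) (by norm_num)
  bE := Bd.of 2 fun t ht => (K_close hn h t ht).2.1
  bG := bG_sys hn h.R0 (h.ε1.trans (by norm_num))
  ell := ⟨δ / R ^ 2 / 20, by have := h.δ0; have := h.R0; positivity, fun t h1 h2 => by
    have := (abs_le.1 (K_close hn h t h2).2.2.1).1
    have h3 : 0 < δ / R ^ 2 := by have := h.δ0; have := h.R0; positivity
    nlinarith [h.η1]⟩
  Lpos := ⟨1 / n, by have : (0 : ℝ) < n := by exact_mod_cast hn
                     positivity, fun t => t.1.h.lo _ t.2.2⟩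

theorem re_u {n R η v u a b : ℝ} (n1 : 1 ≤ n) (R0 : 0 < R) (R1 : R ≤ 1) (R2 : 2 * n ^ 4 * R ≤ η)
    (hv : |v| ≤ n) (hu : |u| ≤ n * R * n) (ha : |a| ≤ n * R) (hb : |b| ≤ n * R) :
    |u| ≤ η ∧ |v * a - u * v * b| ≤ η ∧ |-(v ^ 2 * b)| ≤ η := by
  have p2 : n ^ 2 * R ≤ n ^ 4 * R := by gcongr; omega
  have p3 : n ^ 3 * R ≤ n ^ 4 * R := by gcongr; omega
  have p4 : 0 ≤ n ^ 4 * R := by positivity
  have p5 : n ^ 4 * R * R ≤ n ^ 4 * R := mul_le_of_le_one_right p4 R1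
  refine ⟨by linarith, (abs_sub _ _).trans ?_, ?_⟩
  · rw [abs_mul, abs_mul, abs_mul]
    have a1 : |v| * |a| ≤ n * (n * R) := by gcongr
    have a2 : |u| * |v| * |b| ≤ n * R * n * n * (n * R) := by gcongr
    linarith
  · rw [abs_neg, abs_mul, abs_pow]
    have a1 : |v| ^ 2 * |b| ≤ n ^ 2 * (n * R) := by gcongr
    linarith

theorem near (hn : 1 ≤ n) {η : ℝ} (h : Par n B η R δ ε₀) : Near (setup hn h) n η √(δ / R ^ 2) := by
  have n1 : (1 : ℝ) ≤ n := by exact_mod_cast hn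
  have R0 := h.R0
  have e : √(δ / R ^ 2) ^ 2 = δ / R ^ 2 := Real.sq_sqrt (by have := h.δ0; positivity)
  have hv : ∀ t : Dat n B R δ ε₀ × Om, |(sys hn h.R0).v.1 t| ≤ n := fun t => by
    rw [abs_of_pos (v_le hn h.R0 t).1]; exact (v_le hn h.R0 t).2
  have dL : ∀ j (t : Dat n B R δ ε₀ × Om), |(Sm.d j (sys hn h.R0).L).1 t| ≤ n * R := fun j t =>
    (congrArg abs (Sm.d_mk j _ (fun i => i.h.sL.contDiffOn) t)).trans_le
      (t.1.h.bd [j] (by simp) (by simp) t.1.L (by simp) _ t.2.2)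
  have dM : ∀ j (t : Dat n B R δ ε₀ × Om), |(Sm.d j (sys hn h.R0).M).1 t| ≤ n * R := fun j t =>
    (congrArg abs (Sm.d_mk j _ (fun i => i.h.sM.contDiffOn) t)).trans_le
      (t.1.h.bd [j] (by simp) (by simp) t.1.M (by simp) _ t.2.2)
  have hu : ∀ t : Dat n B R δ ε₀ × Om, |(sys hn h.R0).u.1 t| ≤ n * R * n := fun t => by
    have e : (sys hn h.R0).u.1 t = t.1.M t.2 * (sys hn h.R0).v.1 t := rfl
    rw [e, abs_mul]
    exact mul_le_mul (t.1.h.bM _ t.2.2) (hv t) (abs_nonneg _) (by positivity)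
  have key := fun j t => re_u n1 R0 h.R1 h.R2 (hv t) (hu t) (dM j t) (dL j t)
  refine ⟨fun t => (v_le hn h.R0 t).1, fun t => (v_le hn h.R0 t).2, fun t => t.1.h.hi _ t.2.2,
    fun t => (key true t).1, fun t => ?_, fun j t => ?_, fun j t ht => ?_, fun t ht => ?_,
    fun t ht => ?_, fun t ht => ?_⟩
  · rw [Sys.D_u]; exact (key true t).2.1
  · rw [Sys.D_v]; exact (key j t).2.2
  · rw [e]; exact (K_close hn h t ht).1 j
  · rw [e]; exact (K_close hn h t ht).2.2.1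
  · rw [e]; exact (K_close hn h t ht).2.2.2 true
  · rw [e]; exact (K_close hn h t ht).2.2.2 false

theorem closedBall_sub : Metric.closedBall (0 : P) (1 / 2) ⊆ KK (1 / 2) := fun p hp => by
  have h1 : ‖p‖ ≤ 1 / 2 := by simpa using hp
  have := rr_le p
  change rr p ≤ _
  nlinarith [norm_nonneg p]

theorem UI.out {ι : Type} {f : ι × Om → ℝ} (hf : UI (1 / 2) f) (f0 : ∀ t, 0 ≤ f t) {A : ι → Set P}
    (hA : ∀ i, A i ⊆ Metric.closedBall 0 (1 / 2)) (hm : ∀ i, MeasurableSet (A i)) {g : ι → P → ℝ}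
    (hg : ∀ i, Continuous (g i)) (h : ∀ t : ι × Om, t.2.1 ∈ A t.1 → g t.1 t.2 ≤ f t) :
    ∀ᶠ C in atTop, ∀ i, ∫ p in A i, g i p ≤ C := by
  obtain ⟨C, hC⟩ := hf
  filter_upwards [eventually_ge_atTop C] with C' hC' i
  have hs := (hA i).trans closedBall_sub
  have hO : KK (1 / 2) ⊆ Om := KK_sub (by norm_num)
  refine le_trans ?_ ((hC i).2.trans hC')
  refine (setIntegral_mono_on (((hg i).continuousOn.integrableOn_compact
    (isCompact_closedBall _ _)).mono_set (hA i)) ((hC i).1.mono_set hs) (hm i) fun p hp => ?_).trans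
    (setIntegral_mono_set (hC i).1 (Eventually.of_forall fun p => ?_) hs.eventuallyLE)
  · rw [ex_mem _ _ (hO (hs hp))]; exact h (i, ⟨p, _⟩) hp
  · by_cases hp : p ∈ Om
    · rw [ex_mem _ _ hp]; exact f0 _
    · rw [ex_nmem _ _ hp]; exact le_rfl

theorem est_of (hn : 1 ≤ n) (hB : 12 ≤ B) {η : ℝ} (h : Par n B η R δ ε₀) (hc : CoerAt n B η)
    (hδ : √(δ / R ^ 2) ≤ η) (h8 : 8 * ε₀ ≤ η) (hΛ : (5 + 4 / (√(δ / R ^ 2) / (40 * n))) * ε₀ ≤ 1 / 16) :
    ∃ C, ∀ i : Dat n B R δ ε₀, Est B C (5 + 4 / (√(δ / R ^ 2) / (40 * n))) i.ε i.L i.M i.N := by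
  have n1 : (1 : ℝ) ≤ n := by exact_mod_cast hn
  have om0 : 0 < √(δ / R ^ 2) := Real.sqrt_pos.2 (by have := h.δ0; have := h.R0; positivity)
  have hN := near hn h
  generalize √(δ / R ^ 2) = om at *
  set Z := setup hn h
  have c0 : 0 < om / (40 * n) := by positivity
  have c1 : om / (40 * n) ≤ 1 := by rw [div_le_one (by positivity)]; linarith [h.η1]
  have lev := Z.lev_top hB (Z.coer1 n1 hN hc h.η1 om0 hδ)
  have co := Z.coer2 n1 hN hc h.η1 om0 hδ (fun i => by have := i.ε1; change 8 * i.ε ≤ _; linarith)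
    fun i => le_trans (mul_le_mul_of_nonneg_left i.ε1 (by positivity)) hΛ
  have key : ∀ (f : Dat n B R δ ε₀ → P → ℝ) (hf : ∀ i, ContDiff ℝ ∞ (f i)),
      Z.S.DP 0 0 (Sm.mk f fun i => (hf i).contDiffOn) → ∀ᶠ C in atTop,
      ∀ l ∈ {l : List Bool | l.length ≤ B},
        (l.length + 1 ≤ B → ∀ i, ∫ p in Metric.closedBall (0 : P) (1 / 2), Ds l (f i) p ^ 2 ≤ C) ∧
        (l.length + 3 ≤ B → ∀ i, ∀ p ∈ Metric.closedBall (0 : P) (1 / 2), |Ds l (f i) p| ≤ C) ∧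
        ∀ i, ∫ p in Metric.closedBall (0 : P) (1 / 2) \ Metric.ball 0 ((5 + 4 / (om / (40 * n))) * i.ε),
          Ds l (f i) p ^ 2 ≤ C := by
    intro f hf hD
    refine (eventually_all_finite (List.finite_length_le Bool B)).2 fun l hl => ?_
    have e := ds_mk hn h.R0 f (fun i => (hf i).contDiffOn) l
    refine Eventually.and ?_ (Eventually.and ?_ ?_)
    · refine eventually_imp_distrib_left.2 fun h1 => ?_
      exact UI.out (Z.out_l2 hB lev (hD.ds l) h1) (fun t => sq_nonneg (_ : ℝ)) (fun _ => subset_rfl)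
        (fun _ => measurableSet_closedBall) (fun i => (contDiff_Ds l (hf i)).continuous.pow 2)
        fun t _ => by rw [← e t]; exact le_rfl
    · refine eventually_imp_distrib_left.2 fun h1 => ?_
      obtain ⟨C, -, hC⟩ := (Z.out_sup hB lev (hD.ds l) h1).ex
      filter_upwards [eventually_ge_atTop C] with C' hC' i p hp
      have := hC (i, ⟨p, KK_sub (by norm_num) (closedBall_sub hp)⟩) (closedBall_sub hp)
      exact le_trans (by rw [← e (i, ⟨p, _⟩)]; exact this) hC'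
    · refine UI.out (Z.out_ann hB lev co (Bd.of 2 fun t _ => ?_) (Z.σh_zero hN h.η1 c0.le c1) (hD.ds l) hl)
        (fun t => mul_nonneg (co.σ0 t) (sq_nonneg (_ : ℝ))) (fun _ => sdiff_subset)
        (fun _ => measurableSet_closedBall.diff measurableSet_ball)
        (fun i => (contDiff_Ds l (hf i)).continuous.pow 2) fun t ht => ?_
      · rw [abs_of_nonneg (co.σ0 t), Setup.σh_apply]; exact sg_le _ _ _
      · rw [← e t]
        exact le_mul_of_one_le_left (sq_nonneg _) (Z.one_le_σh hN h.η1 c0 t (not_lt.1 (mt mem_ball_zero_iff.2 ht.2)))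
  obtain ⟨C, h1, h2, h3⟩ := ((key _ (fun i => i.h.sL) .L).and ((key _ (fun i => i.h.sM) Sys.DP.M).and
    (key _ (fun i => i.h.sN) Sys.DP.N))).exists
  refine ⟨C, fun i => ⟨fun l hl f hf => ?_, fun l hl f hf => ?_, fun l hl f hf => ?_⟩⟩ <;>
    simp only [List.mem_cons, List.not_mem_nil, or_false] at hf <;>
    have hl' : l.length ≤ B := by omega
  · rcases hf with rfl | rfl | rfl
    exacts [(h1 l hl').1 hl i, (h2 l hl').1 hl i, (h3 l hl').1 hl i]
  · rcases hf with rfl | rfl | rfl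
    exacts [(h1 l hl').2.1 hl i, (h2 l hl').2.1 hl i, (h3 l hl').2.1 hl i]
  · rcases hf with rfl | rfl | rfl
    exacts [(h1 l hl').2.2 i, (h2 l hl').2.2 i, (h3 l hl').2.2 i]

theorem ev_mul_le (a : ℝ) {b : ℝ} (hb : 0 < b) : ∀ᶠ t in 𝓝[>] (0 : ℝ), a * t ≤ b := by
  have : Tendsto (fun t : ℝ => a * t) (𝓝 0) (𝓝 (a * 0)) := (continuous_const.mul continuous_id).tendsto 0
  exact nhdsWithin_le_nhds (this.eventually_le_const (by simpa using hb))

theorem est : EstStmt := by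
  intro n B hn hB
  have n1 : (1 : ℝ) ≤ n := by exact_mod_cast hn
  have h01 : ∀ᶠ t in 𝓝[>] (0 : ℝ), t ∈ Ioc (0 : ℝ) 1 := Ioc_mem_nhdsGT one_pos
  obtain ⟨η, hc, η0, η1⟩ := ((coerAt n B n1 (Nat.cast_nonneg _)).and
    (Ioc_mem_nhdsGT (show (0 : ℝ) < 1 / 1000 by norm_num))).exists
  obtain ⟨Cb, hCb⟩ := ((eventually_all_finite (List.finite_length_le Bool 3) (l := atTop)
    (p := fun l C => ∀ (ε : ℝ), 0 < ε → ε ≤ 1 → ∀ p : P, |Ds l (bump B ε) p| ≤ C * ε)).2 fun l hl => by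
      obtain ⟨C, hC0, hC⟩ := Ds_bump_bound l
      filter_upwards [eventually_ge_atTop C] with C' hC' ε h0 h1 p
      refine (hC B ε h0 p).trans (mul_le_mul hC' ?_ (by positivity) (hC0.trans hC'))
      rw [div_le_iff₀ (by positivity), ← pow_succ']
      exact pow_le_pow_of_le_one h0.le h1 (by have : l.length ≤ 3 := hl
                                              omega)).exists
  filter_upwards [h01, ev_mul_le (2 * (n : ℝ) ^ 4) η0] with R hR R2
  have R0 := hR.1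
  filter_upwards [h01, ev_mul_le 100 η0, ev_mul_le 1 (show 0 < η ^ 2 * R ^ 2 by positivity)]
    with δ hδ δ1 δ2
  have δ0 := hδ.1
  obtain ⟨ε₀, ε0, e1, e2, e3, e4⟩ := (h01.and ((ev_mul_le 4 one_pos).and ((ev_mul_le 8 η0).and
    ((ev_mul_le (5 + 4 / (√(δ / R ^ 2) / (40 * n))) (show (0 : ℝ) < 1 / 16 by norm_num)).and
    (ev_mul_le |Cb| (show 0 < η * δ / 10 by positivity)))))).exists
  have hP : Par n B η R δ ε₀ := ⟨η1, R0, hR.2, R2, δ0, δ1, by linarith, fun ε hε l hl p =>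
    (hCb l hl ε hε.1 (hε.2.trans ε0.2) p).trans
      ((mul_le_mul (le_abs_self _) hε.2 hε.1.le (abs_nonneg _)).trans e4)⟩
  obtain ⟨C, hC⟩ := est_of hn hB hP hc (Real.sqrt_le_iff.2 ⟨η0.le, by
    rw [div_le_iff₀ (by positivity)]; linarith⟩) e2 e3
  refine ⟨C, 5 + 4 / (√(δ / R ^ 2) / (40 * n)),
    le_add_of_le_of_nonneg (show (1 : ℝ) ≤ 5 by norm_num) (by positivity), ?_⟩
  filter_upwards [Ioc_mem_nhdsGT ε0.1] with ε hε L M N h using hC ⟨ε, L, M, N, hε.1, hε.2, h⟩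

end Crest.Agent.R220
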