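import Crest.Agent.R220.FinalA

/-! Row 220, final step: the estimates contradict the Gauss equation tested on the bump. -/

set_option autoImplicit false
set_option linter.dupNamespace false
open scoped ContDiff Topology
open Set MeasureTheory Filter Asymptotics

namespace Crest.Agent.R220

namespace F

/-- the asymptotic setting -/
structure Ctx (ι : Type) where
  F : Filter ι
  e : ι → ℝ
  Λ : ℝ
  he : Tendsto e F (𝓝[>] 0)
  hΛ : 1 ≤ Λ

namespace Ctx

variable {ι : Type} (c : Ctx ι)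

theorem small' {δ : ℝ} (hδ : 0 < δ) : ∀ᶠ x in c.F, 0 < c.e x ∧ c.e x ≤ δ := by
  filter_upwards [c.he.eventually (Ioc_mem_nhdsGT hδ)] with x hx using hx

theorem small : ∀ᶠ x in c.F, 0 < c.e x ∧ c.e x ≤ 1 ∧ 2 * (c.Λ * c.e x) ≤ 1 / 2 := by
  have hΛ := c.hΛ
  filter_upwards [c.small' (δ := 1 / (4 * c.Λ)) (by positivity)] with x hx
  have h1 : c.e x * (4 * c.Λ) ≤ 1 := (le_div_iff₀ (by positivity)).1 hx.2
  exact ⟨hx.1, by nlinarith [hx.1], by linarith⟩

def Bd (k : ℤ) (f : ι → P → ℝ) : Prop :=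
  ∃ K : ℝ, 0 ≤ K ∧ ∀ᶠ x in c.F, ∀ p : P, ‖p‖ ≤ 2 * (c.Λ * c.e x) → |f x p| ≤ K * c.e x ^ k

def Sm (f : ι → P → ℝ) : Prop := ∀ᶠ x in c.F, ContDiff ℝ ∞ (f x)

def Sp (f : ι → P → ℝ) : Prop := ∀ᶠ x in c.F, ∀ p : P, 2 * (c.Λ * c.e x) < ‖p‖ → f x p = 0

def L2 (g : ι → P → ℝ) : Prop :=
  ∃ C : ℝ, ∀ᶠ x in c.F, Continuous (g x) ∧ ∫ p in Metric.closedBall (0 : P) (1 / 2), g x p ^ 2 ≤ C

def O (k : ℤ) (a : ι → ℝ) : Prop := a =O[c.F] fun x => c.e x ^ k

variable {c}

theorem Bd.congr {k : ℤ} {f g : ι → P → ℝ} (h : c.Bd k f)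
    (hfg : ∀ᶠ x in c.F, ∀ p, g x p = f x p) : c.Bd k g := by
  obtain ⟨K, hK, h⟩ := h
  refine ⟨K, hK, ?_⟩
  filter_upwards [h, hfg] with x h1 h2 p hp
  rw [h2]; exact h1 p hp

theorem Bd.mono {k k' : ℤ} {f : ι → P → ℝ} (h : c.Bd k f) (hk : k' ≤ k) : c.Bd k' f := by
  obtain ⟨K, hK, h⟩ := h
  refine ⟨K, hK, ?_⟩
  filter_upwards [h, c.small] with x h1 h2 p hp
  exact (h1 p hp).trans (mul_le_mul_of_nonneg_left (zpow_le_zpow_right_of_le_one₀ h2.1 h2.2.1 hk) hK)

theorem Bd.add {k : ℤ} {f g : ι → P → ℝ} (hf : c.Bd k f) (hg : c.Bd k g) :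
    c.Bd k fun x p => f x p + g x p := by
  obtain ⟨K, hK, hf⟩ := hf
  obtain ⟨K', hK', hg⟩ := hg
  refine ⟨K + K', by positivity, ?_⟩
  filter_upwards [hf, hg] with x h1 h2 p hp
  refine (abs_add_le _ _).trans ?_
  rw [add_mul]
  exact add_le_add (h1 p hp) (h2 p hp)

theorem Bd.mul {k k' : ℤ} {f g : ι → P → ℝ} (hf : c.Bd k f) (hg : c.Bd k' g) :
    c.Bd (k + k') fun x p => f x p * g x p := by
  obtain ⟨K, hK, hf⟩ := hf
  obtain ⟨K', hK', hg⟩ := hg
  refine ⟨K * K', by positivity, ?_⟩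
  filter_upwards [hf, hg, c.small] with x h1 h2 h3 p hp
  have := h3.1
  rw [abs_mul, zpow_add₀ h3.1.ne', mul_mul_mul_comm]
  exact mul_le_mul (h1 p hp) (h2 p hp) (abs_nonneg _) (by positivity)

theorem Bd.of_bound {f : ι → P → ℝ} {K : ℝ}
    (h : ∀ᶠ x in c.F, ∀ p ∈ Metric.closedBall (0 : P) (1 / 2), |f x p| ≤ K) : c.Bd 0 f := by
  refine ⟨max K 0, le_max_right _ _, ?_⟩
  filter_upwards [h, c.small] with x h1 h2 p hp
  rw [zpow_zero, mul_one]
  exact (h1 p (by simpa using hp.trans (by simpa using h2.2.2))).trans (le_max_left _ _)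

theorem Bd.of_cont {f : P → ℝ} (hf : Continuous f) : c.Bd 0 fun _ => f := by
  obtain ⟨C, hC⟩ := (isCompact_closedBall (0 : P) (1 / 2)).exists_bound_of_continuousOn
    hf.continuousOn
  exact Bd.of_bound (Eventually.of_forall fun _ p hp => hC p hp)

theorem Bd.const (a : ℝ) : c.Bd 0 fun _ _ => a := Bd.of_cont continuous_const

theorem Bd.cmul {k : ℤ} {f : ι → P → ℝ} (a : ℝ) (hf : c.Bd k f) : c.Bd k fun x p => a * f x p := by
  simpa using (Bd.const a).mul hf

theorem Bd.pow {f : ι → P → ℝ} (hf : c.Bd 1 f) (k : ℕ) : c.Bd k fun x p => f x p ^ k := by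
  induction k with
  | zero => simpa using Bd.const 1
  | succ k ih => simpa [pow_succ] using ih.mul hf

theorem Bd.of_norm {f : ι → P → ℝ} {K : ℝ} (hK : 0 ≤ K)
    (h : ∀ᶠ x in c.F, ∀ p : P, ‖p‖ ≤ 1 / 2 → |f x p| ≤ K * ‖p‖) : c.Bd 1 f := by
  have hΛ := c.hΛ
  refine ⟨K * (2 * c.Λ), by positivity, ?_⟩
  filter_upwards [h, c.small] with x h1 h2 p hp
  refine (h1 p (hp.trans h2.2.2)).trans ?_
  rw [zpow_one, mul_assoc, mul_assoc]
  exact mul_le_mul_of_nonneg_left hp hK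

theorem Bd.fst : c.Bd 1 fun _ p => p.1 :=
  Bd.of_norm zero_le_one (Eventually.of_forall fun _ p _ => by simpa using abs_fst_le p)

theorem Bd.snd : c.Bd 1 fun _ p => p.2 :=
  Bd.of_norm zero_le_one (Eventually.of_forall fun _ p _ => by simpa using abs_snd_le p)

theorem Bd.expm1 {k : ℤ} (hk : 1 ≤ k) {f : ι → P → ℝ} (hf : c.Bd k f) :
    c.Bd k fun x p => Real.exp (f x p) - 1 := by
  obtain ⟨K1, hK1, h1⟩ := hf.mono hk
  obtain ⟨K, hK, hf⟩ := hf
  refine ⟨2 * K, by positivity, ?_⟩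
  filter_upwards [hf, h1, c.small' (δ := 1 / (K1 + 1)) (by positivity)] with x a1 a2 a3 p hp
  have b1 : c.e x * (K1 + 1) ≤ 1 := (le_div_iff₀ (by positivity)).1 a3.2
  have b2 : |f x p| ≤ 1 := by
    have := a2 p hp
    rw [zpow_one] at this
    nlinarith [a3.1]
  refine (Real.abs_exp_sub_one_le b2).trans ?_
  rw [mul_assoc]
  exact mul_le_mul_of_nonneg_left (a1 p hp) zero_le_two

theorem Bd.bump (l : List Bool) (B : ℕ) : c.Bd (B - l.length) fun x => Ds l (bump B (c.e x)) := by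
  obtain ⟨C, hC, h⟩ := Ds_bump_bound l
  refine ⟨C, hC, ?_⟩
  filter_upwards [c.small] with x hx p _
  rw [zpow_sub₀ hx.1.ne', zpow_natCast, zpow_natCast]
  exact h B _ hx.1 p

theorem Bd.cut (l : List Bool) :
    c.Bd (-l.length) fun x => Ds l (R220.bump 0 (2 * (c.Λ * c.e x))) := by
  obtain ⟨C, hC, h⟩ := Ds_bump_bound l
  have hΛ := c.hΛ
  refine ⟨C, hC, ?_⟩
  filter_upwards [c.small] with x hx p _
  have h0 := hx.1
  refine (h 0 _ (by positivity) p).trans (mul_le_mul_of_nonneg_left ?_ hC)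
  rw [zpow_neg, zpow_natCast, pow_zero, one_div]
  refine inv_anti₀ (by positivity) (pow_le_pow_left₀ h0.le (by nlinarith) _)

theorem Sp.mul {f : ι → P → ℝ} (hf : c.Sp f) (g : ι → P → ℝ) : c.Sp fun x p => f x p * g x p := by
  filter_upwards [hf] with x hx p hp
  rw [hx p hp, zero_mul]

theorem Sp.D {f : ι → P → ℝ} (hf : c.Sp f) (i : Bool) : c.Sp fun x => D i (f x) := by
  filter_upwards [hf] with x hx p hp
  have h1 : f x =ᶠ[𝓝 p] fun _ => 0 := by
    filter_upwards [(isOpen_lt continuous_const continuous_norm).mem_nhds hp] with q hq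
    exact hx q hq
  rw [(D_congr i h1).eq_of_nhds, D_const]

theorem Sp.cs {f : ι → P → ℝ} (hf : c.Sp f) : ∀ᶠ x in c.F, HasCompactSupport (f x) := by
  filter_upwards [hf] with x hx using cs_of hx

theorem O.of_set {k : ℤ} {f g : ι → P → ℝ} {C : ℝ} (Q : ι → Set P) (hf : c.Bd k f) (hs : c.Sp f)
    (h : ∀ᶠ x in c.F, Continuous (g x) ∧ MeasurableSet (Q x) ∧
      Q x ⊆ Metric.closedBall 0 (1 / 2) ∧ ∫ p in Q x, g x p ^ 2 ≤ C ∧
      ∀ p, ‖p‖ ≤ 1 / 2 → f x p ≠ 0 → p ∈ Q x) :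
    c.O (k + 1) fun x => ∫ p, f x p * g x p := by
  obtain ⟨K, hK, hf⟩ := hf
  have hΛ := c.hΛ
  refine IsBigO.of_bound (K * (C / 2 + 8 * c.Λ ^ 2)) ?_
  filter_upwards [hf, hs, h, c.small] with x h1 h2 ⟨a1, a2, a3, a4, a5⟩ ⟨b1, _, b3⟩
  have key := int_le (f := f x) (r := 2 * (c.Λ * c.e x)) (b := K * c.e x ^ k) b1 (by positivity)
    (by positivity) a1 a2 a3 a4 (fun p hp => by
      have : ‖p‖ ≤ 2 * (c.Λ * c.e x) := not_lt.1 fun h' => hp (h2 p h')
      exact ⟨a5 p (this.trans b3) hp, this⟩) h1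
  rw [Real.norm_eq_abs, Real.norm_eq_abs, abs_of_pos (zpow_pos b1 _), zpow_add_one₀ b1.ne']
  refine key.trans (le_of_eq ?_)
  field_simp
  ring

theorem O.of_L2 {k : ℤ} {f g : ι → P → ℝ} (hf : c.Bd k f) (hs : c.Sp f) (hg : c.L2 g) :
    c.O (k + 1) fun x => ∫ p, f x p * g x p := by
  obtain ⟨C, hg⟩ := hg
  refine O.of_set (C := C) (fun _ => Metric.closedBall 0 (1 / 2)) hf hs ?_
  filter_upwards [hg] with x hx
  exact ⟨hx.1, measurableSet_closedBall, subset_rfl, hx.2, fun p hp _ => by simpa using hp⟩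

theorem L2.of_cont {g : P → ℝ} (hg : Continuous g) : c.L2 fun _ => g :=
  ⟨_, Eventually.of_forall fun _ => ⟨hg, le_rfl⟩⟩

theorem L2.add {f g : ι → P → ℝ} (hf : c.L2 f) (hg : c.L2 g) : c.L2 fun x p => f x p + g x p := by
  obtain ⟨C, hf⟩ := hf
  obtain ⟨C', hg⟩ := hg
  refine ⟨2 * C + 2 * C', ?_⟩
  filter_upwards [hf, hg] with x ⟨a1, a2⟩ ⟨b1, b2⟩
  have i : ∀ {u : P → ℝ}, Continuous u →
      IntegrableOn (fun p => u p ^ 2) (Metric.closedBall (0 : P) (1 / 2)) := fun hu =>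
    (hu.pow 2).continuousOn.integrableOn_compact (isCompact_closedBall _ _)
  refine ⟨a1.add b1, le_trans (integral_mono (g := fun p => 2 * f x p ^ 2 + 2 * g x p ^ 2)
    (i (a1.add b1)) (((i a1).const_mul 2).add ((i b1).const_mul 2)) fun p => ?_) ?_⟩
  · nlinarith [sq_nonneg (f x p - g x p)]
  · rw [integral_add ((i a1).const_mul 2) ((i b1).const_mul 2), integral_const_mul,
      integral_const_mul]
    linarith

theorem L2.congr {f g : ι → P → ℝ} (h : c.L2 f) (hfg : ∀ᶠ x in c.F, g x = f x) : c.L2 g := by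
  obtain ⟨C, h⟩ := h
  refine ⟨C, ?_⟩
  filter_upwards [h, hfg] with x h1 h2
  rw [h2]; exact h1

theorem O.congr {k : ℤ} {a b : ι → ℝ} (h : c.O k a) (hab : ∀ᶠ x in c.F, b x = a x) : c.O k b :=
  IsBigO.congr' h (hab.mono fun _ h => h.symm) EventuallyEq.rfl

theorem O.add {k : ℤ} {a b : ι → ℝ} (ha : c.O k a) (hb : c.O k b) : c.O k fun x => a x + b x :=
  IsBigO.add ha hb

theorem O.sub {k : ℤ} {a b : ι → ℝ} (ha : c.O k a) (hb : c.O k b) : c.O k fun x => a x - b x :=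
  IsBigO.sub ha hb

theorem O.bmul {k : ℤ} {a b : ι → ℝ} {K : ℝ} (hb : ∀ᶠ x in c.F, |b x| ≤ K) (ha : c.O k a) :
    c.O k fun x => b x * a x := by
  have h1 : b =O[c.F] fun _ => (1 : ℝ) := IsBigO.of_bound K (by simpa using hb)
  simpa [O] using h1.mul ha

theorem O.cmul {k : ℤ} {a : ι → ℝ} (b : ℝ) (ha : c.O k a) : c.O k fun x => b * a x :=
  IsBigO.const_mul_left ha b

end Ctx

theorem integral_Dn_mul {f u v : P → ℝ} (k : ℕ) (hf : ContDiff ℝ ∞ f) (hc : HasCompactSupport f)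
    (hu : ContDiff ℝ ∞ u) (hv : ContDiff ℝ ∞ v) :
    ∫ p, f p * Dn k (fun q => u q * v q) p = ∑ ij ∈ Finset.HasAntidiagonal.antidiagonal k,
      (k.choose ij.1 : ℝ) * ∫ p, f p * Dn ij.1 u p * Dn ij.2 v p := by
  rw [Dn_mul k hu hv]
  simp only [← integral_const_mul]
  rw [← integral_finsetSum _ fun ij _ =>
    (integ (hf.mul (sm_Dn _ hu)) hc.mul_right (sm_Dn _ hv)).const_mul _]
  congr 1
  funext p
  rw [Finset.mul_sum]
  exact Finset.sum_congr rfl fun _ _ => by ring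

namespace Ctx

variable {ι : Type} {c : Ctx ι}

theorem prodA {κ : ℤ} {f u v : ι → P → ℝ} (k : ℕ) (hf : c.Bd κ f) (hs : c.Sp f) (sf : c.Sm f)
    (su : c.Sm u) (sv : c.Sm v) (hu : ∀ j ≤ k, c.Bd 0 fun x => Dn j (u x))
    (hv : ∀ j ≤ k, c.L2 fun x => Dn j (v x)) :
    c.O (κ + 1) fun x => ∫ p, f x p * Dn k (fun q => u x q * v x q) p := by
  refine O.congr (a := fun x => ∑ ij ∈ Finset.HasAntidiagonal.antidiagonal k,
      (k.choose ij.1 : ℝ) * ∫ p, f x p * Dn ij.1 (u x) p * Dn ij.2 (v x) p) ?_ ?_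
  · refine IsBigO.fun_sum fun ij hij => O.cmul _ ?_
    have h := Finset.HasAntidiagonal.mem_antidiagonal.1 hij
    have := O.of_L2 (hf.mul (hu ij.1 (by omega))) (hs.mul _) (hv ij.2 (by omega))
    simpa using this
  · filter_upwards [sf, hs.cs, su, sv] with x a1 a2 a3 a4 using integral_Dn_mul k a1 a2 a3 a4

/-- what is known about `L`, `M`, `N` -/
structure Co (c : Ctx ι) (B : ℕ) (u : ι → P → ℝ) : Prop where
  sm : c.Sm u
  sup : ∀ j, j + 3 ≤ B → c.Bd 0 fun x => Dn j (u x)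
  l2 : ∀ j, j + 1 ≤ B → c.L2 fun x => Dn j (u x)
  lip : c.Bd 1 fun x p => u x p - u x 0

theorem edge {κ : ℤ} {f u v : ι → P → ℝ} {m : ℕ} (hm : 3 ≤ m) (hf : c.Bd κ f)
    (hf' : c.Bd (κ - 1) fun x => D true (f x)) (hs : c.Sp f) (sf : c.Sm f)
    (hu : c.Co (m + 1) u) (hv : c.Co (m + 1) v) :
    c.O (κ + 1) fun x => (∫ p, f x p * u x p * Dn (m + 1) (v x) p) -
      u x 0 * ∫ p, f x p * Dn (m + 1) (v x) p := by
  have h1 : c.Bd κ fun x => D true fun p => f x p * (u x p - u x 0) := by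
    have a1 := hf.mul (hu.sup 1 (by omega))
    have a2 := hf'.mul hu.lip
    rw [add_zero] at a1
    rw [sub_add_cancel] at a2
    refine (a1.add a2).congr ?_
    filter_upwards [sf, hu.sm] with x b1 b2 p
    rw [D_mul _ (df b1 p) (df (b2.sub contDiff_const) p),
      D_sub _ (df b2 p) (differentiableAt_const _), D_const]
    simp [Dn_succ]
  have h2 := O.cmul (-1) (O.of_L2 h1 ((hs.mul _).D true) (hv.l2 m le_rfl))
  refine h2.congr ?_
  filter_upwards [sf, hs.cs, hu.sm, hv.sm] with x b1 b2 b3 b4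
  have := integral_mul_D (f := fun p => f x p * (u x p - u x 0)) true
    (b1.mul (b3.sub contDiff_const)) (sm_Dn m b4) b2.mul_right
  rw [neg_one_mul, ← this, ← integral_const_mul, ← integral_sub
    (integ (b1.mul b3) b2.mul_right (sm_Dn _ b4)) ((integ b1 b2 (sm_Dn _ b4)).const_mul _)]
  congr 1
  funext p
  rw [Dn_succ]
  ring

theorem prodB {κ : ℤ} {f u v : ι → P → ℝ} {m : ℕ} (hm : 4 ≤ m) (hf : c.Bd κ f)
    (hf' : c.Bd (κ - 1) fun x => D true (f x)) (hs : c.Sp f) (sf : c.Sm f)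
    (hu : c.Co (m + 2) u) (hv : c.Co (m + 2) v) :
    c.O (κ + 1) fun x => (∫ p, f x p * Dn (m + 2) (fun q => u x q * v x q) p) -
      (u x 0 * (∫ p, f x p * Dn (m + 2) (v x) p) + v x 0 * ∫ p, f x p * Dn (m + 2) (u x) p) := by
  have h1 := edge (m := m + 1) (by omega) hf hf' hs sf hu hv
  have h2 := edge (m := m + 1) (by omega) hf hf' hs sf hv hu
  have h3 : c.O (κ + 1) fun x => ∑ ij ∈ Finset.HasAntidiagonal.antidiagonal m,
      ((m + 2).choose (ij.1 + 1) : ℝ) *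
        ∫ p, f x p * Dn (ij.1 + 1) (u x) p * Dn (ij.2 + 1) (v x) p := by
    refine IsBigO.fun_sum fun ij hij => O.cmul _ ?_
    have h := Finset.HasAntidiagonal.mem_antidiagonal.1 hij
    by_cases hle : ij.1 ≤ ij.2
    · have := O.of_L2 (hf.mul (hu.sup (ij.1 + 1) (by omega))) (hs.mul _)
        (hv.l2 (ij.2 + 1) (by omega))
      simpa using this
    · have := O.of_L2 (hf.mul (hv.sup (ij.2 + 1) (by omega))) (hs.mul _)
        (hu.l2 (ij.1 + 1) (by omega))
      rw [add_zero] at this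
      refine this.congr (Eventually.of_forall fun x => ?_)
      congr 1; funext p; ring
  refine ((h1.add h2).add h3).congr ?_
  filter_upwards [sf, hs.cs, hu.sm, hv.sm] with x a1 a2 a3 a4
  rw [integral_Dn_mul _ a1 a2 a3 a4, Finset.Nat.sum_antidiagonal_succ,
    Finset.Nat.sum_antidiagonal_succ']
  have e : ∫ p, f x p * Dn (m + 1 + 1) (u x) p * v x p =
      ∫ p, f x p * v x p * Dn (m + 1 + 1) (u x) p := by
    congr 1; funext p; ring
  simp only [Nat.choose_zero_right, Nat.choose_self, Nat.cast_one, one_mul, Dn_zero, e]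
  ring

theorem co_of {n B : ℕ} {R δ C : ℝ} (hB : 4 ≤ B) {L M N u : ι → P → ℝ}
    (h : ∀ᶠ x in c.F, Hyp n B R δ (c.e x) (L x) (M x) (N x) ∧
      Est B C c.Λ (c.e x) (L x) (M x) (N x))
    (hu : ∀ x, u x ∈ [L x, M x, N x]) : c.Co B u := by
  have sm : c.Sm u := by
    filter_upwards [h] with x hx
    have := hu x
    simp only [List.mem_cons, List.not_mem_nil, or_false] at this
    rcases this with h | h | h <;> rw [h]
    exacts [hx.1.sL, hx.1.sM, hx.1.sN]
  refine ⟨sm, fun j hj => Bd.of_bound (K := C) ?_, fun j hj => ⟨C, ?_⟩,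
    Bd.of_norm (K := 2 * |C|) (by positivity) ?_⟩
  · filter_upwards [h] with x hx using hx.2.sup _ (by simpa using hj) _ (hu x)
  · filter_upwards [h, sm] with x hx hs
    exact ⟨(sm_Dn j hs).continuous, hx.2.l2 _ (by simpa using hj) _ (hu x)⟩
  · filter_upwards [h, sm] with x hx hs p hp
    exact sub_zero_le hs (fun i q hq =>
      (hx.2.sup [i] (by simpa using hB) _ (hu x) q hq).trans (le_abs_self C)) hp

end Ctx

theorem lap_lens (B : ℕ) (δ ε : ℝ) (p : P) :
    lap (lens B δ ε) p = δ * lap prof p + lap (bump B ε) p := by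
  unfold lap; rw [Ds_lens, Ds_lens]; ring

theorem lam_facts {n B : ℕ} {R δ ε : ℝ} {L M N : P → ℝ} (hn : 1 ≤ n) (hR : 0 < R) (hδ : 0 < δ)
    (hε : 0 < ε) (h : Hyp n B R δ ε L M N) :
    |√(-N 0 / L 0)| ≤ n ∧ N 0 = -(L 0 * √(-N 0 / L 0) ^ 2) ∧ |L 0| ≤ n := by
  have h0 : (0 : P) ∈ Om := by simp [Om]
  have hn' : (1 : ℝ) ≤ n := by exact_mod_cast hn
  have hlo := h.lo 0 h0
  have hL : 0 < L 0 := lt_of_lt_of_le (by positivity) hlo
  have hga := (h.gc 0 h0).ga
  have e1 : Ds [true, true] (lens B δ ε) 0 + Ds [false, false] (lens B δ ε) 0 = δ := by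
    have a := lap_lens B δ ε 0
    unfold lap at a
    rw [a, lap_prof]
    have b1 := Ds_bump_centre true [true] B hε
    have b2 := Ds_bump_centre false [false] B hε
    simp only [List.cons_append, List.nil_append] at b1 b2
    rw [b1, b2]; simp
  rw [e1, h.M0] at hga
  have hN : N 0 ≤ 0 := by
    by_contra hc
    push Not at hc
    have a1 : 0 < R ^ 2 * (L 0 * N 0 - 0 ^ 2) := by
      rw [zero_pow two_ne_zero, sub_zero]; positivity
    have a2 : 0 < Real.exp (2 * lens B δ ε 0) * δ := by positivity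
    linarith
  have hq : 0 ≤ -N 0 / L 0 := div_nonneg (by linarith) hL.le
  refine ⟨?_, ?_, by rw [abs_of_pos hL]; exact h.hi 0 h0⟩
  · rw [abs_of_nonneg (Real.sqrt_nonneg _)]
    refine Real.sqrt_le_iff.2 ⟨by positivity, ?_⟩
    rw [div_le_iff₀ hL]
    have a1 := (abs_le.1 (h.bN 0 h0)).1
    have a2 : 1 ≤ L 0 * n := (div_le_iff₀ (by positivity)).1 hlo
    nlinarith
  · rw [Real.sq_sqrt hq]; field_simp

namespace Ctx

variable {ι : Type} {c : Ctx ι}

theorem main {n m : ℕ} {R δ C : ℝ} (hn : 1 ≤ n) (hm : 4 ≤ m) (hR : 0 < R) (hδ : 0 < δ)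
    {L M N : ι → P → ℝ}
    (h : ∀ᶠ x in c.F, Hyp n (m + 2) R δ (c.e x) (L x) (M x) (N x) ∧
      Est (m + 2) C c.Λ (c.e x) (L x) (M x) (N x)) : ∀ᶠ _x in c.F, False := by
  have hΛ := c.hΛ
  have cL : c.Co (m + 2) L := co_of (by omega) h fun _ => by simp
  have cM : c.Co (m + 2) M := co_of (by omega) h fun _ => by simp
  have cN : c.Co (m + 2) N := co_of (by omega) h fun _ => by simp
  set lam : ι → ℝ := fun x => √(-N x 0 / L x 0) with hlam
  have hl : ∀ᶠ x in c.F, |lam x| ≤ n ∧ N x 0 = -(L x 0 * lam x ^ 2) ∧ |L x 0| ≤ n := by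
    filter_upwards [h, c.small] with x h1 h2 using lam_facts hn hR hδ h2.1 h1.1
  have hl1 : ∀ᶠ x in c.F, |lam x| ≤ n := hl.mono fun _ h => h.1
  have bl : c.Bd 0 fun x _ => lam x := Bd.of_bound (hl1.mono fun _ h _ _ => h)
  have bt : c.Bd 1 fun x => tl (lam x) := by
    have := Bd.fst.add (by simpa using bl.mul Bd.snd : c.Bd 1 fun x p => lam x * p.2)
    exact this
  set χ : ι → P → ℝ := fun x => bump 0 (2 * (c.Λ * c.e x)) with hχ
  have sχ : ∀ x, ContDiff ℝ ∞ (χ x) := fun x => contDiff_bump _ _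
  have pχ : c.Sp χ := by
    filter_upwards [c.small] with x hx p hp
    have := hx.1
    exact Ds_bump_eq_zero' [] 0 (by positivity) hp
  have bχ : c.Bd 0 χ := by simpa using Bd.cut (c := c) []
  have bχ' : ∀ i, c.Bd (-1) fun x => D i (χ x) := fun i => by simpa using Bd.cut (c := c) [i]
  have hOm : ∀ᶠ x in c.F, ∀ p, p ∉ Om → χ x p = 0 := by
    filter_upwards [pχ, c.small] with x h1 h2 p hp
    have : 2 ≤ ‖p‖ := by simpa [Om] using hp
    exact h1 p (by linarith [h2.2.2])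
  -- the test functions `χ t^(k+1)`
  have sT : ∀ (k : ℕ) x, ContDiff ℝ ∞ fun p => χ x p * tl (lam x) p ^ k := fun k x =>
    (sχ x).mul ((sm_tl _).pow _)
  have bT : ∀ k : ℕ, c.Bd k fun x p => χ x p * tl (lam x) p ^ k := fun k => by
    simpa using bχ.mul (bt.pow k)
  have bT1 : ∀ i (k : ℕ), c.Bd k fun x p => D i (χ x) p * tl (lam x) p ^ (k + 1) := fun i k => by
    simpa using (bχ' i).mul (bt.pow (k + 1))
  have bT' : ∀ k : ℕ, c.Bd k fun x => D true fun p => χ x p * tl (lam x) p ^ (k + 1) := fun k => by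
    refine (((bT k).cmul (k + 1 : ℕ)).add (bT1 true k)).congr (Eventually.of_forall fun x p => ?_)
    rw [D_mul _ (df (sχ x) p) (df ((sm_tl _).pow _) p), D_tl_pow]
    simp only [if_true]; ring
  -- step 1: Codazzi
  have k45 : ((m + 4 : ℕ) : ℤ) + 1 = (m + 5 : ℕ) := by push_cast; ring
  have sφ : ∀ x, ContDiff ℝ ∞ (lens (m + 2) δ (c.e x)) := fun x => contDiff_lens _ _ _
  have e1 : ∀ i : Bool, c.O (m + 5 : ℕ) fun x => ∫ p, χ x p * tl (lam x) p ^ (m + 2 + 3) *
      Dn (m + 2) (fun q => D i (lens (m + 2) δ (c.e x)) q * (L x q + N x q)) p := by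
    intro i
    have sH : c.Sm fun x q => L x q + N x q := by
      filter_upwards [cL.sm, cN.sm] with x a b using a.add b
    have a := prodA (u := fun x => D i (lens (m + 2) δ (c.e x))) (v := fun x q => L x q + N x q)
      (m + 1) (bT' (m + 4)) ((pχ.mul _).D true)
      (Eventually.of_forall fun x => contDiff_D _ (sT _ x))
      (Eventually.of_forall fun x => contDiff_D _ (sφ x)) sH (fun j hj => ?_) (fun j hj => ?_)
    · rw [k45] at a
      refine (O.cmul (-1) a).congr ?_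
      filter_upwards [sH, (pχ.mul fun x p => tl (lam x) p ^ (m + 2 + 3)).cs] with x a1 a2
      rw [Dn_succ, integral_mul_D true (sT _ x) (sm_Dn _ ((contDiff_D _ (sφ x)).mul a1)) a2,
        neg_one_mul]
    · have b1 : c.Bd 0 fun _ => Ds (List.replicate j true ++ [i]) prof :=
        Bd.of_cont (contDiff_Ds _ contDiff_prof).continuous
      have b2 := (Bd.bump (c := c) (List.replicate j true ++ [i]) (m + 2)).mono (k' := 0)
        (by simp; omega)
      refine ((b1.cmul δ).add b2).congr (Eventually.of_forall fun x p => ?_)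
      have : Dn j (D i (lens (m + 2) δ (c.e x))) =
          Ds (List.replicate j true ++ [i]) (lens (m + 2) δ (c.e x)) := by
        rw [Ds_append]; rfl
      rw [this, Ds_lens]
    · refine ((cL.l2 j (by omega)).add (cN.l2 j (by omega))).congr ?_
      filter_upwards [cL.sm, cN.sm] with x a b using Dn_add j a b
  have e2 : ∀ (i : Bool) (u : ι → P → ℝ), (∀ x, u x ∈ [L x, M x, N x]) →
      c.O (m + 5 : ℕ) fun x =>
        ∫ p, D i (χ x) p * tl (lam x) p ^ (m + 2 + 3) * Dn (m + 2) (u x) p := by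
    intro i u hu
    have a := O.of_set (C := C) (g := fun x => Dn (m + 2) (u x))
      (fun x => Metric.closedBall (0 : P) (1 / 2) \ Metric.ball 0 (c.Λ * c.e x))
      (bT1 i (m + 4)) ((pχ.D i).mul _) ?_
    · rw [k45] at a; exact a
    · filter_upwards [h, (co_of (by omega) h hu).sm, c.small] with x a1 a2 a3
      have := a3.1
      refine ⟨(sm_Dn _ a2).continuous, measurableSet_closedBall.diff measurableSet_ball,
        sdiff_subset, a1.2.ann _ (by simp) _ (hu x), fun p hp hne => ⟨by simpa using hp, ?_⟩⟩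
      intro hb
      apply hne
      rw [D_bump_inner i (by positivity) (by simpa using hb), zero_mul]
  have step1 : c.O (m + 5 : ℕ) fun x =>
      (∫ p, χ x p * tl (lam x) p ^ (m + 2 + 2) * Dn (m + 2) (N x) p) -
        lam x ^ 2 * ∫ p, χ x p * tl (lam x) p ^ (m + 2 + 2) * Dn (m + 2) (L x) p := by
    have a := O.cmul (1 / ((m + 2 : ℕ) + 3 : ℝ)) ((((((O.bmul hl1 (e1 false)).sub (e1 true)).add
      (O.bmul hl1 (e2 false L fun _ => by simp))).add (e2 false M fun _ => by simp)).sub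
      (O.bmul hl1 (e2 true M fun _ => by simp))).sub (e2 true N fun _ => by simp))
    refine a.congr ?_
    filter_upwards [h, pχ.cs, hOm] with x a1 a2 a3
    rw [← codazzi (m + 2) (lam x) a1.1.sL a1.1.sM a1.1.sN (sχ x) a2 a3 a1.1.gc]
    field_simp
  -- step 2: the Gauss curvature term
  have sΨ : c.Sm fun x p => χ x p * tl (lam x) p ^ (m + 2 + 2) :=
    Eventually.of_forall fun x => sT _ x
  have bΨ' : c.Bd (((m + 4 : ℕ) : ℤ) - 1) fun x =>
      D true fun p => χ x p * tl (lam x) p ^ (m + 2 + 2) :=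
    (bT' (m + 3)).mono (by push_cast; omega)
  have step2 : c.O (m + 5 : ℕ) fun x => ∫ p, χ x p * tl (lam x) p ^ (m + 2 + 2) *
      Dn (m + 2) (fun q => L x q * N x q - M x q * M x q) p := by
    have a1 := prodB hm (bT (m + 4)) bΨ' (pχ.mul _) sΨ cL cN
    have a2 := prodB hm (bT (m + 4)) bΨ' (pχ.mul _) sΨ cM cM
    have a3 := O.bmul (hl.mono fun _ h => h.2.2) step1
    have k : ((m + 4 : ℕ) : ℤ) + 1 = (m + 5 : ℕ) := by push_cast; ring
    rw [k] at a1 a2
    refine ((a1.sub a2).add a3).congr ?_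
    filter_upwards [h, hl, (pχ.mul fun x p => tl (lam x) p ^ (m + 2 + 2)).cs] with x b1 b2 b3
    rw [Dn_sub _ (b1.1.sL.mul b1.1.sN) (b1.1.sM.mul b1.1.sM)]
    simp only [mul_sub]
    rw [integral_sub (integ (sT _ x) b3 (sm_Dn _ (b1.1.sL.mul b1.1.sN)))
      (integ (sT _ x) b3 (sm_Dn _ (b1.1.sM.mul b1.1.sM))), b1.1.M0]
    conv_rhs => rw [b2.2.1]
    ring
  -- step 3: the Gauss equation
  set G0 : P → ℝ := fun p => Real.exp (2 * (δ * prof p)) * (δ * lap prof p) with hG0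
  have sG0 : ContDiff ℝ ∞ G0 :=
    (contDiff_const.mul (contDiff_const.mul contDiff_prof)).exp.mul
      (contDiff_const.mul (sm_lap contDiff_prof))
  set s : ι → P → ℝ := fun x p => Real.exp (2 * lens (m + 2) δ (c.e x) p) *
    lap (lens (m + 2) δ (c.e x)) p - G0 p with hs
  have ss : ∀ x, ContDiff ℝ ∞ (s x) := fun x =>
    ((contDiff_const.mul (sφ x)).exp.mul (sm_lap (sφ x))).sub sG0
  have lap0 : ∀ᶠ x in c.F, ∀ p : P, c.e x < ‖p‖ → lap (bump (m + 2) (c.e x)) p = 0 := by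
    filter_upwards [c.small] with x hx p hp
    unfold lap
    rw [Ds_bump_eq_zero' _ _ hx.1 hp, Ds_bump_eq_zero' _ _ hx.1 hp, add_zero]
  have s0 : ∀ᶠ x in c.F, ∀ p : P, c.e x < ‖p‖ → s x p = 0 := by
    filter_upwards [c.small, lap0] with x hx h1 p hp
    have b0 : bump (m + 2) (c.e x) p = 0 := Ds_bump_eq_zero' [] _ hx.1 hp
    simp only [hs, hG0, lap_lens, h1 p hp, lens, b0, add_zero, sub_self]
  obtain ⟨c0, hc0, hc1⟩ := Dn_tl_pow (m + 2)
  have step3 : c.O (m + 5 : ℕ) fun x => ∫ p, s x p * tl (lam x) p ^ 2 := by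
    have a1 := O.of_L2 (bT (m + 4)) (pχ.mul _) (L2.of_cont (sm_Dn (m + 2) sG0).continuous)
    have k : ((m + 4 : ℕ) : ℤ) + 1 = (m + 5 : ℕ) := by push_cast; ring
    rw [k] at a1
    refine (O.cmul (-((-1) ^ (m + 2) * c0)⁻¹) ((O.cmul (R ^ 2) step2).add a1)).congr ?_
    filter_upwards [h, hOm, (pχ.mul fun x p => tl (lam x) p ^ (m + 2 + 2)).cs, s0, c.small]
      with x b1 b2 b3 b4 b5
    have sLN := (b1.1.sL.mul b1.1.sN).sub (b1.1.sM.mul b1.1.sM)
    have d1 : ∫ p, Dn (m + 2) (s x) p * tl (lam x) p ^ (m + 2 + 2) =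
        ((-1) ^ (m + 2) * c0) * ∫ p, s x p * tl (lam x) p ^ 2 := by
      rw [integral_Dn _ (ss x) (cs_of b4) ((sm_tl _).pow _), hc1, mul_assoc, ← integral_const_mul c0]
      congr 2; funext p; ring
    have d2 : R ^ 2 * (∫ p, χ x p * tl (lam x) p ^ (m + 2 + 2) *
          Dn (m + 2) (fun q => L x q * N x q - M x q * M x q) p) +
        ∫ p, χ x p * tl (lam x) p ^ (m + 4) * Dn (m + 2) G0 p =
        -∫ p, Dn (m + 2) (s x) p * tl (lam x) p ^ (m + 2 + 2) := by
      rw [← integral_const_mul, ← integral_add ((integ (sT _ x) b3 (sm_Dn _ sLN)).const_mul _)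
        (integ (sT _ x) b3 (sm_Dn _ sG0)), ← integral_neg]
      congr 1
      funext p
      have q1 : χ x p * Dn (m + 2) (s x) p = Dn (m + 2) (s x) p := by
        by_cases hp : c.e x < ‖p‖
        · rw [Dn_congr_on (g := fun _ => 0) _ (isOpen_lt continuous_const continuous_norm) b4 hp]
          simp [Dn, Ds_zero]
        · have := b5.1
          rw [hχ]
          simp only
          rw [bump_inner (by positivity) ((not_lt.1 hp).trans (by nlinarith)), one_mul]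
      by_cases hp : p ∈ Om
      · have q2 : R ^ 2 * Dn (m + 2) (fun q => L x q * N x q - M x q * M x q) p =
            -(Dn (m + 2) (s x) p + Dn (m + 2) G0 p) := by
          have r1 := congrFun (Dn_const_mul (m + 2) (R ^ 2) sLN) p
          have r2 := congrFun (Dn_neg (m + 2) ((ss x).add sG0)) p
          rw [Dn_add _ (ss x) sG0] at r2
          rw [← r1, ← r2]
          refine Dn_congr_on _ Metric.isOpen_ball (fun q hq => ?_) hp
          have := (b1.1.gc q hq).ga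
          simp only [hs, lap]
          rw [← pow_two, this]
          ring
        linear_combination (χ x p * tl (lam x) p ^ (m + 2 + 2)) * q2 -
          tl (lam x) p ^ (m + 2 + 2) * q1
      · rw [← q1, b2 p hp]; simp
    rw [d2, d1]
    have : ((-1 : ℝ) ^ (m + 2) * c0) ≠ 0 := mul_ne_zero (pow_ne_zero _ (by norm_num)) (by linarith)
    field_simp
  -- step 4: replace `s` by the Laplacian of the bump
  have step4 : c.O (m + 5 : ℕ) fun x =>
      ∫ p, (s x p - lap (bump (m + 2) (c.e x)) p) * tl (lam x) p ^ 2 * 1 := by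
    have bβ : c.Bd (m + 2 : ℕ) fun x => bump (m + 2) (c.e x) := by
      simpa using Bd.bump (c := c) [] (m + 2)
    have bΔ : c.Bd m fun x => lap (bump (m + 2) (c.e x)) :=
      ((Bd.bump [true, true] (m + 2)).mono (by simp)).add
        ((Bd.bump [false, false] (m + 2)).mono (by simp))
    have br : c.Bd 2 fun _ (p : P) => p.1 ^ 2 + p.2 ^ 2 := (Bd.fst.pow 2).add (Bd.snd.pow 2)
    have bp : c.Bd 2 fun _ => prof := by
      refine ((br.cmul (1 / 4)).add (((br.mul br).mono (by norm_num)).cmul (-1 / 8))).congr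
        (Eventually.of_forall fun x p => ?_)
      unfold prof; ring
    have bφ : c.Bd 2 fun x => lens (m + 2) δ (c.e x) :=
      (bp.cmul δ).add (bβ.mono (by push_cast; omega))
    have a1 := (Bd.of_cont sG0.continuous).mul ((bβ.cmul 2).expm1 (by push_cast; omega))
    have a2 := ((bφ.cmul 2).expm1 (by norm_num)).mul bΔ
    have a3 : c.Bd (m + 2 : ℕ) fun x p => s x p - lap (bump (m + 2) (c.e x)) p := by
      refine ((a1.mono (by simp)).add (a2.mono (by push_cast; omega))).congr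
        (Eventually.of_forall fun x p => ?_)
      simp only [hs, hG0, lap_lens, lens]
      rw [mul_add 2, Real.exp_add]
      ring
    have a4 : c.Sp fun x p => s x p - lap (bump (m + 2) (c.e x)) p := by
      filter_upwards [s0, lap0, c.small] with x b1 b2 b3 p hp
      have : c.e x < ‖p‖ := lt_of_le_of_lt (by nlinarith [b3.1]) hp
      rw [b1 p this, b2 p this, sub_zero]
    have a5 := O.of_L2 (a3.mul (bt.pow 2)) (a4.mul _) (L2.of_cont (g := fun _ => 1) continuous_const)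
    have k : ((m + 2 : ℕ) : ℤ) + (2 : ℕ) + 1 = (m + 5 : ℕ) := by push_cast; ring
    rwa [k] at a5
  obtain ⟨K, hK, hb⟩ := (step3.sub step4).exists_pos
  filter_upwards [hb.bound, s0, c.small, c.small' (δ := 1 / K) (by positivity)] with x b1 b2 b3 b4
  have he := b3.1
  have i1 := integ (g := fun p => tl (lam x) p ^ 2) (ss x) (cs_of b2) ((sm_tl _).pow 2)
  have i2 := integ (g := fun p => tl (lam x) p ^ 2) (sm_lap (contDiff_bump (m + 2) (c.e x)))
    ((cs_D _ (cs_D _ (cs_bump (m + 2) he))).add (cs_D _ (cs_D _ (cs_bump (m + 2) he))))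
    ((sm_tl _).pow 2)
  simp only [mul_one, sub_mul] at b1
  rw [integral_sub i1 i2, sub_sub_cancel, integral_lap (contDiff_bump _ _) (cs_bump _ he),
    zpow_natCast, Real.norm_eq_abs, Real.norm_eq_abs, abs_of_pos (pow_pos he _)] at b1
  have f1 := integral_bump_ge (m + 2) he
  have f2 : c.e x * K ≤ 1 := (le_div_iff₀ hK).1 b4.2
  have f3 : 0 < c.e x ^ (m + 2 + 2) := pow_pos he _
  have f4 := le_abs_self ((2 + 2 * lam x ^ 2) * ∫ p, bump (m + 2) (c.e x) p)
  have f5 : K * c.e x ^ (m + 5) = c.e x * K * c.e x ^ (m + 2 + 2) := by ring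
  have f6 : c.e x * K * c.e x ^ (m + 2 + 2) ≤ 1 * c.e x ^ (m + 2 + 2) :=
    mul_le_mul_of_nonneg_right f2 f3.le
  nlinarith [sq_nonneg (lam x)]

end Ctx

end F

theorem final : FinalStmt := by
  intro n B hn hB R hR δ hδ C Λ hΛ
  obtain ⟨m, rfl⟩ : ∃ m, B = m + 2 := ⟨B - 2, by omega⟩
  let S : Set (ℝ × (P → ℝ) × (P → ℝ) × (P → ℝ)) :=
    {x | Hyp n (m + 2) R δ x.1 x.2.1 x.2.2.1 x.2.2.2 ∧ Est (m + 2) C Λ x.1 x.2.1 x.2.2.1 x.2.2.2}
  let c : F.Ctx (ℝ × (P → ℝ) × (P → ℝ) × (P → ℝ)) :=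
    ⟨comap Prod.fst (𝓝[>] 0) ⊓ 𝓟 S, Prod.fst, Λ, tendsto_comap.mono_left inf_le_left, hΛ⟩
  have h := F.Ctx.main (c := c) (C := C) hn (show 4 ≤ m by omega) hR.1 hδ.1
    (L := fun x => x.2.1) (M := fun x => x.2.2.1) (N := fun x => x.2.2.2)
    (mem_inf_of_right (mem_principal_self S))
  have h2 := eventually_comap.1 (eventually_inf_principal.1 h)
  filter_upwards [h2] with ε hε L M N h1 h3
  exact hε (ε, L, M, N) rfl ⟨h1, h3⟩

end Crest.Agent.R220
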