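import Crest.Agent.R220.Basic

/-! Row 220, final step: exact identities. -/

set_option autoImplicit false
open scoped ContDiff Topology
open Set MeasureTheory Filter

namespace Crest.Agent.R220.F

/-- iterated first partial derivative -/
noncomputable def Dn (k : ℕ) (f : P → ℝ) : P → ℝ := Ds (List.replicate k true) f

@[simp] theorem Dn_zero (f : P → ℝ) : Dn 0 f = f := rfl
theorem Dn_succ (k : ℕ) (f : P → ℝ) : Dn (k + 1) f = D true (Dn k f) := rfl
theorem Dn_succ' (k : ℕ) (f : P → ℝ) : Dn (k + 1) f = Dn k (D true f) := by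
  unfold Dn; rw [List.replicate_succ', Ds_append]; rfl

theorem sm_Dn {f : P → ℝ} (k : ℕ) (h : ContDiff ℝ ∞ f) : ContDiff ℝ ∞ (Dn k f) := contDiff_Ds _ h

theorem df {f : P → ℝ} (h : ContDiff ℝ ∞ f) (p : P) : DifferentiableAt ℝ f p := diffAt h.contDiffAt

theorem D_Dn {f : P → ℝ} (i : Bool) (k : ℕ) (h : ContDiff ℝ ∞ f) : D i (Dn k f) = Dn k (D i f) := by
  induction k with
  | zero => rfl
  | succ k ih =>
    funext p
    rw [Dn_succ, Dn_succ, ← ih]
    exact D_comm i true (sm_Dn k h).contDiffAt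

theorem Dn_add {f g : P → ℝ} (k : ℕ) (hf : ContDiff ℝ ∞ f) (hg : ContDiff ℝ ∞ g) :
    Dn k (fun q => f q + g q) = fun q => Dn k f q + Dn k g q := Ds_add _ hf hg

theorem Dn_const_mul {f : P → ℝ} (k : ℕ) (c : ℝ) (hf : ContDiff ℝ ∞ f) :
    Dn k (fun q => c * f q) = fun q => c * Dn k f q := Ds_const_mul _ c hf

theorem Dn_neg {f : P → ℝ} (k : ℕ) (hf : ContDiff ℝ ∞ f) :
    Dn k (fun q => -f q) = fun q => -Dn k f q := by
  have := Dn_const_mul k (-1) hf
  simpa using this

theorem Dn_sub {f g : P → ℝ} (k : ℕ) (hf : ContDiff ℝ ∞ f) (hg : ContDiff ℝ ∞ g) :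
    Dn k (fun q => f q - g q) = fun q => Dn k f q - Dn k g q := by
  simp only [sub_eq_add_neg]
  rw [Dn_add k hf hg.neg, Dn_neg k hg]

theorem D_sum {κ : Type} (i : Bool) (s : Finset κ) (f : κ → P → ℝ) (hf : ∀ a, ContDiff ℝ ∞ (f a))
    (p : P) : D i (fun q => ∑ a ∈ s, f a q) p = ∑ a ∈ s, D i (f a) p := by
  rw [D_of_hasFDerivAt i (HasFDerivAt.fun_sum fun a _ => (df (hf a) p).hasFDerivAt)]
  simp [D]

theorem Dn_mul {f g : P → ℝ} (k : ℕ) (hf : ContDiff ℝ ∞ f) (hg : ContDiff ℝ ∞ g) :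
    Dn k (fun q => f q * g q) = fun q => ∑ ij ∈ Finset.HasAntidiagonal.antidiagonal k,
      (k.choose ij.1 : ℝ) * (Dn ij.1 f q * Dn ij.2 g q) := by
  induction k with
  | zero => funext q; simp
  | succ k ih =>
    funext p
    rw [Dn_succ, ih, D_sum true _ _
      (fun ij => contDiff_const.mul ((sm_Dn _ hf).mul (sm_Dn _ hg))),
      Finset.sum_antidiagonal_choose_succ_mul (fun i j => Dn i f p * Dn j g p),
      ← Finset.sum_add_distrib]
    refine Finset.sum_congr rfl fun ij hij => ?_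
    rw [D_const_mul _ _ (df ((sm_Dn _ hf).mul (sm_Dn _ hg)) p),
      D_mul _ (df (sm_Dn _ hf) p) (df (sm_Dn _ hg) p), Dn_succ, Dn_succ,
      Nat.choose_symm_of_eq_add (Finset.HasAntidiagonal.mem_antidiagonal.1 hij).symm]
    ring

theorem Dn_congr_on {f g : P → ℝ} (k : ℕ) {U : Set P} (hU : IsOpen U) (h : ∀ p ∈ U, f p = g p)
    {p : P} (hp : p ∈ U) : Dn k f p = Dn k g p :=
  (Ds_congr _ (Filter.eventually_of_mem (hU.mem_nhds hp) h)).eq_of_nhds

theorem cs_D {f : P → ℝ} (i : Bool) (hc : HasCompactSupport f) : HasCompactSupport (D i f) :=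
  hc.fderiv_apply ℝ (ev i)

theorem cs_Dn {f : P → ℝ} (k : ℕ) (hc : HasCompactSupport f) : HasCompactSupport (Dn k f) := by
  induction k with
  | zero => exact hc
  | succ k ih => exact cs_D true ih

theorem cs_of {f : P → ℝ} {r : ℝ} (h : ∀ p, r < ‖p‖ → f p = 0) : HasCompactSupport f :=
  HasCompactSupport.intro (isCompact_closedBall (0 : P) r) fun p hp => h p (by simpa using hp)

theorem integ {f g : P → ℝ} (hf : ContDiff ℝ ∞ f) (hc : HasCompactSupport f)
    (hg : ContDiff ℝ ∞ g) : Integrable fun p => f p * g p :=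
  (hf.continuous.mul hg.continuous).integrable_of_hasCompactSupport hc.mul_right

theorem integral_Dn {s g : P → ℝ} (k : ℕ) (hs : ContDiff ℝ ∞ s) (hc : HasCompactSupport s)
    (hg : ContDiff ℝ ∞ g) : ∫ p, Dn k s p * g p = (-1) ^ k * ∫ p, s p * Dn k g p := by
  induction k generalizing g with
  | zero => simp
  | succ k ih =>
    have h1 := integral_mul_D true (sm_Dn k hs) hg (cs_Dn k hc)
    rw [ih (contDiff_D true hg), ← Dn_succ'] at h1
    rw [Dn_succ, pow_succ]
    linarith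

/-- the linear form `p₁ + λ p₂` -/
def tl (lam : ℝ) (p : P) : ℝ := p.1 + lam * p.2

theorem sm_tl (lam : ℝ) : ContDiff ℝ ∞ (tl lam) := by unfold tl; fun_prop

theorem D_tl (i : Bool) (lam : ℝ) (p : P) : D i (tl lam) p = if i then 1 else lam := by
  unfold tl
  rw [D_add _ (by fun_prop) (by fun_prop), D_const_mul _ _ (by fun_prop), D_fst, D_snd]
  cases i <;> simp

theorem D_tl_pow (i : Bool) (lam : ℝ) (k : ℕ) :
    D i (fun q => tl lam q ^ (k + 1)) =
      fun p => ((k + 1 : ℕ) * if i then 1 else lam) * tl lam p ^ k := by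
  funext p
  rw [D_pow _ _ (df (sm_tl lam) p), D_tl]
  simp only [Nat.add_sub_cancel]
  ring

theorem Dn_tl_pow (k : ℕ) : ∃ c : ℝ, 1 ≤ c ∧ ∀ lam : ℝ,
    Dn k (fun q => tl lam q ^ (k + 2)) = fun p => c * tl lam p ^ 2 := by
  induction k with
  | zero => exact ⟨1, le_rfl, fun lam => by simp⟩
  | succ k ih =>
    obtain ⟨c, hc, h⟩ := ih
    refine ⟨((k + 2 + 1 : ℕ) : ℝ) * c, one_le_mul_of_one_le_of_one_le
      (by exact_mod_cast Nat.succ_pos _) hc, fun lam => ?_⟩
    rw [Dn_succ', show k + 1 + 2 = k + 2 + 1 by ring, D_tl_pow,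
      Dn_const_mul _ _ ((sm_tl lam).pow _), h]
    funext p; simp only [if_true]; ring

/-- the Laplacian -/
noncomputable def lap (f : P → ℝ) (p : P) : ℝ := Ds [true, true] f p + Ds [false, false] f p

theorem sm_lap {f : P → ℝ} (h : ContDiff ℝ ∞ f) : ContDiff ℝ ∞ (lap f) :=
  (contDiff_Ds _ h).add (contDiff_Ds _ h)

theorem integral_lap {β : P → ℝ} (hβ : ContDiff ℝ ∞ β) (hc : HasCompactSupport β) (lam : ℝ) :
    ∫ p, lap β p * tl lam p ^ 2 = (2 + 2 * lam ^ 2) * ∫ p, β p := by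
  have ht := sm_tl lam
  have key : ∀ i : Bool, ∫ p, Ds [i, i] β p * tl lam p ^ 2 =
      2 * (if i then 1 else lam) ^ 2 * ∫ p, β p := by
    intro i
    have h1 := integral_mul_D (g := fun q => tl lam q ^ 2) i (contDiff_D i hβ) (ht.pow 2) (cs_D i hc)
    have h2 := integral_mul_D (g := D i fun q => tl lam q ^ 2) i hβ (contDiff_D i (ht.pow 2)) hc
    have h3 : D i (D i fun q => tl lam q ^ 2) = fun _ => 2 * (if i then 1 else lam) ^ 2 := by
      rw [D_tl_pow i lam 1]
      funext p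
      simp only [pow_one]
      rw [D_const_mul _ _ (df ht p), D_tl]
      push_cast; ring
    rw [h3, integral_mul_const] at h2
    simp only [Ds_cons, Ds_nil]
    linarith
  have e : ∀ p, lap β p * tl lam p ^ 2 =
      Ds [true, true] β p * tl lam p ^ 2 + Ds [false, false] β p * tl lam p ^ 2 := fun p => by
    unfold lap; ring
  simp only [e]
  have i1 : ∀ i : Bool, Integrable fun p => Ds [i, i] β p * tl lam p ^ 2 := fun i =>
    integ (f := D i (D i β)) (g := fun q => tl lam q ^ 2) (contDiff_D i (contDiff_D i hβ))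
      (cs_D _ (cs_D _ hc)) (ht.pow 2)
  rw [integral_add (i1 true) (i1 false), key, key]
  simp only [if_true, Bool.false_eq_true, if_false]
  ring

theorem cs_bump (B : ℕ) {ε : ℝ} (hε : 0 < ε) : HasCompactSupport (bump B ε) :=
  cs_of (r := ε) fun _ hp => Ds_bump_eq_zero' [] B hε hp

theorem vol_ball (r : ℝ) (hr : 0 ≤ r) :
    (volume : Measure P).real (Metric.closedBall 0 r) = 4 * r ^ 2 := by
  have : Metric.closedBall (0 : P) r = Metric.closedBall (0 : ℝ) r ×ˢ Metric.closedBall (0 : ℝ) r :=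
    (closedBall_prod_same (0 : ℝ) (0 : ℝ) r).symm
  rw [this, Measure.real, Measure.volume_eq_prod, Measure.prod_prod, Real.volume_closedBall,
    ← ENNReal.ofReal_mul (by positivity), ENNReal.toReal_ofReal (by positivity)]
  ring

theorem integral_bump_ge (B : ℕ) {ε : ℝ} (hε : 0 < ε) : ε ^ (B + 2) ≤ ∫ p, bump B ε p := by
  have h1 : ∫ p in Metric.closedBall (0 : P) (ε / 2), bump B ε p = ε ^ (B + 2) := by
    rw [setIntegral_congr_fun measurableSet_closedBall (g := fun _ => ε ^ B), setIntegral_const,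
      vol_ball _ (by positivity), smul_eq_mul]
    · ring
    · intro p hp
      have hp' : ‖p‖ ≤ ε / 2 := by simpa using hp
      have a1 := (abs_fst_le p).trans hp'
      have a2 := (abs_snd_le p).trans hp'
      have b1 : p.1 ^ 2 ≤ (ε / 2) ^ 2 := sq_le_sq' (by linarith [(abs_le.1 a1).1]) (abs_le.1 a1).2
      have b2 : p.2 ^ 2 ≤ (ε / 2) ^ 2 := sq_le_sq' (by linarith [(abs_le.1 a2).1]) (abs_le.1 a2).2
      exact bump_eq_pow B hε (by linarith)
  rw [← h1]
  exact setIntegral_le_integral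
    ((contDiff_bump B ε).continuous.integrable_of_hasCompactSupport (cs_bump B hε))
    (Filter.Eventually.of_forall fun p => bump_nonneg B hε.le p)

theorem D_bump_inner (i : Bool) {ρ : ℝ} (hρ : 0 < ρ) {p : P} (hp : ‖p‖ < ρ) :
    D i (bump 0 (2 * ρ)) p = 0 := by
  have h1 : bump 0 (2 * ρ) =ᶠ[𝓝 p] fun _ => (2 * ρ) ^ 0 := by
    filter_upwards [Metric.isOpen_ball.mem_nhds (show p ∈ Metric.ball (0 : P) ρ by simpa using hp)]
      with q hq
    have hq' : ‖q‖ ≤ ρ := le_of_lt (by simpa using hq)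
    have a1 := (abs_fst_le q).trans hq'
    have a2 := (abs_snd_le q).trans hq'
    have b1 : q.1 ^ 2 ≤ ρ ^ 2 := sq_le_sq' (abs_le.1 a1).1 (abs_le.1 a1).2
    have b2 : q.2 ^ 2 ≤ ρ ^ 2 := sq_le_sq' (abs_le.1 a2).1 (abs_le.1 a2).2
    exact bump_eq_pow 0 (by positivity) (by linarith)
  rw [(D_congr i h1).eq_of_nhds, D_const]

theorem bump_inner {ρ : ℝ} (hρ : 0 < ρ) {q : P} (hq' : ‖q‖ ≤ ρ) : bump 0 (2 * ρ) q = 1 := by
  have a1 := (abs_fst_le q).trans hq'
  have a2 := (abs_snd_le q).trans hq'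
  have b1 : q.1 ^ 2 ≤ ρ ^ 2 := sq_le_sq' (abs_le.1 a1).1 (abs_le.1 a1).2
  have b2 : q.2 ^ 2 ≤ ρ ^ 2 := sq_le_sq' (abs_le.1 a2).1 (abs_le.1 a2).2
  rw [bump_eq_pow 0 (by positivity) (by linarith), pow_zero]

/-- the basic integral estimate -/
theorem int_le {f g : P → ℝ} {Q : Set P} {C r b ε : ℝ} (hε : 0 < ε) (hr : 0 ≤ r) (hb0 : 0 ≤ b)
    (hg : Continuous g) (hQ : MeasurableSet Q) (hQ' : Q ⊆ Metric.closedBall 0 (1 / 2))
    (hC : ∫ p in Q, g p ^ 2 ≤ C) (hf0 : ∀ p, f p ≠ 0 → p ∈ Q ∧ ‖p‖ ≤ r)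
    (hb : ∀ p, ‖p‖ ≤ r → |f p| ≤ b) :
    |∫ p, f p * g p| ≤ b * (ε / 2 * C + 1 / (2 * ε) * (4 * r ^ 2)) := by
  have i1 : IntegrableOn (fun p => g p ^ 2) Q :=
    ((hg.pow 2).continuousOn.integrableOn_compact (isCompact_closedBall _ _)).mono_set hQ'
  have i2 : IntegrableOn (fun _ : P => (1 : ℝ)) (Metric.closedBall 0 r) :=
    continuous_const.continuousOn.integrableOn_compact (isCompact_closedBall _ _)
  have j1 := (integrable_indicator_iff hQ).2 i1
  have j2 := (integrable_indicator_iff measurableSet_closedBall).2 i2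
  have key := norm_integral_le_of_norm_le (f := fun p => f p * g p)
    (((j1.const_mul (ε / 2)).add (j2.const_mul (1 / (2 * ε)))).const_mul b)
    (Filter.Eventually.of_forall fun p => ?_)
  · simp only [Pi.add_apply] at key
    rw [integral_const_mul, integral_add (j1.const_mul _) (j2.const_mul _), integral_const_mul,
      integral_const_mul, integral_indicator hQ, integral_indicator measurableSet_closedBall,
      setIntegral_const, vol_ball r hr, smul_eq_mul, mul_one] at key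
    refine key.trans ?_
    gcongr
  · by_cases h : f p = 0
    · rw [h, zero_mul, norm_zero]
      have a1 : 0 ≤ Q.indicator (fun p => g p ^ 2) p := indicator_nonneg (fun _ _ => sq_nonneg _) _
      have a2 : 0 ≤ (Metric.closedBall (0 : P) r).indicator (fun _ => (1 : ℝ)) p :=
        indicator_nonneg (fun _ _ => zero_le_one) _
      simp only [Pi.add_apply]
      positivity
    · obtain ⟨h1, h2⟩ := hf0 p h
      simp only [Pi.add_apply]
      rw [indicator_of_mem h1, indicator_of_mem (by simpa using h2), Real.norm_eq_abs, abs_mul]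
      refine mul_le_mul (hb p h2) ?_ (abs_nonneg _) hb0
      have : ε / 2 * g p ^ 2 + 1 / (2 * ε) * 1 - |g p| = (ε * |g p| - 1) ^ 2 / (2 * ε) := by
        rw [← sq_abs (g p)]; field_simp; ring
      have h3 : 0 ≤ (ε * |g p| - 1) ^ 2 / (2 * ε) := by positivity
      linarith

/-- testing the Codazzi equations -/
theorem codazzi {φ L M N χ : P → ℝ} {r : ℝ} (B : ℕ) (lam : ℝ)
    (hL : ContDiff ℝ ∞ L) (hM : ContDiff ℝ ∞ M) (hN : ContDiff ℝ ∞ N) (hχ : ContDiff ℝ ∞ χ)
    (hc : HasCompactSupport χ) (h0 : ∀ p, p ∉ Om → χ p = 0) (hgc : ∀ p ∈ Om, GC r φ L M N p) :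
    (B + 3) * ((∫ p, χ p * tl lam p ^ (B + 2) * Dn B N p) -
        lam ^ 2 * ∫ p, χ p * tl lam p ^ (B + 2) * Dn B L p) =
      lam * (∫ p, χ p * tl lam p ^ (B + 3) * Dn B (fun q => D false φ q * (L q + N q)) p) -
      (∫ p, χ p * tl lam p ^ (B + 3) * Dn B (fun q => D true φ q * (L q + N q)) p) +
      lam * (∫ p, D false χ p * tl lam p ^ (B + 3) * Dn B L p) +
      (∫ p, D false χ p * tl lam p ^ (B + 3) * Dn B M p) -
      lam * (∫ p, D true χ p * tl lam p ^ (B + 3) * Dn B M p) -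
      (∫ p, D true χ p * tl lam p ^ (B + 3) * Dn B N p) := by
  have ht := sm_tl lam
  have hΘ : ContDiff ℝ ∞ fun p => χ p * tl lam p ^ (B + 3) := hχ.mul (ht.pow _)
  have hΘc : HasCompactSupport fun p => χ p * tl lam p ^ (B + 3) := hc.mul_right
  have parts : ∀ (i : Bool) (g : P → ℝ), ContDiff ℝ ∞ g →
      ∫ p, χ p * tl lam p ^ (B + 3) * Dn B (D i g) p =
        -(((B + 3) * if i then 1 else lam) * (∫ p, χ p * tl lam p ^ (B + 2) * Dn B g p) +
          ∫ p, D i χ p * tl lam p ^ (B + 3) * Dn B g p) := by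
    intro i g hg
    rw [← D_Dn i B hg, integral_mul_D i hΘ (sm_Dn B hg) hΘc, ← integral_const_mul,
      ← integral_add ((integ (hχ.mul (ht.pow _)) hc.mul_right (sm_Dn B hg)).const_mul _)
        (integ ((contDiff_D i hχ).mul (ht.pow _)) (cs_D i hc).mul_right (sm_Dn B hg))]
    congr 2
    funext p
    rw [D_mul i (df hχ p) (df (ht.pow _) p), D_tl_pow i lam (B + 2)]
    push_cast; ring
  have e1 : ∫ p, χ p * tl lam p ^ (B + 3) * Dn B (fun q => D false φ q * (L q + N q)) p =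
      (∫ p, χ p * tl lam p ^ (B + 3) * Dn B (D false L) p) -
        ∫ p, χ p * tl lam p ^ (B + 3) * Dn B (D true M) p := by
    rw [← integral_sub (integ hΘ hΘc (sm_Dn B (contDiff_D _ hL)))
      (integ hΘ hΘc (sm_Dn B (contDiff_D _ hM)))]
    congr 1
    funext p
    by_cases hp : p ∈ Om
    · rw [Dn_congr_on B Metric.isOpen_ball (fun q hq => (hgc q hq).c1.symm) hp,
        Dn_sub B (contDiff_D _ hL) (contDiff_D _ hM)]
      ring
    · simp [h0 p hp]
  have e2 : ∫ p, χ p * tl lam p ^ (B + 3) * Dn B (fun q => D true φ q * (L q + N q)) p =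
      (∫ p, χ p * tl lam p ^ (B + 3) * Dn B (D true N) p) -
        ∫ p, χ p * tl lam p ^ (B + 3) * Dn B (D false M) p := by
    rw [← integral_sub (integ hΘ hΘc (sm_Dn B (contDiff_D _ hN)))
      (integ hΘ hΘc (sm_Dn B (contDiff_D _ hM)))]
    congr 1
    funext p
    by_cases hp : p ∈ Om
    · rw [Dn_congr_on B (g := fun q => D true N q - D false M q) Metric.isOpen_ball
        (fun q hq => by linarith [(hgc q hq).c2]) hp,
        Dn_sub B (contDiff_D _ hN) (contDiff_D _ hM)]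
      ring
    · simp [h0 p hp]
  rw [e1, e2, parts _ _ hL, parts _ _ hM, parts _ _ hM, parts _ _ hN]
  simp only [if_true, Bool.false_eq_true, if_false]
  ring

theorem norm_fderiv_le (f : P → ℝ) (p : P) : ‖fderiv ℝ f p‖ ≤ |D true f p| + |D false f p| := by
  refine ContinuousLinearMap.opNorm_le_bound _ (by positivity) fun v => ?_
  have e : v = v.1 • ev true + v.2 • ev false := by
    ext <;> simp [ev]
  have : fderiv ℝ f p v = v.1 * D true f p + v.2 * D false f p := by
    conv_lhs => rw [e]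
    simp [D]
  rw [this, Real.norm_eq_abs]
  refine (abs_add_le _ _).trans ?_
  rw [abs_mul, abs_mul, add_mul, mul_comm |v.1|, mul_comm |v.2|]
  gcongr
  · exact abs_fst_le v
  · exact abs_snd_le v

theorem sub_zero_le {f : P → ℝ} (hf : ContDiff ℝ ∞ f) {C : ℝ}
    (h : ∀ i, ∀ p ∈ Metric.closedBall (0 : P) (1 / 2), |D i f p| ≤ C) {p : P}
    (hp : ‖p‖ ≤ 1 / 2) : |f p - f 0| ≤ 2 * C * ‖p‖ := by
  have := (convex_closedBall (0 : P) (1 / 2)).norm_image_sub_le_of_norm_fderiv_le (𝕜 := ℝ)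
    (f := f) (C := 2 * C) (x := 0) (y := p) (fun q _ => df hf q)
    (fun q hq => (norm_fderiv_le f q).trans (by linarith [h true q hq, h false q hq]))
    (by simp) (by simpa using hp)
  simpa using this

end Crest.Agent.R220.F
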