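import Crest.Agent.R220.Basic

/-! Row 220: the differential algebra of families of smooth functions on `Om`, with uniform
integral bounds. -/

set_option autoImplicit false
open scoped ContDiff Topology
open Set MeasureTheory Filter Asymptotics

namespace Crest.Agent.R220

theorem isOpen_Om : IsOpen Om := Metric.isOpen_ball

variable {ι : Type}

open Classical in
/-- extension by zero -/
noncomputable def ex (f : ι × Om → ℝ) (i : ι) (p : P) : ℝ := if h : p ∈ Om then f (i, ⟨p, h⟩) else 0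

theorem ex_mem (f : ι × Om → ℝ) (i : ι) {p : P} (h : p ∈ Om) : ex f i p = f (i, ⟨p, h⟩) := dif_pos h
theorem ex_nmem (f : ι × Om → ℝ) (i : ι) {p : P} (h : p ∉ Om) : ex f i p = 0 := dif_neg h
@[simp] theorem ex_coe (f : ι × Om → ℝ) (i : ι) (p : Om) : ex f i p = f (i, p) := dif_pos p.2

/-- families of smooth functions on `Om` -/
def Sm (ι : Type) : Subalgebra ℝ (ι × Om → ℝ) where
  carrier := {e | ∀ i, ContDiffOn ℝ ∞ (ex e i) Om}
  mul_mem' := fun {a b} ha hb i => ((ha i).mul (hb i)).congr fun p hp => by simp [ex_mem _ _ hp]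
  add_mem' := fun {a b} ha hb i => ((ha i).add (hb i)).congr fun p hp => by simp [ex_mem _ _ hp]
  algebraMap_mem' := fun c i => (contDiffOn_const (c := c)).congr fun p hp => by simp [ex_mem _ _ hp]

namespace Sm

theorem smoothAt (e : Sm ι) (i : ι) {p : P} (h : p ∈ Om) : ContDiffAt ℝ ∞ (ex e.1 i) p :=
  (e.2 i).contDiffAt (isOpen_Om.mem_nhds h)

def mk (f : ι → P → ℝ) (h : ∀ i, ContDiffOn ℝ ∞ (f i) Om) : Sm ι :=
  ⟨fun t => f t.1 t.2, fun i => (h i).congr fun p hp => by simp [ex_mem _ _ hp]⟩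

@[simp] theorem mk_apply (f : ι → P → ℝ) (h : ∀ i, ContDiffOn ℝ ∞ (f i) Om) (t : ι × Om) :
    (mk f h).1 t = f t.1 t.2 := rfl

theorem ex_eventuallyEq {e : ι × Om → ℝ} {i : ι} {f : P → ℝ} (h : ∀ q : Om, e (i, q) = f q) (p : Om) :
    ex e i =ᶠ[𝓝 (p : P)] f := by
  filter_upwards [isOpen_Om.mem_nhds p.2] with q hq
  rw [ex_mem _ _ hq, h]

noncomputable def d0 (j : Bool) (e : Sm ι) : Sm ι :=
  mk (fun i => D j (ex e.1 i)) fun i => contDiffOn_D isOpen_Om j (e.2 i)

theorem d0_eq (j : Bool) (e : Sm ι) {i : ι} {f : P → ℝ} (h : ∀ q : Om, e.1 (i, q) = f q) (p : Om) :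
    (d0 j e).1 (i, p) = D j f p := (D_congr j (ex_eventuallyEq h p)).eq_of_nhds

noncomputable def d (j : Bool) : Derivation ℝ (Sm ι) (Sm ι) :=
  Derivation.mk'
    { toFun := d0 j
      map_add' := fun e f => Subtype.ext <| funext fun ⟨i, p⟩ => by
        rw [d0_eq j (e + f) (f := fun q => ex e.1 i q + ex f.1 i q) (by simp),
          D_add j (diffAt (smoothAt e i p.2)) (diffAt (smoothAt f i p.2))]
        rfl
      map_smul' := fun c e => Subtype.ext <| funext fun ⟨i, p⟩ => by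
        rw [d0_eq j (c • e) (f := fun q => c * ex e.1 i q) (by simp),
          D_const_mul j c (diffAt (smoothAt e i p.2))]
        rfl }
    fun e f => Subtype.ext <| funext fun ⟨i, p⟩ => by
      change (d0 j (e * f)).1 (i, p) = e.1 (i, p) * D j (ex f.1 i) p + f.1 (i, p) * D j (ex e.1 i) p
      rw [d0_eq j (e * f) (f := fun q => ex e.1 i q * ex f.1 i q) (by simp),
        D_mul j (diffAt (smoothAt e i p.2)) (diffAt (smoothAt f i p.2))]
      simp [mul_comm]

theorem d_eq (j : Bool) (e : Sm ι) {i : ι} {f : P → ℝ} (h : ∀ q : Om, e.1 (i, q) = f q) (p : Om) :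
    (d j e).1 (i, p) = D j f p := d0_eq j e h p

theorem d_apply (j : Bool) (e : Sm ι) (i : ι) (p : Om) : (d j e).1 (i, p) = D j (ex e.1 i) p := rfl

theorem d_mk (j : Bool) (f : ι → P → ℝ) (h : ∀ i, ContDiffOn ℝ ∞ (f i) Om) (t : ι × Om) :
    (d j (mk f h)).1 t = D j (f t.1) t.2 := d_eq j _ (fun _ => rfl) _

theorem d_comm (e : Sm ι) : d true (d false e) = d false (d true e) :=
  Subtype.ext <| funext fun ⟨i, p⟩ => by
    rw [d_eq true _ (d_apply false e i), d_eq false _ (d_apply true e i)]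
    exact D_comm _ _ (smoothAt e i p.2)

/-- composition with a family of smooth functions of one variable -/
noncomputable def comp (F : ι → ℝ → ℝ) (hF : ∀ i, ContDiff ℝ ∞ (F i)) (e : Sm ι) : Sm ι :=
  mk (fun i p => F i (ex e.1 i p)) fun i => (hF i).comp_contDiffOn (e.2 i)

@[simp] theorem comp_apply (F : ι → ℝ → ℝ) (hF : ∀ i, ContDiff ℝ ∞ (F i)) (e : Sm ι) (t : ι × Om) :
    (comp F hF e).1 t = F t.1 (e.1 t) := by simp [comp]

theorem d_comp (j : Bool) (F : ι → ℝ → ℝ) (hF : ∀ i, ContDiff ℝ ∞ (F i)) (e : Sm ι) (t : ι × Om) :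
    (d j (comp F hF e)).1 t = deriv (F t.1) (e.1 t) * (d j e).1 t := by
  obtain ⟨i, p⟩ := t
  rw [comp, d_mk, D_comp j (((hF i).differentiable (by simp)) _).hasDerivAt
    (diffAt (smoothAt e i p.2))]
  simp [d_apply]

def cx : Sm ι := mk (fun _ p => p.1) fun _ => contDiff_fst.contDiffOn
def cy : Sm ι := mk (fun _ p => p.2) fun _ => contDiff_snd.contDiffOn
@[simp] theorem cx_apply (t : ι × Om) : (cx : Sm ι).1 t = t.2.1.1 := rfl
@[simp] theorem cy_apply (t : ι × Om) : (cy : Sm ι).1 t = t.2.1.2 := rfl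
theorem d_cx_true : d true (cx : Sm ι) = 1 :=
  Subtype.ext <| funext fun t => by rw [cx, d_mk, D_fst]; simp
theorem d_cx_false : d false (cx : Sm ι) = 0 :=
  Subtype.ext <| funext fun t => by rw [cx, d_mk, D_fst]; simp
theorem d_cy_true : d true (cy : Sm ι) = 0 :=
  Subtype.ext <| funext fun t => by rw [cy, d_mk, D_snd]; simp
theorem d_cy_false : d false (cy : Sm ι) = 1 :=
  Subtype.ext <| funext fun t => by rw [cy, d_mk, D_snd]; simp

/-- a family of constants -/
def par (c : ι → ℝ) : Sm ι := mk (fun i _ => c i) fun _ => contDiffOn_const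
@[simp] theorem par_apply (c : ι → ℝ) (t : ι × Om) : (par c).1 t = c t.1 := rfl
theorem d_par (j : Bool) (c : ι → ℝ) : d j (par c) = 0 :=
  Subtype.ext <| funext fun t => by rw [par, d_mk]; simp

end Sm

/-- squared Euclidean norm -/
def rr (p : P) : ℝ := p.1 ^ 2 + p.2 ^ 2

theorem continuous_rr : Continuous rr := by unfold rr; fun_prop

/-- closed Euclidean discs -/
def KK (r : ℝ) : Set P := {p | rr p ≤ r}

theorem KK_sub {r : ℝ} (hr : r ≤ 1) : KK r ⊆ Om := fun p hp => by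
  have h1 := norm_sq_le p
  have h2 : p.1 ^ 2 + p.2 ^ 2 ≤ r := hp
  simp only [Om, mem_ball_zero_iff]
  nlinarith [norm_nonneg p]

theorem isCompact_KK {r : ℝ} (hr : r ≤ 1) : IsCompact (KK r) :=
  Metric.isCompact_of_isClosed_isBounded (isClosed_le continuous_rr continuous_const)
    (Metric.isBounded_ball.subset (KK_sub hr))

theorem measurableSet_KK (r : ℝ) : MeasurableSet (KK r) :=
  (isClosed_le continuous_rr continuous_const).measurableSet

theorem integrableOn_sm {r : ℝ} (hr : r ≤ 1) (e : Sm ι) (i : ι) : IntegrableOn (ex e.1 i) (KK r) :=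
  ((e.2 i).continuousOn.mono (KK_sub hr)).integrableOn_compact (isCompact_KK hr)

/-- uniformly bounded integrals over a disc -/
def UI (r : ℝ) (f : ι × Om → ℝ) : Prop :=
  ∃ C : ℝ, ∀ i, IntegrableOn (ex f i) (KK r) ∧ ∫ p in KK r, ex f i p ≤ C

theorem ex_add (f g : ι × Om → ℝ) (i : ι) : ex (fun t => f t + g t) i = fun p => ex f i p + ex g i p := by
  funext p; by_cases h : p ∈ Om <;> simp [ex, h]

theorem ex_const_mul (c : ℝ) (f : ι × Om → ℝ) (i : ι) :
    ex (fun t => c * f t) i = fun p => c * ex f i p := by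
  funext p; by_cases h : p ∈ Om <;> simp [ex, h]

theorem UI.add {r : ℝ} {f g : ι × Om → ℝ} (hf : UI r f) (hg : UI r g) : UI r fun t => f t + g t := by
  obtain ⟨C, hC⟩ := hf
  obtain ⟨C', hC'⟩ := hg
  refine ⟨C + C', fun i => ?_⟩
  rw [ex_add]
  refine ⟨(hC i).1.add (hC' i).1, ?_⟩
  rw [integral_add (hC i).1 (hC' i).1]
  exact add_le_add (hC i).2 (hC' i).2

theorem UI.const_mul {r : ℝ} {f : ι × Om → ℝ} (hf : UI r f) {c : ℝ} (hc : 0 ≤ c) :
    UI r fun t => c * f t := by
  obtain ⟨C, hC⟩ := hf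
  refine ⟨c * C, fun i => ?_⟩
  rw [ex_const_mul]
  refine ⟨(hC i).1.const_mul c, ?_⟩
  rw [integral_const_mul]
  exact mul_le_mul_of_nonneg_left (hC i).2 hc

theorem UI.mono' {r : ℝ} (hr : r ≤ 1) {f g : ι × Om → ℝ} (hg : UI r g)
    (hf : ∀ i, IntegrableOn (ex f i) (KK r)) (h : ∀ t : ι × Om, rr t.2 ≤ r → f t ≤ g t) : UI r f := by
  obtain ⟨C, hC⟩ := hg
  refine ⟨C, fun i => ⟨hf i, le_trans ?_ (hC i).2⟩⟩
  refine setIntegral_mono_on (hf i) (hC i).1 (measurableSet_KK r) fun p hp => ?_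
  rw [ex_mem _ _ (KK_sub hr hp), ex_mem _ _ (KK_sub hr hp)]
  exact h _ hp

theorem UI.mono {r : ℝ} (hr : r ≤ 1) {g : ι × Om → ℝ} (hg : UI r g) (e : Sm ι)
    (h : ∀ t : ι × Om, rr t.2 ≤ r → e.1 t ≤ g t) : UI r e.1 :=
  hg.mono' hr (integrableOn_sm hr e) h

theorem UI.const {r : ℝ} (hr : r ≤ 1) (c : ℝ) : UI r fun _ : ι × Om => c := by
  refine ⟨∫ _ in KK r, c, fun i => ⟨integrableOn_sm hr (algebraMap ℝ _ c) i, le_of_eq ?_⟩⟩
  exact setIntegral_congr_fun (measurableSet_KK r) fun p hp => ex_mem _ _ (KK_sub hr hp)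

theorem UI.sum {r : ℝ} (hr : r ≤ 1) {α : Type*} (s : Finset α) {f : α → ι × Om → ℝ}
    (h : ∀ a ∈ s, UI r (f a)) : UI r fun t => ∑ a ∈ s, f a t := by
  classical
  induction s using Finset.induction_on with
  | empty => simpa using UI.const hr 0
  | insert a s ha ih =>
    simp only [Finset.sum_insert ha]
    exact (h a (by simp)).add (ih fun b hb => h b (by simp [hb]))

theorem UI.shrink {r r' : ℝ} (hr : r ≤ 1) (h : r' ≤ r) {f : ι × Om → ℝ} (hf : UI r f)
    (h0 : ∀ t : ι × Om, rr t.2 ≤ r → 0 ≤ f t) : UI r' f := by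
  obtain ⟨C, hC⟩ := hf
  have hs : KK r' ⊆ KK r := fun p hp => le_trans hp h
  refine ⟨C, fun i => ⟨(hC i).1.mono_set hs, le_trans ?_ (hC i).2⟩⟩
  refine setIntegral_mono_set (hC i).1 ?_ hs.eventuallyLE
  refine (ae_restrict_iff' (measurableSet_KK r)).2 (Eventually.of_forall fun p hp => ?_)
  rw [ex_mem _ _ (KK_sub hr hp)]
  exact h0 _ hp

open Classical in
/-- the indicator of the support of the bump -/
noncomputable def ind (ε : ι → ℝ) (t : ι × Om) : ℝ := if ‖(t.2 : P)‖ ≤ ε t.1 then 1 else 0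

theorem UI.ind {r : ℝ} (hr : r ≤ 1) {ε : ι → ℝ} (hε : ∀ i, 0 < ε i) :
    UI r fun t => (ε t.1)⁻¹ ^ 2 * ind ε t := by
  refine ⟨4, fun i => ?_⟩
  have h1 : IntegrableOn (fun _ : P => (ε i)⁻¹ ^ 2) (Metric.closedBall 0 (ε i)) :=
    integrableOn_const measure_closedBall_lt_top.ne
  have h2 := h1.integrable_indicator measurableSet_closedBall
  have h3 : EqOn (ex (fun t => (ε t.1)⁻¹ ^ 2 * R220.ind ε t) i)
      ((Metric.closedBall 0 (ε i)).indicator fun _ : P => (ε i)⁻¹ ^ 2) (KK r) := by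
    intro p hp
    rw [ex_mem _ _ (KK_sub hr hp)]
    by_cases h : ‖p‖ ≤ ε i <;> simp [R220.ind, h]
  refine ⟨h2.integrableOn.congr_fun h3.symm (measurableSet_KK r), ?_⟩
  rw [setIntegral_congr_fun (measurableSet_KK r) h3]
  refine (setIntegral_le_integral h2 (Eventually.of_forall fun p =>
    indicator_nonneg (fun _ _ => by positivity) _)).trans ?_
  rw [integral_indicator measurableSet_closedBall, setIntegral_const, ← closedBall_prod_same,
    Measure.real, Measure.volume_eq_prod, Measure.prod_prod, Real.volume_closedBall,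
    Real.volume_closedBall, ENNReal.toReal_mul, ENNReal.toReal_ofReal (by have := hε i; positivity)]
  have := hε i
  simp only [smul_eq_mul]
  field_simp
  norm_num

theorem smooth_of_supp {r : ℝ} (hr : r ≤ 1) (e : Sm ι) (h : ∀ t : ι × Om, r < rr t.2 → e.1 t = 0)
    (i : ι) : ContDiff ℝ ∞ (ex e.1 i) ∧ HasCompactSupport (ex e.1 i) ∧
      ∀ p, p ∉ KK r → ex e.1 i =ᶠ[𝓝 p] fun _ => 0 := by
  have h1 : ∀ p, p ∉ KK r → ex e.1 i p = 0 := by
    intro p hp
    by_cases hq : p ∈ Om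
    · rw [ex_mem _ _ hq]; exact h _ (not_le.1 hp)
    · exact ex_nmem _ _ hq
  have h2 : ∀ p, p ∉ KK r → ex e.1 i =ᶠ[𝓝 p] fun _ => 0 := by
    intro p hp
    filter_upwards [(isCompact_KK hr).isClosed.isOpen_compl.mem_nhds hp] with q hq using h1 q hq
  refine ⟨contDiff_iff_contDiffAt.2 fun p => ?_, HasCompactSupport.intro (isCompact_KK hr) h1, h2⟩
  by_cases hp : p ∈ KK r
  · exact Sm.smoothAt e i (KK_sub hr hp)
  · exact contDiffAt_const.congr_of_eventuallyEq (h2 p hp)

theorem UI.div {r : ℝ} (hr : r ≤ 1) (j : Bool) (e : Sm ι)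
    (h : ∀ t : ι × Om, r < rr t.2 → e.1 t = 0) : UI r (Sm.d j e).1 := by
  refine ⟨0, fun i => ⟨integrableOn_sm hr _ i, le_of_eq ?_⟩⟩
  obtain ⟨h1, h2, h3⟩ := smooth_of_supp hr e h i
  rw [← integral_D j h1 h2, ← setIntegral_eq_integral_of_forall_compl_eq_zero (s := KK r)
    (f := fun p => D j (ex e.1 i) p) fun p hp => by rw [(D_congr j (h3 p hp)).eq_of_nhds]; simp]
  exact setIntegral_congr_fun (measurableSet_KK r) fun p hp => ex_mem _ _ (KK_sub hr hp)

theorem abs_le_integral_deriv {g : ℝ → ℝ} (hg : ContDiff ℝ 1 g) (hc : HasCompactSupport g) (x : ℝ) :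
    |g x| ≤ ∫ s, |deriv g s| := by
  rw [← hc.integral_Iic_deriv_eq hg x]
  refine abs_integral_le_integral_abs.trans (setIntegral_le_integral ?_
    (Eventually.of_forall fun _ => abs_nonneg _))
  exact ((hg.continuous_deriv le_rfl).integrable_of_hasCompactSupport hc.deriv).abs

theorem sobolev {f : P → ℝ} (hf : ContDiff ℝ ∞ f) (hc : HasCompactSupport f) (p : P) :
    |f p| ≤ ∫ q, |D false (D true f) q| := by
  have one : (1 : WithTop ℕ∞) ≤ ∞ := by exact_mod_cast le_top
  have hx : ∀ {g : P → ℝ}, ContDiff ℝ ∞ g → HasCompactSupport g → ∀ x y,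
      |g (x, y)| ≤ ∫ s, |D true g (s, y)| := by
    intro g hg hgc x y
    have h1 : ContDiff ℝ ∞ fun s : ℝ => g (s, y) := hg.comp (by fun_prop)
    have h2 : HasCompactSupport fun s : ℝ => g (s, y) :=
      hgc.comp_isClosedEmbedding (Isometry.isClosedEmbedding (Isometry.of_dist_eq fun a b => by simp))
    refine (abs_le_integral_deriv (h1.of_le one) h2 x).trans (le_of_eq ?_)
    congr 1; funext s; congr 1
    exact ((diffAt hg.contDiffAt).hasFDerivAt.comp_hasDerivAt s
      ((hasDerivAt_id s).prodMk (hasDerivAt_const s y))).deriv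
  have hy : ∀ {g : P → ℝ}, ContDiff ℝ ∞ g → HasCompactSupport g → ∀ x y,
      |g (x, y)| ≤ ∫ s, |D false g (x, s)| := by
    intro g hg hgc x y
    have h1 : ContDiff ℝ ∞ fun s : ℝ => g (x, s) := hg.comp (by fun_prop)
    have h2 : HasCompactSupport fun s : ℝ => g (x, s) :=
      hgc.comp_isClosedEmbedding (Isometry.isClosedEmbedding (Isometry.of_dist_eq fun a b => by simp))
    refine (abs_le_integral_deriv (h1.of_le one) h2 y).trans (le_of_eq ?_)
    congr 1; funext s; congr 1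
    exact ((diffAt hg.contDiffAt).hasFDerivAt.comp_hasDerivAt s
      ((hasDerivAt_const s x).prodMk (hasDerivAt_id s))).deriv
  have hc1 : HasCompactSupport (D true f) := hc.fderiv_apply ℝ _
  have hc2 : HasCompactSupport (D false (D true f)) := hc1.fderiv_apply ℝ _
  have hi : Integrable fun q => |D false (D true f) q| :=
    ((contDiff_D _ (contDiff_D _ hf)).continuous.integrable_of_hasCompactSupport hc2).abs
  refine (hx hf hc p.1 p.2).trans ?_
  rw [Measure.volume_eq_prod] at hi ⊢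
  rw [integral_prod _ hi]
  refine integral_mono_of_nonneg (Eventually.of_forall fun _ => abs_nonneg _) hi.integral_prod_left
    (Eventually.of_forall fun s => hy (contDiff_D _ hf) hc1 s p.2)

theorem UI.sob {r : ℝ} (hr : r ≤ 1) (e : Sm ι) (h : ∀ t : ι × Om, r < rr t.2 → e.1 t = 0)
    (hg : UI r ((Sm.d false (Sm.d true e)) ^ 2).1) : ∃ C, ∀ t, |e.1 t| ≤ C := by
  have h1 : UI r fun t => |(Sm.d false (Sm.d true e)).1 t| := by
    refine ((UI.const hr 1).add hg).mono' hr (fun i => ?_) fun t _ => ?_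
    · refine IntegrableOn.congr_fun (integrableOn_sm hr (Sm.d false (Sm.d true e)) i).abs
        (fun p hp => ?_) (measurableSet_KK r)
      simp [ex_mem _ _ (KK_sub hr hp)]
    · have := sq_abs ((Sm.d false (Sm.d true e)).1 t)
      simp only [SubmonoidClass.coe_pow, Pi.pow_apply]
      nlinarith [sq_nonneg (|(Sm.d false (Sm.d true e)).1 t| - 1)]
  obtain ⟨C, hC⟩ := h1
  refine ⟨C, fun ⟨i, p⟩ => le_trans ?_ (hC i).2⟩
  obtain ⟨h1, h2, h3⟩ := smooth_of_supp hr e h i
  rw [← ex_coe e.1]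
  refine (sobolev h1 h2 p).trans (le_of_eq ?_)
  rw [← setIntegral_eq_integral_of_forall_compl_eq_zero (s := KK r)
    fun p hp => by rw [(D_congr false (D_congr true (h3 p hp))).eq_of_nhds]; simp]
  refine setIntegral_congr_fun (measurableSet_KK r) fun q hq => ?_
  rw [ex_mem _ _ (KK_sub hr hq), Sm.d_eq false _ (Sm.d_apply true e i)]

end Crest.Agent.R220
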