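import Crest.Agent.R220.Basic

/-! Row 220, part A: the Gauss–Codazzi equations. -/

set_option autoImplicit false
open scoped ContDiff Topology
open Set Filter

namespace Crest.Agent.R220

namespace A

/-- a component of the unit normal -/
noncomputable def nr (Φ a b : P → ℝ) (p : P) : ℝ :=
  Real.exp (-(2 * Φ p)) * (D true a p * D false b p - D true b p * D false a p)

/-- the second fundamental form -/
noncomputable def sf (Φ x y z : P → ℝ) (i j : Bool) (p : P) : ℝ :=
  D i (D j x) p * nr Φ y z p + D i (D j y) p * nr Φ z x p + D i (D j z) p * nr Φ x y p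

theorem sf_cyc (Φ x y z : P → ℝ) : sf Φ y z x = sf Φ x y z := by
  funext i j p; simp only [sf]; ring

structure Met (U : Set P) (Φ x y z : P → ℝ) : Prop where
  hU : IsOpen U
  hΦ : ContDiff ℝ ∞ Φ
  hx : ContDiffOn ℝ ∞ x U
  hy : ContDiffOn ℝ ∞ y U
  hz : ContDiffOn ℝ ∞ z U
  met : ∀ i j : Bool, ∀ p ∈ U, D i x p * D j x p + D i y p * D j y p + D i z p * D j z p =
      if i = j then Real.exp (2 * Φ p) else 0

theorem D_dot {a₁ b₁ a₂ b₂ a₃ b₃ : P → ℝ} {p : P} (k : Bool) (h₁ : ContDiffAt ℝ ∞ a₁ p)
    (h₁' : ContDiffAt ℝ ∞ b₁ p) (h₂ : ContDiffAt ℝ ∞ a₂ p) (h₂' : ContDiffAt ℝ ∞ b₂ p)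
    (h₃ : ContDiffAt ℝ ∞ a₃ p) (h₃' : ContDiffAt ℝ ∞ b₃ p) :
    D k (fun q => a₁ q * b₁ q + a₂ q * b₂ q + a₃ q * b₃ q) p =
      a₁ p * D k b₁ p + D k a₁ p * b₁ p + (a₂ p * D k b₂ p + D k a₂ p * b₂ p) +
        (a₃ p * D k b₃ p + D k a₃ p * b₃ p) := by
  rw [D_add k (diffAt ((h₁.mul h₁').add (h₂.mul h₂'))) (diffAt (h₃.mul h₃')),
    D_add k (diffAt (h₁.mul h₁')) (diffAt (h₂.mul h₂')), D_mul k (diffAt h₁) (diffAt h₁'),
    D_mul k (diffAt h₂) (diffAt h₂'), D_mul k (diffAt h₃) (diffAt h₃')]

theorem D_congr_on {U : Set P} (hU : IsOpen U) {f g : P → ℝ} (h : ∀ q ∈ U, f q = g q) (k : Bool)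
    {p : P} (hp : p ∈ U) : D k f p = D k g p :=
  (D_congr k (by filter_upwards [hU.mem_nhds hp] with q hq using h q hq)).eq_of_nhds

variable {U : Set P} {Φ x y z : P → ℝ}

theorem Met.cyc (h : Met U Φ x y z) : Met U Φ y z x :=
  ⟨h.hU, h.hΦ, h.hy, h.hz, h.hx, fun i j p hp => by rw [← h.met i j p hp]; ring⟩

theorem Met.ax (h : Met U Φ x y z) {p : P} (hp : p ∈ U) : ContDiffAt ℝ ∞ x p :=
  h.hx.contDiffAt (h.hU.mem_nhds hp)

theorem Met.ay (h : Met U Φ x y z) {p : P} (hp : p ∈ U) : ContDiffAt ℝ ∞ y p := h.cyc.ax hp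

theorem Met.az (h : Met U Φ x y z) {p : P} (hp : p ∈ U) : ContDiffAt ℝ ∞ z p := h.cyc.cyc.ax hp

theorem Met.anr (h : Met U Φ x y z) {p : P} (hp : p ∈ U) : ContDiffAt ℝ ∞ (nr Φ y z) p := by
  unfold nr
  exact ((contDiffAt_const.mul h.hΦ.contDiffAt).neg.exp).mul
    (((contDiffAt_D _ (h.ay hp)).mul (contDiffAt_D _ (h.az hp))).sub
      ((contDiffAt_D _ (h.az hp)).mul (contDiffAt_D _ (h.ay hp))))

theorem Met.asf (h : Met U Φ x y z) (i j : Bool) {p : P} (hp : p ∈ U) :
    ContDiffAt ℝ ∞ (sf Φ x y z i j) p := by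
  unfold sf
  exact (((contDiffAt_D _ (contDiffAt_D _ (h.ax hp))).mul (h.anr hp)).add
    ((contDiffAt_D _ (contDiffAt_D _ (h.ay hp))).mul (h.cyc.anr hp))).add
    ((contDiffAt_D _ (contDiffAt_D _ (h.az hp))).mul (h.cyc.cyc.anr hp))

/-- the differentiated metric identities -/
theorem Met.dmet (h : Met U Φ x y z) (k i j : Bool) {p : P} (hp : p ∈ U) :
    D i x p * D k (D j x) p + D k (D i x) p * D j x p +
      (D i y p * D k (D j y) p + D k (D i y) p * D j y p) +
      (D i z p * D k (D j z) p + D k (D i z) p * D j z p) =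
      if i = j then 2 * Real.exp (2 * Φ p) * D k Φ p else 0 := by
  rw [← D_dot k (contDiffAt_D _ (h.ax hp)) (contDiffAt_D _ (h.ax hp)) (contDiffAt_D _ (h.ay hp))
    (contDiffAt_D _ (h.ay hp)) (contDiffAt_D _ (h.az hp)) (contDiffAt_D _ (h.az hp)),
    D_congr_on h.hU (h.met i j) k hp]
  split_ifs
  · rw [D_exp k (diffAt (contDiffAt_const.mul h.hΦ.contDiffAt)),
      D_const_mul k 2 (diffAt h.hΦ.contDiffAt)]
    ring
  · simp

/-- expansion in the frame -/
theorem frame {a₁ a₂ a₃ b₁ b₂ b₃ v₁ v₂ v₃ E E' α β : ℝ} (hE : E' * E = 1)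
    (ha : a₁ * a₁ + a₂ * a₂ + a₃ * a₃ = E) (hb : b₁ * b₁ + b₂ * b₂ + b₃ * b₃ = E)
    (hab : a₁ * b₁ + a₂ * b₂ + a₃ * b₃ = 0) (hα : v₁ * a₁ + v₂ * a₂ + v₃ * a₃ = E * α)
    (hβ : v₁ * b₁ + v₂ * b₂ + v₃ * b₃ = E * β) :
    v₁ = α * a₁ + β * b₁ + (v₁ * (E' * (a₂ * b₃ - a₃ * b₂)) + v₂ * (E' * (a₃ * b₁ - a₁ * b₃)) +
      v₃ * (E' * (a₁ * b₂ - a₂ * b₁))) * (E' * (a₂ * b₃ - a₃ * b₂)) := by
  have key : ((a₁ * a₁ + a₂ * a₂ + a₃ * a₃) * (b₁ * b₁ + b₂ * b₂ + b₃ * b₃) -
      (a₁ * b₁ + a₂ * b₂ + a₃ * b₃) ^ 2) * v₁ =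
      (v₁ * a₁ + v₂ * a₂ + v₃ * a₃) * ((b₁ * b₁ + b₂ * b₂ + b₃ * b₃) * a₁ -
        (a₁ * b₁ + a₂ * b₂ + a₃ * b₃) * b₁) +
      (v₁ * b₁ + v₂ * b₂ + v₃ * b₃) * ((a₁ * a₁ + a₂ * a₂ + a₃ * a₃) * b₁ -
        (a₁ * b₁ + a₂ * b₂ + a₃ * b₃) * a₁) +
      (v₁ * (a₂ * b₃ - a₃ * b₂) + v₂ * (a₃ * b₁ - a₁ * b₃) + v₃ * (a₁ * b₂ - a₂ * b₁)) *
        (a₂ * b₃ - a₃ * b₂) := by ring
  rw [ha, hb, hab, hα, hβ] at key
  linear_combination E' ^ 2 * key - (v₁ - α * a₁ - β * b₁) * (E' * E + 1) * hE

theorem exp_inv (t : ℝ) : Real.exp (-t) * Real.exp t = 1 := by rw [← Real.exp_add]; simp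

theorem Met.g11 (h : Met U Φ x y z) {p : P} (hp : p ∈ U) :
    D true (D true x) p = D true Φ p * D true x p + (-D false Φ p) * D false x p +
      sf Φ x y z true true p * nr Φ y z p := by
  have e1 := h.dmet true true true hp
  have e2 := h.dmet false true true hp
  have e3 := h.dmet true true false hp
  rw [D_comm true false (h.ax hp), D_comm true false (h.ay hp), D_comm true false (h.az hp)] at e3
  simp only [if_true, Bool.true_eq_false, if_false] at e1 e2 e3
  exact frame (exp_inv _) (by simpa using h.met true true p hp)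
    (by simpa using h.met false false p hp) (by simpa using h.met true false p hp)
    (by linear_combination e1 / 2) (by linear_combination e3 - e2 / 2)

theorem Met.g12 (h : Met U Φ x y z) {p : P} (hp : p ∈ U) :
    D false (D true x) p = D false Φ p * D true x p + D true Φ p * D false x p +
      sf Φ x y z false true p * nr Φ y z p := by
  have e1 := h.dmet false true true hp
  have e2 := h.dmet true false false hp
  rw [D_comm true false (h.ax hp), D_comm true false (h.ay hp), D_comm true false (h.az hp)] at e2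
  simp only [if_true] at e1 e2
  exact frame (exp_inv _) (by simpa using h.met true true p hp)
    (by simpa using h.met false false p hp) (by simpa using h.met true false p hp)
    (by linear_combination e1 / 2) (by linear_combination e2 / 2)

theorem Met.g22 (h : Met U Φ x y z) {p : P} (hp : p ∈ U) :
    D false (D false x) p = (-D true Φ p) * D true x p + D false Φ p * D false x p +
      sf Φ x y z false false p * nr Φ y z p := by
  have e1 := h.dmet false false false hp
  have e2 := h.dmet true false false hp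
  have e3 := h.dmet false true false hp
  rw [D_comm true false (h.ax hp), D_comm true false (h.ay hp), D_comm true false (h.az hp)] at e2
  simp only [if_true, Bool.true_eq_false, if_false] at e1 e2 e3
  exact frame (exp_inv _) (by simpa using h.met true true p hp)
    (by simpa using h.met false false p hp) (by simpa using h.met true false p hp)
    (by linear_combination e3 - e2 / 2) (by linear_combination e1 / 2)

theorem Met.cA (h : Met U Φ x y z) {p : P} (hp : p ∈ U) :
    D true Φ p * D false (D true x) p + D false (D true Φ) p * D true x p +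
      (-D false Φ p * D false (D false x) p + -D false (D false Φ) p * D false x p) +
      (sf Φ x y z true true p * D false (nr Φ y z) p +
        D false (sf Φ x y z true true) p * nr Φ y z p) =
    D false Φ p * D true (D true x) p + D false (D true Φ) p * D true x p +
      (D true Φ p * D false (D true x) p + D true (D true Φ) p * D false x p) +
      (sf Φ x y z false true p * D true (nr Φ y z) p +
        D true (sf Φ x y z false true) p * nr Φ y z p) := by
  have hΦ : ∀ i, ContDiffAt ℝ ∞ (D i Φ) p := fun i => contDiffAt_D i h.hΦ.contDiffAt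
  have hx : ∀ i, ContDiffAt ℝ ∞ (D i x) p := fun i => contDiffAt_D i (h.ax hp)
  have e1 := D_congr_on h.hU (fun q hq => h.g11 hq) false hp
  have e2 := D_congr_on h.hU (fun q hq => h.g12 hq) true hp
  rw [D_dot false (hΦ _) (hx _) (hΦ _).neg (hx _) (h.asf _ _ hp) (h.anr hp), D_neg] at e1
  rw [D_dot true (hΦ _) (hx _) (hΦ _) (hx _) (h.asf _ _ hp) (h.anr hp),
    D_comm true false (h.ax hp), D_comm true false h.hΦ.contDiffAt] at e2
  rw [← e1, ← e2]
  exact D_comm false true (hx true)

theorem Met.cB (h : Met U Φ x y z) {p : P} (hp : p ∈ U) :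
    D false Φ p * D false (D true x) p + D false (D false Φ) p * D true x p +
      (D true Φ p * D false (D false x) p + D false (D true Φ) p * D false x p) +
      (sf Φ x y z false true p * D false (nr Φ y z) p +
        D false (sf Φ x y z false true) p * nr Φ y z p) =
    -D true Φ p * D true (D true x) p + -D true (D true Φ) p * D true x p +
      (D false Φ p * D false (D true x) p + D false (D true Φ) p * D false x p) +
      (sf Φ x y z false false p * D true (nr Φ y z) p +
        D true (sf Φ x y z false false) p * nr Φ y z p) := by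
  have hΦ : ∀ i, ContDiffAt ℝ ∞ (D i Φ) p := fun i => contDiffAt_D i h.hΦ.contDiffAt
  have hx : ∀ i, ContDiffAt ℝ ∞ (D i x) p := fun i => contDiffAt_D i (h.ax hp)
  have e1 := D_congr_on h.hU (fun q hq => h.g12 hq) false hp
  have e2 := D_congr_on h.hU (fun q hq => h.g22 hq) true hp
  rw [D_dot false (hΦ _) (hx _) (hΦ _) (hx _) (h.asf _ _ hp) (h.anr hp)] at e1
  rw [D_dot true (hΦ _).neg (hx _) (hΦ _) (hx _) (h.asf _ _ hp) (h.anr hp), D_neg,
    D_comm true false (h.ax hp), D_comm true false h.hΦ.contDiffAt] at e2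
  rw [← e1, ← e2]
  show D false (D false (D true x)) p = D true (D false (D false x)) p
  rw [D_comm true false (hx false)]
  exact D_congr_on h.hU (fun q hq => D_comm false true (h.ax hq)) false hp

theorem Met.nn (h : Met U Φ x y z) {p : P} (hp : p ∈ U) :
    nr Φ y z p * nr Φ y z p + nr Φ z x p * nr Φ z x p + nr Φ x y p * nr Φ x y p = 1 := by
  have e1 := h.met true true p hp
  have e2 := h.met false false p hp
  have e3 := h.met true false p hp
  have e4 := exp_inv (2 * Φ p)
  simp only [if_true, Bool.true_eq_false, if_false] at e1 e2 e3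
  simp only [nr]
  set E := Real.exp (2 * Φ p)
  set E' := Real.exp (-(2 * Φ p))
  have key : nr Φ y z p * nr Φ y z p + nr Φ z x p * nr Φ z x p + nr Φ x y p * nr Φ x y p =
      E' ^ 2 * ((D true x p * D true x p + D true y p * D true y p + D true z p * D true z p) *
        (D false x p * D false x p + D false y p * D false y p + D false z p * D false z p) -
        (D true x p * D false x p + D true y p * D false y p + D true z p * D false z p) ^ 2) := by
    simp only [nr]; ring
  rw [e1, e2, e3] at key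
  simp only [nr] at key
  rw [key]
  linear_combination (E' * E + 1) * e4

theorem nF (Φ x y z : P → ℝ) (j : Bool) (p : P) :
    nr Φ y z p * D j x p + nr Φ z x p * D j y p + nr Φ x y p * D j z p = 0 := by
  cases j <;> simp only [nr] <;> ring

theorem Met.dnn (h : Met U Φ x y z) (k : Bool) {p : P} (hp : p ∈ U) :
    D k (nr Φ y z) p * nr Φ y z p + D k (nr Φ z x) p * nr Φ z x p +
      D k (nr Φ x y) p * nr Φ x y p = 0 := by
  have e := D_congr_on h.hU (fun q hq => h.nn hq) k hp
  rw [D_dot k (h.anr hp) (h.anr hp) (h.cyc.anr hp) (h.cyc.anr hp) (h.cyc.cyc.anr hp)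
    (h.cyc.cyc.anr hp)] at e
  simp only [D_const] at e
  linear_combination e / 2

theorem Met.dnF (h : Met U Φ x y z) (k j : Bool) {p : P} (hp : p ∈ U) :
    D k (nr Φ y z) p * D j x p + D k (nr Φ z x) p * D j y p + D k (nr Φ x y) p * D j z p =
      -sf Φ x y z k j p := by
  have e := D_congr_on h.hU (fun q _ => nF Φ x y z j q) k hp
  rw [D_dot k (h.anr hp) (contDiffAt_D _ (h.ax hp)) (h.cyc.anr hp) (contDiffAt_D _ (h.ay hp))
    (h.cyc.cyc.anr hp) (contDiffAt_D _ (h.az hp))] at e
  simp only [D_const] at e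
  simp only [sf]
  linear_combination e

theorem Met.gc (h : Met U Φ x y z) {p : P} (hp : p ∈ U) :
    GC 1 Φ (sf Φ x y z true true) (sf Φ x y z false true) (sf Φ x y z false false) p := by
  have a1 := h.cA hp
  have a2 := h.cyc.cA hp
  have a3 := h.cyc.cyc.cA hp
  have b1 := h.cB hp
  have b2 := h.cyc.cB hp
  have b3 := h.cyc.cyc.cB hp
  rw [sf_cyc Φ y z x] at a3 b3
  rw [sf_cyc Φ x y z] at a2 a3 b2 b3
  have nn := h.nn hp
  have n1 := nF Φ x y z true p
  have n2 := nF Φ x y z false p
  have d1 := h.dnn true hp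
  have d2 := h.dnn false hp
  have s11' : sf Φ x y z true true p = D true (D true x) p * nr Φ y z p +
    D true (D true y) p * nr Φ z x p + D true (D true z) p * nr Φ x y p := rfl
  have s12' : sf Φ x y z false true p = D false (D true x) p * nr Φ y z p +
    D false (D true y) p * nr Φ z x p + D false (D true z) p * nr Φ x y p := rfl
  have s22' : sf Φ x y z false false p = D false (D false x) p * nr Φ y z p +
    D false (D false y) p * nr Φ z x p + D false (D false z) p * nr Φ x y p := rfl
  refine ⟨?_, ?_, ?_⟩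
  · linear_combination nr Φ y z p * a1 + nr Φ z x p * a2 + nr Φ x y p * a3 -
      (D false (sf Φ x y z true true) p - D true (sf Φ x y z false true) p) * nn +
      (D false (D false Φ) p + D true (D true Φ) p) * n2 - sf Φ x y z true true p * d2 +
      sf Φ x y z false true p * d1 - D false Φ p * s11' - D false Φ p * s22'
  · linear_combination nr Φ y z p * b1 + nr Φ z x p * b2 + nr Φ x y p * b3 -
      (D false (sf Φ x y z false true) p - D true (sf Φ x y z false false) p) * nn -
      (D false (D false Φ) p + D true (D true Φ) p) * n1 - sf Φ x y z false true p * d2 +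
      sf Φ x y z false false p * d1 + D true Φ p * s11' + D true Φ p * s22'
  · have f1 := h.dnF false false hp
    have f2 := h.dnF true false hp
    have f3 : sf Φ x y z true false p = sf Φ x y z false true p := by
      simp only [sf]
      rw [D_comm true false (h.ax hp), D_comm true false (h.ay hp), D_comm true false (h.az hp)]
    rw [f3] at f2
    have m := h.met false false p hp
    have e1 := h.dmet false false false hp
    have e2 := h.dmet false true true hp
    have e3 := h.dmet true true false hp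
    rw [D_comm true false (h.ax hp), D_comm true false (h.ay hp),
      D_comm true false (h.az hp)] at e3
    simp only [if_true, Bool.true_eq_false, if_false] at e1 e2 e3 m
    show 1 * _ = -(_ * (D true (D true Φ) p + D false (D false Φ) p))
    linear_combination -(D false x p * a1 + D false y p * a2 + D false z p * a3) +
      sf Φ x y z true true p * f1 - sf Φ x y z false true p * f2 +
      (D false (sf Φ x y z true true) p - D true (sf Φ x y z false true) p) * n2 -
      (D false (D false Φ) p + D true (D true Φ) p) * m - D false Φ p * (e1 / 2 + e3 - e2 / 2)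

end A

theorem gc : GCStmt := by
  intro U Φ x y z hU hΦ hx hy hz met
  have h : A.Met U Φ x y z := ⟨hU, hΦ, hx, hy, hz, met⟩
  refine ⟨A.sf Φ x y z true true, A.sf Φ x y z false true, A.sf Φ x y z false false,
    fun p hp => (h.asf _ _ hp).contDiffWithinAt, fun p hp => (h.asf _ _ hp).contDiffWithinAt,
    fun p hp => (h.asf _ _ hp).contDiffWithinAt, fun p hp => h.gc hp, ?_⟩
  intro p hp hL hM hN h1 h2
  have key : ∀ {x' y' z' : P → ℝ}, A.Met U Φ x' y' z' → A.sf Φ x' y' z' = A.sf Φ x y z →
      ∀ i j : Bool, Ds [i, j] x' p = 0 := by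
    intro x' y' z' h' e i j
    have g11 := h'.g11 hp
    have g12 := h'.g12 hp
    have g22 := h'.g22 hp
    rw [e, h1, h2] at g11 g12 g22
    rw [hL] at g11
    rw [hM] at g12
    rw [hN] at g22
    show D i (D j x') p = 0
    cases i <;> cases j
    · simpa using g22
    · simpa using g12
    · rw [D_comm true false (h'.ax hp)]; simpa using g12
    · simpa using g11
  intro i j f hf
  simp only [List.mem_cons, List.not_mem_nil, or_false] at hf
  rcases hf with rfl | rfl | rfl
  · exact key h rfl i j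
  · exact key h.cyc (A.sf_cyc _ _ _ _) i j
  · exact key h.cyc.cyc ((A.sf_cyc _ _ _ _).trans (A.sf_cyc _ _ _ _)) i j

end Crest.Agent.R220
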