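import Crest.Agent.R220.Scale

/-! Row 220, part C: the global metric and the contradiction. -/

set_option autoImplicit false
open scoped ContDiff Topology
open Set MeasureTheory Filter

namespace Crest.Agent.R220
namespace C

theorem const_of_deriv {k : ℝ → ℝ} {r : ℝ} (h : ∀ t ∈ Icc 0 r, HasDerivAt k 0 t) :
    ∀ t ∈ Icc 0 r, k t = k 0 :=
  constant_of_has_deriv_right_zero (fun t ht => (h t ht).continuousAt.continuousWithinAt)
    (fun t ht => (h t (Ico_subset_Icc_self ht)).hasDerivWithinAt)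

theorem hasDerivAt_line {f : P → ℝ} (a v : P) {t : ℝ} (hf : DifferentiableAt ℝ f (a + t • v)) :
    HasDerivAt (fun s : ℝ => f (a + s • v)) (v.1 * D true f (a + t • v) + v.2 * D false f (a + t • v))
      t := by
  have h1 : HasDerivAt (fun s : ℝ => a + s • v) v t := by
    simpa using ((hasDerivAt_id t).smul_const v).const_add a
  rw [← B.fderiv_apply]
  exact hf.hasFDerivAt.comp_hasDerivAt t h1

theorem hasDerivAt_ev {f : P → ℝ} (i : Bool) {t : ℝ} (hf : DifferentiableAt ℝ f (t • ev i)) :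
    HasDerivAt (fun s : ℝ => f (s • ev i)) (D i f (t • ev i)) t := by
  have h1 : HasDerivAt (fun s : ℝ => s • ev i) (ev i) t := by
    simpa using (hasDerivAt_id t).smul_const (ev i)
  exact hf.hasFDerivAt.comp_hasDerivAt t h1

theorem seg {f : P → ℝ} {U : Set P} (hU : IsOpen U) (hf : ContDiffOn ℝ ∞ f U) (i : Bool) {r : ℝ}
    (hr : 0 ≤ r) (hm : ∀ t ∈ Icc 0 r, t • ev i ∈ U)
    (h2 : ∀ t ∈ Icc 0 r, Ds [i, i] f (t • ev i) = 0) : f (r • ev i) - f 0 = r * D i f 0 := by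
  have ha : ∀ t ∈ Icc 0 r, ContDiffAt ℝ ∞ f (t • ev i) := fun t ht =>
    hf.contDiffAt (hU.mem_nhds (hm t ht))
  have e1 : ∀ t ∈ Icc 0 r, D i f (t • ev i) = D i f 0 := by
    intro t ht
    have := const_of_deriv (k := fun s : ℝ => D i f (s • ev i)) (r := r) (fun s hs => by
      have := hasDerivAt_ev i (diffAt (contDiffAt_D i (ha s hs)))
      rwa [show D i (D i f) (s • ev i) = 0 from h2 s hs] at this) t ht
    simpa using this
  have := const_of_deriv (k := fun s : ℝ => f (s • ev i) - s * D i f 0) (r := r) (fun s hs => by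
    have := (hasDerivAt_ev i (diffAt (ha s hs))).fun_sub ((hasDerivAt_id' s).mul_const (D i f 0))
    rwa [e1 s hs, one_mul, sub_self] at this) r ⟨hr, le_rfl⟩
  simp only [zero_smul, zero_mul, sub_zero] at this
  linarith

theorem rigid {r : ℝ} (hr : 0 < r) {U : Set P} (hU : IsOpen U)
    (hB : Metric.closedBall (0 : P) r ⊆ U) {Φ x y z : P → ℝ} (hx : ContDiffOn ℝ ∞ x U)
    (hy : ContDiffOn ℝ ∞ y U) (hz : ContDiffOn ℝ ∞ z U)
    (met : ∀ i j : Bool, ∀ p ∈ U, D i x p * D j x p + D i y p * D j y p + D i z p * D j z p =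
      if i = j then Real.exp (2 * Φ p) else 0)
    (h0 : Φ 0 = 0) (hneg : ∀ p : P, 0 < p.1 → 0 < p.2 → Φ p < 0)
    (h2 : ∀ i : Bool, ∀ t ∈ Icc 0 r, ∀ f ∈ [x, y, z], Ds [i, i] f (t • ev i) = 0) : False := by
  have hm : ∀ i : Bool, ∀ t ∈ Icc 0 r, t • ev i ∈ U := by
    intro i t ht
    apply hB
    rw [mem_closedBall_zero_iff, Prod.norm_def]
    cases i <;> simp [ev, abs_of_nonneg ht.1, ht.2, hr.le]
  have hγ : ∀ t ∈ Icc 0 r, ((0, r) : P) + t • ((1, -1) : P) ∈ U := by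
    intro t ht
    apply hB
    rw [mem_closedBall_zero_iff, Prod.norm_def]
    simp only [Prod.fst_add, Prod.smul_fst, smul_eq_mul, Prod.snd_add, Prod.smul_snd,
      Real.norm_eq_abs, max_le_iff, abs_le]
    refine ⟨⟨?_, ?_⟩, ?_, ?_⟩ <;> linarith [ht.1, ht.2]
  have h0U : (0 : P) ∈ U := hB (Metric.mem_closedBall_self hr.le)
  have key : ∀ f : P → ℝ, ContDiffOn ℝ ∞ f U → f ∈ [x, y, z] →
      f ((0, r) + r • ((1, -1) : P)) - f ((0, r) + (0 : ℝ) • ((1, -1) : P)) =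
        r * (D true f 0 - D false f 0) := by
    intro f hf hmem
    have a := seg hU hf true hr.le (hm true) (fun t ht => h2 true t ht f hmem)
    have b := seg hU hf false hr.le (hm false) (fun t ht => h2 false t ht f hmem)
    have e1 : ((0, r) : P) + r • ((1, -1) : P) = r • ev true := by simp [ev]
    have e2 : ((0, r) : P) + (0 : ℝ) • ((1, -1) : P) = r • ev false := by simp [ev]
    rw [e1, e2]; linarith
  set wx := D true x 0 - D false x 0 with hwx
  set wy := D true y 0 - D false y 0 with hwy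
  set wz := D true z 0 - D false z 0 with hwz
  have hw : wx ^ 2 + wy ^ 2 + wz ^ 2 = 2 := by
    have a := met true true 0 h0U
    have b := met false false 0 h0U
    have c := met true false 0 h0U
    simp only [h0, if_true, mul_zero, Real.exp_zero, Bool.true_eq_false, if_false] at a b c
    rw [hwx, hwy, hwz]; nlinarith
  have hd : ∀ f : P → ℝ, ContDiffOn ℝ ∞ f U → ∀ t ∈ Icc 0 r,
      HasDerivAt (fun s : ℝ => f ((0, r) + s • ((1, -1) : P)))
        (D true f ((0, r) + t • ((1, -1) : P)) - D false f ((0, r) + t • ((1, -1) : P))) t := by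
    intro f hf t ht
    have := hasDerivAt_line (f := f) (0, r) (1, -1) (t := t)
      (diffAt (hf.contDiffAt (hU.mem_nhds (hγ t ht))))
    convert this using 1
    simp only; ring
  obtain ⟨t, ht, hs⟩ := exists_hasDerivAt_eq_slope
    (fun s : ℝ => wx * x ((0, r) + s • ((1, -1) : P)) + wy * y ((0, r) + s • ((1, -1) : P)) +
      wz * z ((0, r) + s • ((1, -1) : P)))
    (fun t : ℝ => wx * (D true x ((0, r) + t • ((1, -1) : P)) - D false x ((0, r) + t • ((1, -1) : P)))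
      + wy * (D true y ((0, r) + t • ((1, -1) : P)) - D false y ((0, r) + t • ((1, -1) : P)))
      + wz * (D true z ((0, r) + t • ((1, -1) : P)) - D false z ((0, r) + t • ((1, -1) : P)))) hr
    (fun t ht => ((((hd x hx t ht).const_mul wx).fun_add ((hd y hy t ht).const_mul wy)).fun_add
      ((hd z hz t ht).const_mul wz)).continuousAt.continuousWithinAt)
    (fun t ht => ((((hd x hx t (Ioo_subset_Icc_self ht)).const_mul wx).fun_add
      ((hd y hy t (Ioo_subset_Icc_self ht)).const_mul wy)).fun_add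
      ((hd z hz t (Ioo_subset_Icc_self ht)).const_mul wz)))
  have kx := key x hx (by simp)
  have ky := key y hy (by simp)
  have kz := key z hz (by simp)
  rw [← hwx] at kx
  rw [← hwy] at ky
  rw [← hwz] at kz
  set p : P := (0, r) + t • ((1, -1) : P) with hp
  have hpU : p ∈ U := hγ t (Ioo_subset_Icc_self ht)
  have hslope : wx * (D true x p - D false x p) + wy * (D true y p - D false y p) +
      wz * (D true z p - D false z p) = 2 := by
    rw [hs, sub_zero, div_eq_iff hr.ne']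
    linear_combination wx * kx + wy * ky + wz * kz + r * hw
  have a := met true true p hpU
  have b := met false false p hpU
  have c := met true false p hpU
  simp only [if_true, Bool.true_eq_false, if_false] at a b c
  have hΦ : Φ p < 0 := hneg p (by simp [hp, ht.1]) (by simp [hp]; linarith [ht.2])
  have he : Real.exp (2 * Φ p) < 1 := Real.exp_lt_one_iff.2 (by linarith)
  nlinarith [sq_nonneg (wx - (D true x p - D false x p)), sq_nonneg (wy - (D true y p - D false y p)),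
    sq_nonneg (wz - (D true z p - D false z p))]

theorem deriv_bound {β : P → ℝ} (hβ : ContDiff ℝ ∞ β) (hc : HasCompactSupport β) (k : ℕ) :
    ∃ C : ℝ, ∀ (a s : ℝ) (c p : P), 0 ≤ a → 0 ≤ s →
      ‖iteratedFDeriv ℝ k (fun p => a * β (s • (p - c))) p‖ ≤ a * (C * s ^ k) := by
  have hk : ContDiff ℝ k β := hβ.of_le (by exact_mod_cast le_top)
  obtain ⟨C, hC⟩ := (hβ.continuous_iteratedFDeriv (m := k)
    (by exact_mod_cast le_top)).bounded_above_of_compact_support (hc.iteratedFDeriv k)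
  refine ⟨C, fun a s c p ha hs => ?_⟩
  have h1 : ContDiff ℝ k (fun q : P => β (s • q)) := hk.comp (contDiff_id.const_smul s)
  have h2 : ContDiff ℝ k (fun q : P => β (s • (q - c))) := h1.comp (contDiff_id.sub contDiff_const)
  have e1 : iteratedFDeriv ℝ k (fun p => a * β (s • (p - c))) p =
      a • iteratedFDeriv ℝ k (fun p => β (s • (p - c))) p :=
    iteratedFDeriv_const_smul_apply' (a := a) h2.contDiffAt
  have e2 : iteratedFDeriv ℝ k (fun p => β (s • (p - c))) p =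
      iteratedFDeriv ℝ k (fun q => β (s • q)) (p - c) :=
    iteratedFDeriv_comp_sub (f := fun q => β (s • q)) k c p
  rw [e1, e2, iteratedFDeriv_comp_const_smul s hk, norm_smul, norm_smul, Real.norm_of_nonneg ha,
    Real.norm_of_nonneg (pow_nonneg hs k), mul_comm C]
  gcongr
  exact hC _

theorem smooth_sum {f : ℕ → P → ℝ} (hf : ∀ j, ContDiff ℝ ∞ (f j))
    (hb : ∀ j, ∀ k ≤ j, ∀ p, ‖iteratedFDeriv ℝ k (f j) p‖ ≤ (1 / 2 : ℝ) ^ j) :
    ContDiff ℝ ∞ fun p => ∑' j, f j p := by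
  refine contDiff_tsum_of_eventually (N := ⊤) (v := fun _ j => (1 / 2 : ℝ) ^ j) hf
    (fun _ _ => summable_geometric_two) fun k _ => ?_
  rw [Nat.cofinite_eq_atTop]
  filter_upwards [eventually_ge_atTop k] with j hj using hb j k hj

theorem ev_small (A : ℕ → ℝ) (j : ℕ) {b : ℝ} (hb : 0 < b) :
    ∀ᶠ d in 𝓝[>] (0 : ℝ), ∀ k ≤ j, d * A k ≤ b := by
  have : ∀ k ∈ Set.Iic j, ∀ᶠ d in 𝓝[>] (0 : ℝ), d * A k ≤ b := by
    intro k _
    have h : Tendsto (fun d : ℝ => d * A k) (𝓝 0) (𝓝 (0 * A k)) :=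
      (continuous_id.mul continuous_const).tendsto 0
    rw [zero_mul] at h
    exact (h.eventually (ge_mem_nhds hb)).filter_mono nhdsWithin_le_nhds
  exact (Filter.eventually_all_finite (Set.finite_Iic j)).2 this

theorem params (hL : LensStmt) (C C' : ℕ → ℝ) (j : ℕ) : ∃ R d e : ℝ, 0 < R ∧
    R ≤ (1 / 2) ^ j / 64 ∧ 0 < d ∧ 0 < e ∧ e ≤ 1 ∧
    (∀ k ≤ j, d * (C k * R⁻¹ ^ k) ≤ (1 / 2) ^ j) ∧
    (∀ k ≤ j, e * (|C' k| * R⁻¹ ^ k) ≤ (1 / 2) ^ j) ∧
    ∀ L M N : P → ℝ, ¬ Hyp (j + 1) (j + 12) R d e L M N := by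
  have hp : (0 : ℝ) < (1 / 2) ^ j := by positivity
  obtain ⟨R, h1, hR⟩ := ((hL (j + 1) (j + 12) (by omega) (by omega)).and
    (Ioc_mem_nhdsGT (show (0 : ℝ) < (1 / 2) ^ j / 64 by positivity))).exists
  obtain ⟨d, h2, hd, hd'⟩ := (h1.and ((Filter.Eventually.and self_mem_nhdsWithin
    (ev_small (fun k => C k * R⁻¹ ^ k) j hp)))).exists
  obtain ⟨e, h3, he, he'⟩ := (h2.and ((Filter.Eventually.and (Ioc_mem_nhdsGT one_pos)
    (ev_small (fun k => |C' k| * R⁻¹ ^ k) j hp)))).exists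
  exact ⟨R, d, e, hR.1, hR.2, hd, he.1, he.2, hd', he', h3⟩

/-- the truncated lens profile -/
noncomputable def S (p : P) : ℝ := Real.smoothTransition (10 - (p.1 ^ 2 + p.2 ^ 2)) * prof p

theorem contDiff_S : ContDiff ℝ ∞ S :=
  (Real.smoothTransition.contDiff.comp (by fun_prop)).mul contDiff_prof

theorem S_eq {p : P} (h : p.1 ^ 2 + p.2 ^ 2 ≤ 9) : S p = prof p := by
  rw [S, Real.smoothTransition.one_of_one_le (by linarith), one_mul]

theorem S_zero {p : P} (h : 4 ≤ ‖p‖) : S p = 0 := by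
  have := norm_sq_le p
  rw [S, Real.smoothTransition.zero_of_nonpos (by nlinarith), zero_mul]

theorem bump_zero (B : ℕ) {ε : ℝ} (h0 : 0 < ε) (h1 : ε ≤ 1) {p : P} (h : 4 ≤ ‖p‖) :
    bump B ε p = 0 := by
  have := norm_sq_le p
  exact bump_eq_zero B h0 (by nlinarith)

theorem compact_of {β : P → ℝ} (h : ∀ p, 4 ≤ ‖p‖ → β p = 0) : HasCompactSupport β :=
  HasCompactSupport.intro (isCompact_closedBall (0 : P) 4) fun p hp =>
    h p (by simpa using (not_le.1 (by simpa using hp : ¬ ‖p‖ ≤ 4)).le)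

/-- the two closed half axes -/
def Ax (a : P) : Prop := (0 ≤ a.1 ∧ a.2 = 0) ∨ (a.1 = 0 ∧ 0 ≤ a.2)

theorem exists_seq : ∃ a : ℕ → P, (∀ j, Ax (a j)) ∧
    ∀ q, Ax q → ∀ η > 0, ∀ n : ℕ, ∃ j ≥ n, dist (a j) q < η := by
  obtain ⟨u, hu⟩ := exists_surjective_nat (ℚ × Bool)
  refine ⟨fun j => |((u j.unpair.1).1 : ℝ)| • ev (u j.unpair.1).2, fun j => ?_, fun q hq η hη n => ?_⟩
  · unfold Ax
    beta_reduce
    cases (u j.unpair.1).2 <;> simp [ev]
  · rcases hq with ⟨h1, h2⟩ | ⟨h1, h2⟩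
    · obtain ⟨t, ht1, ht2⟩ := exists_rat_btwn (show q.1 < q.1 + η by linarith)
      obtain ⟨m, hm⟩ := hu (t, true)
      refine ⟨Nat.pair m n, Nat.right_le_pair _ _, ?_⟩
      simp only [Nat.unpair_pair, hm, Prod.dist_eq, ev, if_true, Prod.smul_fst, Prod.smul_snd,
        smul_eq_mul, mul_one, mul_zero, h2, dist_self, max_lt_iff, Real.dist_eq]
      rw [abs_of_nonneg (by linarith : (0 : ℝ) ≤ t), abs_lt]
      refine ⟨⟨by linarith, by linarith⟩, by simpa using hη⟩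
    · obtain ⟨t, ht1, ht2⟩ := exists_rat_btwn (show q.2 < q.2 + η by linarith)
      obtain ⟨m, hm⟩ := hu (t, false)
      refine ⟨Nat.pair m n, Nat.right_le_pair _ _, ?_⟩
      simp only [Nat.unpair_pair, hm, Prod.dist_eq, ev, Bool.false_eq_true, if_false, Prod.smul_fst,
        Prod.smul_snd, smul_eq_mul, mul_one, mul_zero, h1, dist_self, max_lt_iff, Real.dist_eq]
      rw [abs_of_nonneg (by linarith : (0 : ℝ) ≤ t), abs_lt]
      refine ⟨hη, by linarith, by linarith⟩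

theorem min_bound {a p : P} (ha : Ax a) {s : ℝ} (hp : ‖p - (a - (s, s))‖ < s / 16) :
    -(17 / 16 * s) < min p.1 p.2 ∧ min p.1 p.2 < -(15 / 16 * s) := by
  have h1 := (abs_fst_le _).trans_lt hp
  have h2 := (abs_snd_le _).trans_lt hp
  simp only [Prod.fst_sub, Prod.snd_sub, abs_lt] at h1 h2
  rw [lt_min_iff, min_lt_iff]
  rcases ha with ⟨a1, a2⟩ | ⟨a1, a2⟩
  · exact ⟨⟨by linarith [h1.1], by linarith [h2.1]⟩, Or.inr (by linarith [h2.2])⟩
  · exact ⟨⟨by linarith [h1.1], by linarith [h2.1]⟩, Or.inl (by linarith [h1.2])⟩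

theorem idx_unique {m : ℝ} {i j : ℕ}
    (hi : -(17 / 16 * (1 / 2 : ℝ) ^ i) < m ∧ m < -(15 / 16 * (1 / 2 : ℝ) ^ i))
    (hj : -(17 / 16 * (1 / 2 : ℝ) ^ j) < m ∧ m < -(15 / 16 * (1 / 2 : ℝ) ^ j)) : i = j := by
  have key : ∀ i j : ℕ, i < j → (1 / 2 : ℝ) ^ j ≤ (1 / 2) ^ i / 2 := by
    intro i j h
    calc (1 / 2 : ℝ) ^ j ≤ (1 / 2) ^ (i + 1) := pow_le_pow_of_le_one (by norm_num) (by norm_num) h
      _ = _ := by ring
  have pi : (0 : ℝ) < (1 / 2) ^ i := by positivity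
  have pj : (0 : ℝ) < (1 / 2) ^ j := by positivity
  rcases lt_trichotomy i j with h | h | h
  · have := key i j h; linarith [hi.2, hj.1]
  · exact h
  · have := key j i h; linarith [hi.1, hj.2]

/-- the flat part of the conformal factor -/
noncomputable def eta (p : P) : ℝ := expNegInvGlue p.1 * expNegInvGlue p.2

theorem contDiff_eta : ContDiff ℝ ∞ eta :=
  (expNegInvGlue.contDiff.comp contDiff_fst).mul (expNegInvGlue.contDiff.comp contDiff_snd)

theorem eta_nonneg (p : P) : 0 ≤ eta p :=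
  mul_nonneg (expNegInvGlue.nonneg _) (expNegInvGlue.nonneg _)

theorem eta_pos {p : P} (h1 : 0 < p.1) (h2 : 0 < p.2) : 0 < eta p :=
  mul_pos (expNegInvGlue.pos_of_pos h1) (expNegInvGlue.pos_of_pos h2)

theorem eta_zero {p : P} (h : min p.1 p.2 ≤ 0) : eta p = 0 := by
  rcases min_le_iff.1 h with h | h <;> simp [eta, expNegInvGlue.zero_of_nonpos h]

theorem exists_Phi (hL : LensStmt) : ∃ Φ : P → ℝ, ContDiff ℝ ∞ Φ ∧
    (∀ p : P, 0 ≤ p.1 → 0 ≤ p.2 → Φ p = -eta p) ∧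
    ∀ q, Ax q → ∀ n₀ : ℕ, ∀ η > (0 : ℝ), ∃ n ≥ n₀, ∃ c : P, dist c q < η ∧ ∃ R ∈ Ioo 0 η,
      ∃ (B : ℕ) (δ ε : ℝ), (∀ p : P, p.1 ^ 2 + p.2 ^ 2 ≤ 9 → Φ (c + R • p) = lens B δ ε p) ∧
        ∀ L M N : P → ℝ, ¬ Hyp n B R δ ε L M N := by
  obtain ⟨a, ha, hd⟩ := exists_seq
  choose C hC using deriv_bound contDiff_S (compact_of fun p hp => S_zero hp)
  choose C' hC' using deriv_bound (contDiff_bump 0 1)
    (compact_of fun p hp => bump_zero 0 one_pos le_rfl hp)
  choose R d e hR hR' hd0 he he1 hb hb' hH using params hL C C'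
  set c : ℕ → P := fun j => a j - ((1 / 2) ^ j, (1 / 2) ^ j) with hc
  set f : ℕ → P → ℝ := fun j p => d j * S ((R j)⁻¹ • (p - c j)) with hf
  set g : ℕ → P → ℝ := fun j p => bump (j + 12) (e j) ((R j)⁻¹ • (p - c j)) with hg
  have hlin : ∀ j, ContDiff ℝ ∞ fun p : P => (R j)⁻¹ • (p - c j) := fun j =>
    (contDiff_id.sub contDiff_const).const_smul _
  have sf : ContDiff ℝ ∞ fun p => ∑' j, f j p := by
    refine smooth_sum (fun j => contDiff_const.mul (contDiff_S.comp (hlin j))) fun j k hk p => ?_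
    exact (hC k _ _ _ _ (hd0 j).le (inv_pos.2 (hR j)).le).trans (hb j k hk)
  have sg : ContDiff ℝ ∞ fun p => ∑' j, g j p := by
    refine smooth_sum (fun j => (contDiff_bump _ _).comp (hlin j)) fun j k hk p => ?_
    have e1 : g j = fun p => e j ^ (j + 12) * bump 0 1 (((e j)⁻¹ * (R j)⁻¹) • (p - c j)) := by
      funext p
      simp only [hg]
      rw [bump_eq_scale _ (he j)]
      simp only [zero_add, smul_smul]
    have hej := he j
    have hRj := hR j
    rw [e1]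
    refine (hC' k _ _ _ _ (by positivity) (by positivity)).trans (le_trans ?_ (hb' j k hk))
    have h1 : e j ^ (j + 12) * (e j)⁻¹ ^ k ≤ e j := by
      obtain ⟨m, hm⟩ : ∃ m, j + 12 = k + (m + 1) := ⟨j + 11 - k, by omega⟩
      rw [hm, pow_add, mul_right_comm, ← mul_pow, mul_inv_cancel₀ hej.ne', one_pow, one_mul,
        pow_succ]
      exact mul_le_of_le_one_left hej.le (pow_le_one₀ hej.le (he1 j))
    calc e j ^ (j + 12) * (C' k * ((e j)⁻¹ * (R j)⁻¹) ^ k)
        ≤ e j ^ (j + 12) * (|C' k| * ((e j)⁻¹ * (R j)⁻¹) ^ k) := by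
          gcongr; exact le_abs_self _
      _ = (e j ^ (j + 12) * (e j)⁻¹ ^ k) * (|C' k| * (R j)⁻¹ ^ k) := by rw [mul_pow]; ring
      _ ≤ _ := by gcongr
  have van : ∀ j p, ¬ (-(17 / 16 * (1 / 2 : ℝ) ^ j) < min p.1 p.2 ∧
      min p.1 p.2 < -(15 / 16 * (1 / 2 : ℝ) ^ j)) → f j p = 0 ∧ g j p = 0 := by
    intro j p hp
    have h1 : (1 / 2 : ℝ) ^ j / 16 ≤ ‖p - c j‖ := not_lt.1 fun h => hp (min_bound (ha j) h)
    have h2 : 4 ≤ ‖(R j)⁻¹ • (p - c j)‖ := by
      rw [norm_smul, Real.norm_of_nonneg (inv_pos.2 (hR j)).le, le_inv_mul_iff₀ (hR j)]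
      linarith [hR' j]
    exact ⟨by simp only [hf]; rw [S_zero h2, mul_zero], bump_zero _ (he j) (he1 j) h2⟩
  refine ⟨fun p => -eta p + (∑' j, f j p) + ∑' j, g j p, (contDiff_eta.neg.add sf).add sg,
    fun p h1 h2 => ?_, fun q hq n₀ η hη => ?_⟩
  · have : ∀ j, f j p = 0 ∧ g j p = 0 := fun j => van j p fun h => by
      have : (0 : ℝ) < (1 / 2) ^ j := by positivity
      linarith [h.2, le_min h1 h2]
    simp [fun j => (this j).1, fun j => (this j).2]
  · obtain ⟨n₁, hn₁⟩ := exists_pow_lt_of_lt_one (half_pos hη) (show (1 / 2 : ℝ) < 1 by norm_num)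
    obtain ⟨j, hj, hjq⟩ := hd q hq (η / 2) (half_pos hη) (max n₀ n₁)
    have hp : (0 : ℝ) < (1 / 2) ^ j := by positivity
    have hj1 : (1 / 2 : ℝ) ^ j < η / 2 := lt_of_le_of_lt
      (pow_le_pow_of_le_one (by norm_num) (by norm_num) ((le_max_right _ _).trans hj)) hn₁
    refine ⟨j + 1, by have := (le_max_left _ _).trans hj; omega, c j, ?_, R j,
      ⟨hR j, by linarith [hR' j]⟩, j + 12, d j, e j, fun p hp9 => ?_, hH j⟩
    · have : dist (c j) (a j) = (1 / 2 : ℝ) ^ j := by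
        rw [dist_eq_norm, hc]
        simp [Prod.norm_def]
      linarith [dist_triangle (c j) (a j) q]
    · have hn : ‖p‖ ≤ 3 := by
        have := norm_sq_le p
        nlinarith [norm_nonneg p]
      have hm := min_bound (p := c j + R j • p) (ha j) (s := (1 / 2) ^ j) (by
        change ‖c j + R j • p - c j‖ < _
        rw [add_sub_cancel_left, norm_smul, Real.norm_of_nonneg (hR j).le]
        nlinarith [hR j, hR' j])
      have hv : ∀ i ≠ j, f i (c j + R j • p) = 0 ∧ g i (c j + R j • p) = 0 := fun i hi =>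
        van i _ fun h => hi (idx_unique h hm)
      have e0 : (R j)⁻¹ • (c j + R j • p - c j) = p := by
        rw [add_sub_cancel_left, smul_smul, inv_mul_cancel₀ (hR j).ne', one_smul]
      show -eta _ + (∑' i, f i _) + ∑' i, g i _ = _
      rw [eta_zero (by linarith [hm.2]), tsum_eq_single j fun i hi => (hv i hi).1,
        tsum_eq_single j fun i hi => (hv i hi).2]
      simp only [hf, hg, e0, S_eq hp9, lens, neg_zero, zero_add]

theorem fderiv_zero {Φ : P → ℝ} (hΦ : ContDiff ℝ ∞ Φ)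
    (hQ : ∀ p : P, 0 ≤ p.1 → 0 ≤ p.2 → Φ p = -eta p) {q : P} (hq : Ax q) : fderiv ℝ Φ q = 0 := by
  have hq1 : 0 ≤ q.1 := by rcases hq with h | h <;> linarith [h.1]
  have hq2 : 0 ≤ q.2 := by rcases hq with h | h <;> linarith [h.2]
  have h0 : eta q = 0 := eta_zero (by
    rcases hq with h | h
    · exact (min_le_right _ _).trans h.2.le
    · exact (min_le_left _ _).trans h.1.le)
  have hmin : IsLocalMin eta q := Filter.Eventually.of_forall fun p => h0 ▸ eta_nonneg p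
  have h1 : HasFDerivAt eta (0 : P →L[ℝ] ℝ) q :=
    hmin.fderiv_eq_zero ▸ (diffAt contDiff_eta.contDiffAt).hasFDerivAt
  have hu : UniqueDiffOn ℝ (Ici (0 : ℝ) ×ˢ Ici (0 : ℝ)) := (uniqueDiffOn_Ici 0).prod (uniqueDiffOn_Ici 0)
  have h2 : HasFDerivWithinAt Φ (-(0 : P →L[ℝ] ℝ)) (Ici (0 : ℝ) ×ˢ Ici (0 : ℝ)) q :=
    h1.fun_neg.hasFDerivWithinAt.congr (fun p hp => hQ p hp.1 hp.2) (hQ q hq1 hq2)
  rw [neg_zero] at h2
  exact hu.eq ⟨hq1, hq2⟩ (diffAt hΦ.contDiffAt).hasFDerivAt.hasFDerivWithinAt h2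

/-- the statement in the plane `ℝ × ℝ` -/
theorem plane (hG : GCStmt) (hS : ScaleStmt) (hL : LensStmt) : ∃ Φ : P → ℝ, ContDiff ℝ ∞ Φ ∧
    ∀ (U : Set P) (x y z : P → ℝ), IsOpen U → (0 : P) ∈ U → ContDiffOn ℝ ∞ x U →
      ContDiffOn ℝ ∞ y U → ContDiffOn ℝ ∞ z U →
      ¬ ∀ i j : Bool, ∀ p ∈ U, D i x p * D j x p + D i y p * D j y p + D i z p * D j z p =
        if i = j then Real.exp (2 * Φ p) else 0 := by
  obtain ⟨Φ, hΦ, hQ, hl⟩ := exists_Phi hL
  refine ⟨Φ, hΦ, fun U x y z hU h0 hx hy hz met => ?_⟩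
  obtain ⟨L, M, N, sL, sM, sN, hgc, hz2⟩ := hG U Φ x y z hU hΦ hx hy hz met
  obtain ⟨r, hr, hB⟩ := Metric.nhds_basis_closedBall.mem_iff.1 (hU.mem_nhds h0)
  have hvan : ∀ q ∈ U, Ax q → L q = 0 ∧ M q = 0 ∧ N q = 0 := by
    intro q hq hA
    by_contra hne
    obtain ⟨n₀, η, hη, h⟩ := hS U Φ L M N q hU hΦ sL sM sN hgc hq hne
    obtain ⟨n, hn, c, hc, R, hR, B, δ, ε, he, hH⟩ := hl q hA n₀ η hη
    obtain ⟨L', M', N', h'⟩ := h n hn c hc R hR B δ ε he
    exact hH L' M' N' h'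
  refine rigid hr hU hB hx hy hz met ?_ (fun p h1 h2 => ?_) fun i t ht f hf => ?_
  · rw [hQ 0 le_rfl le_rfl, eta_zero (by simp), neg_zero]
  · rw [hQ p h1.le h2.le]; linarith [eta_pos h1 h2]
  · have hm : t • ev i ∈ U := by
      apply hB
      rw [mem_closedBall_zero_iff, Prod.norm_def]
      cases i <;> simp [ev, abs_of_nonneg ht.1, ht.2, hr.le]
    have hA : Ax (t • ev i) := by
      unfold Ax
      cases i <;> simp [ev, ht.1]
    obtain ⟨a, b, c⟩ := hvan _ hm hA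
    have hf0 := fderiv_zero hΦ hQ hA
    exact hz2 _ hm a b c (by simp [D, hf0]) (by simp [D, hf0]) i i f hf

/-- the identification of `ℝ × ℝ` with the Euclidean plane -/
noncomputable def iota : P →L[ℝ] EuclideanSpace ℝ (Fin 2) :=
  (ContinuousLinearMap.fst ℝ ℝ ℝ).smulRight (EuclideanSpace.single 0 1) +
    (ContinuousLinearMap.snd ℝ ℝ ℝ).smulRight (EuclideanSpace.single 1 1)

theorem iota_zero (p : P) : iota p 0 = p.1 := by simp [iota]
theorem iota_one (p : P) : iota p 1 = p.2 := by simp [iota]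

/-- the Euclidean inner product as a bilinear map -/
noncomputable def ip : EuclideanSpace ℝ (Fin 2) →L[ℝ] EuclideanSpace ℝ (Fin 2) →L[ℝ] ℝ := innerSL ℝ

theorem ip_apply (v w : EuclideanSpace ℝ (Fin 2)) : ip v w = inner ℝ v w := rfl

end C

theorem global (hG : GCStmt) (hS : ScaleStmt) (hL : LensStmt) : MainStmt := by
  obtain ⟨Φ, hΦ, h⟩ := C.plane hG hS hL
  refine ⟨fun x => Real.exp (2 * Φ (x 0, x 1)) • C.ip, ?_, fun x _ v w => ?_,
    fun x _ v hv => ?_, fun U hU h0 _ ⟨F, hF, hm⟩ => ?_⟩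
  · have h1 : ContDiff ℝ ∞ fun x : EuclideanSpace ℝ (Fin 2) => Real.exp (2 * Φ (x 0, x 1)) :=
      (contDiff_const.mul (hΦ.comp (by fun_prop))).exp
    refine ContDiff.contDiffOn (contDiff_clm_apply_iff.2 fun v => contDiff_clm_apply_iff.2 fun w => ?_)
    exact h1.mul (contDiff_const (c := C.ip v w))
  · simp only [smul_apply, C.ip_apply, real_inner_comm]
  · simp only [smul_apply, C.ip_apply, smul_eq_mul]
    exact mul_pos (Real.exp_pos _) (real_inner_self_pos.2 hv)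
  · have hc : ∀ k : Fin 3, ContDiffOn ℝ ∞ (fun p : P => F (C.iota p) k) (C.iota ⁻¹' U) := fun k =>
      (EuclideanSpace.proj k : EuclideanSpace ℝ (Fin 3) →L[ℝ] ℝ).contDiff.comp_contDiffOn
        (hF.comp C.iota.contDiff.contDiffOn fun _ hp => hp)
    have hD : ∀ (k : Fin 3) (i : Bool), ∀ p ∈ C.iota ⁻¹' U,
        D i (fun p : P => F (C.iota p) k) p = fderiv ℝ F (C.iota p) (C.iota (ev i)) k := by
      intro k i p hp
      have h1 : HasFDerivAt F (fderiv ℝ F (C.iota p)) (C.iota p) :=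
        ((hF.contDiffAt (hU.mem_nhds hp)).differentiableAt (by simp)).hasFDerivAt
      exact D_of_hasFDerivAt i
        ((EuclideanSpace.proj k : EuclideanSpace ℝ (Fin 3) →L[ℝ] ℝ).hasFDerivAt.comp p
          (h1.comp p C.iota.hasFDerivAt))
    refine h (C.iota ⁻¹' U) _ _ _ (hU.preimage C.iota.continuous) (by simpa using h0) (hc 0) (hc 1)
      (hc 2) fun i j p hp => ?_
    have := hm (C.iota p) hp (C.iota (ev j)) (C.iota (ev i))
    simp only [smul_apply, C.ip_apply, smul_eq_mul, PiLp.inner_apply,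
      Fin.sum_univ_three, Fin.sum_univ_two, C.iota_zero, C.iota_one, RCLike.inner_apply,
      conj_trivial] at this
    simp only [hD _ _ p hp]
    rw [this]
    cases i <;> cases j <;> simp [ev]

end Crest.Agent.R220
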