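import Crest.Agent.R220.En2
import Crest.Agent.R220.Coer

/-! Row 220: the two families of multipliers. -/

set_option autoImplicit false
open scoped ContDiff Topology
open Set MeasureTheory Filter Asymptotics

namespace Crest.Agent.R220

variable {ι : Type}

noncomputable def cf (h : ι → ℝ) (e : Sm ι) : Sm ι :=
  Sm.comp (fun i => ff (h i)) (fun i => contDiff_ff (h i)) e
noncomputable def cs (h : ι → ℝ) (e : Sm ι) : Sm ι :=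
  Sm.comp (fun i t => Real.smoothTransition (t / h i))
    (fun i => Real.smoothTransition.contDiff.comp (contDiff_id.div_const (h i))) e

@[simp] theorem cf_apply (h : ι → ℝ) (e : Sm ι) (t : ι × Om) : (cf h e).1 t = ff (h t.1) (e.1 t) :=
  Sm.comp_apply _ _ _ _
@[simp] theorem cs_apply (h : ι → ℝ) (e : Sm ι) (t : ι × Om) :
    (cs h e).1 t = Real.smoothTransition (e.1 t / h t.1) := Sm.comp_apply _ _ _ _

theorem d_cf (j : Bool) (h : ι → ℝ) (e : Sm ι) : Sm.d j (cf h e) = cs h e * Sm.d j e :=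
  Subtype.ext <| funext fun t => by
    rw [cf, Sm.d_comp, deriv_ff]; simp

/-- closeness to the model -/
structure Near {B : ℕ} (Z : Setup ι B) (n η om : ℝ) : Prop where
  v0 : ∀ t, 0 < Z.S.v.1 t
  vn : ∀ t, Z.S.v.1 t ≤ n
  Ln : ∀ t, Z.S.L.1 t ≤ n
  u : ∀ t, |Z.S.u.1 t| ≤ η
  u1 : ∀ t, |(Sm.d true Z.S.u).1 t| ≤ η
  v1 : ∀ j t, |(Sm.d j Z.S.v).1 t| ≤ η
  f : ∀ j (t : ι × Om), rr t.2 ≤ 1 → |(Z.S.G [j]).1 t| ≤ om ^ 2
  K : ∀ t : ι × Om, rr t.2 ≤ 1 → |Z.S.K.1 t - om ^ 2 * (2 * rr t.2 - 1)| ≤ η * om ^ 2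
  K1 : ∀ t : ι × Om, rr t.2 ≤ 1 → |(Sm.d true Z.S.K).1 t - om ^ 2 * (4 * t.2.1.1)| ≤ η * om ^ 2
  K2 : ∀ t : ι × Om, rr t.2 ≤ 1 → |(Sm.d false Z.S.K).1 t - om ^ 2 * (4 * t.2.1.2)| ≤ η * om ^ 2

/-- the pointwise inequality holds for the closeness parameter `η` -/
def CoerAt (n m η : ℝ) : Prop :=
    ∀ om k L v u u1 v1 v2 f1 f2 K K1 K2 x y σ φ γ γ' θ : ℝ, 0 < om → om ≤ η → 0 ≤ k → k ≤ m →
      L * v = 1 → 0 < v → v ≤ n → L ≤ n → |u| ≤ η → |u1| ≤ η → |v1| ≤ η → |v2| ≤ η →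
      |f1| ≤ om ^ 2 → |f2| ≤ om ^ 2 → |K - om ^ 2 * (2 * (x ^ 2 + y ^ 2) - 1)| ≤ η * om ^ 2 →
      |K1 - om ^ 2 * (4 * x)| ≤ η * om ^ 2 → |K2 - om ^ 2 * (4 * y)| ≤ η * om ^ 2 → |x| ≤ 1 → |y| ≤ 1 →
      0 ≤ σ → |φ| ≤ 10 * σ → |γ| ≤ σ → 0 ≤ γ' → γ' ≤ σ / 2 → |θ| ≤ om / (40 * n) * σ →
      σ / 10 ≤ 4 * (2 * k + 3) * φ * (x + u * y) + 4 * γ * y - (σ - γ') * (2 * (x ^ 2 + y ^ 2) - 1) →
      ∀ a b : ℝ, om ^ 2 / (40 * n) * σ * (a ^ 2 + b ^ 2) ≤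
        Re.cA k v u K K1 K2 f1 f2 φ (σ * (v * (1 + u1 * y))) (v * γ) (v * γ' + γ * (v2 - u * v1)) * a ^ 2
        + Re.cB k v u K f1 f2 φ (σ * (v * (1 + u1 * y))) (v * γ) (v * γ' + γ * (v2 - u * v1)) * b ^ 2
        + 2 * Re.cC k v u K K1 f1 f2 φ (σ * Re.Ys v u v1 K K1 f1 f2 y + θ) (v * γ) (γ * (v * v1)) * a * b

theorem coerAt (n m : ℝ) (hn : 1 ≤ n) (hm : 0 ≤ m) : ∀ᶠ η in 𝓝[>] (0 : ℝ), CoerAt n m η :=
  Re.coer n m hn hm

theorem abs_le_one_of_rr {p : P} (h : rr p ≤ 1) : |p.1| ≤ 1 ∧ |p.2| ≤ 1 := by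
  unfold rr at h
  exact ⟨abs_le_of_sq_le_sq (by nlinarith) zero_le_one, abs_le_of_sq_le_sq (by nlinarith) zero_le_one⟩

noncomputable def gam : Sm ι := Sm.par (fun _ => 1 / 2) *
  (cf (fun _ => 1 / 16) (Sm.cy - Sm.par fun _ => 1 / 16) - cf (fun _ => 1 / 16) (-Sm.cy - Sm.par fun _ => 1 / 16))
noncomputable def gam' : Sm ι := Sm.par (fun _ => 1 / 2) *
  (cs (fun _ => 1 / 16) (Sm.cy - Sm.par fun _ => 1 / 16) + cs (fun _ => 1 / 16) (-Sm.cy - Sm.par fun _ => 1 / 16))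

theorem gam_apply (t : ι × Om) : (gam : Sm ι).1 t = 1 / 2 * tw (1 / 16) (1 / 16) t.2.1.2 := by
  simp [gam, tw]
theorem gam'_apply (t : ι × Om) : (gam' : Sm ι).1 t = 1 / 2 * sg (1 / 16) (1 / 16) t.2.1.2 := by
  simp [gam', sg]
theorem d_gam_true : Sm.d true (gam : Sm ι) = 0 := by
  simp only [gam, Sys.leib, map_sub, map_neg, d_cf, Sm.d_par, Sm.d_cy_true]; ring
theorem d_gam_false : Sm.d false (gam : Sm ι) = gam' := by
  simp only [gam, gam', Sys.leib, map_sub, map_neg, d_cf, Sm.d_par, Sm.d_cy_false]; ring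

theorem abs_gam_le (t : ι × Om) : |(gam : Sm ι).1 t| ≤ |t.2.1.2| := by
  rw [gam_apply, abs_mul, abs_of_pos (by norm_num : (0 : ℝ) < 1 / 2)]
  have h := abs_tw_le (h := 1 / 16) (by norm_num) (1 / 16) t.2.1.2
  rcases le_total |t.2.1.2| (1 / 16) with h1 | h1
  · rw [sg_zero (by norm_num) h1] at h; linarith [abs_nonneg t.2.1.2]
  · have := sg_le_one (h := 1 / 16) (τ := 1 / 16) (by norm_num) (by norm_num) t.2.1.2
    rw [abs_of_pos (by norm_num : (0 : ℝ) < 1 / 16)] at h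
    nlinarith

namespace Setup

variable {B : ℕ} (Z : Setup ι B)

noncomputable def s : Sm ι := Sm.cx + Z.S.u * Sm.cy

theorem s_apply (t : ι × Om) : Z.s.1 t = t.2.1.1 + Z.S.u.1 t * t.2.1.2 := rfl

theorem X_cf (h : ι → ℝ) (e : Sm ι) : Z.S.X (cf h e) = cs h e * Z.S.X e := by
  rw [Sys.X_apply, Sys.X_apply, Z.hd, d_cf]; ring
theorem Y_cf (h : ι → ℝ) (e : Sm ι) : Z.S.Y (cf h e) = cs h e * Z.S.Y e := by
  rw [Sys.Y_apply, Sys.Y_apply, Z.hd, d_cf, d_cf]; ring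
theorem X_par (c : ι → ℝ) : Z.S.X (Sm.par c) = 0 := by rw [Sys.X_apply, Z.hd, Sm.d_par, mul_zero]
theorem Y_par (c : ι → ℝ) : Z.S.Y (Sm.par c) = 0 := by
  rw [Sys.Y_apply, Z.hd, Sm.d_par, Sm.d_par, mul_zero, sub_zero]
theorem X_cy : Z.S.X Sm.cy = 0 := by rw [Sys.X_apply, Z.hd, Sm.d_cy_true, mul_zero]
theorem Y_cy : Z.S.Y Sm.cy = 1 := by
  rw [Sys.Y_apply, Z.hd, Sm.d_cy_true, Sm.d_cy_false, mul_zero, sub_zero]

theorem X_s : Z.S.X Z.s = Z.S.v * (1 + Sm.d true Z.S.u * Sm.cy) := by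
  rw [Sys.X_apply, Z.hd, s, map_add, Sys.leib, Sm.d_cx_true, Sm.d_cy_true]; ring

theorem Y_s : Z.S.Y Z.s = Sm.cy * (Z.S.v * (Z.S.v * Sm.d true Z.S.K) - Z.S.ψ * Z.S.H
    + Z.S.K * (Z.S.v * Sm.d true Z.S.v)) := by
  have h := Z.S.F2_zero
  unfold Sys.F2 at h
  rw [Sys.a_zero, Sys.b_zero, Sys.X_apply, Sys.X_apply, Z.hd] at h
  rw [s, map_add, Sys.leib, Y_cy, Z.S.Y_apply Sm.cx, Z.hd, Sm.d_cx_true, Sm.d_cx_false]
  linear_combination Sm.cy * h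

theorem pos_of {n η om : ℝ} (hn : 1 ≤ n) (hN : Near Z n η om) (hc : CoerAt n B η) (hη : η ≤ 1 / 1000)
    (om0 : 0 < om) (omη : om ≤ η) {k : ℕ} (hk : k ≤ B) {φ σ : Sm ι} (hX : Z.S.X φ = σ * Z.S.X Z.s)
    (hY : ∀ t, |(Z.S.Y φ - σ * Z.S.Y Z.s).1 t| ≤ om / (40 * n) * σ.1 t)
    (σ0 : ∀ t, 0 ≤ σ.1 t) (σ2 : ∀ t, σ.1 t ≤ 2) (h1 : ∀ t : ι × Om, rr t.2 ≤ 1 → |φ.1 t| ≤ 10 * σ.1 t)
    (h2 : ∀ t, 0 ≤ φ.1 t * Z.s.1 t) (h3 : ∀ t : ι × Om, rr t.2 ≤ 1 → Z.s.1 t ^ 2 - η ≤ φ.1 t * Z.s.1 t)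
    (h4 : ∀ t : ι × Om, 1 / 16 ≤ |t.2.1.2| → 1 ≤ σ.1 t) :
    ∃ c > 0, ∀ t : ι × Om, rr t.2 ≤ 7 / 10 → ∀ a b : ℝ, c * σ.1 t * (a ^ 2 + b ^ 2) ≤
      (Z.S.cA k φ (Z.S.v * gam)).1 t * a ^ 2 + (Z.S.cB k φ (Z.S.v * gam)).1 t * b ^ 2
        + 2 * (Z.S.cC k φ (Z.S.v * gam)).1 t * a * b := by
  refine ⟨om ^ 2 / (40 * n), by positivity, fun t ht a b => ?_⟩
  have ht1 : rr t.2 ≤ 1 := ht.trans (by norm_num)
  obtain ⟨hx, hy⟩ := abs_le_one_of_rr ht1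
  have hL : Z.S.L.1 t * Z.S.v.1 t = 1 := congrArg (fun e : Sm ι => e.1 t) Z.S.hv
  have g1 : |(gam : Sm ι).1 t| ≤ σ.1 t ∧ (gam' : Sm ι).1 t ≤ σ.1 t / 2 := by
    rcases le_total |t.2.1.2| (1 / 16) with h | h
    · have := abs_tw_le (h := 1 / 16) (by norm_num) (1 / 16) t.2.1.2
      rw [gam_apply, gam'_apply, abs_mul]
      rw [sg_zero (by norm_num) h] at this ⊢
      have := σ0 t
      constructor <;> nlinarith [abs_nonneg (1 / 2 : ℝ)]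
    · have := sg_le_one (h := 1 / 16) (τ := 1 / 16) (by norm_num) (by norm_num) t.2.1.2
      have := h4 t h
      exact ⟨(abs_gam_le t).trans (by linarith), by rw [gam'_apply]; linarith⟩
  have g2 : 0 ≤ (gam' : Sm ι).1 t := by rw [gam'_apply]; have := sg_nonneg (1 / 16) (1 / 16) t.2.1.2; linarith
  have key := hc om k (Z.S.L.1 t) (Z.S.v.1 t) (Z.S.u.1 t) ((Sm.d true Z.S.u).1 t)
    ((Sm.d true Z.S.v).1 t) ((Sm.d false Z.S.v).1 t) ((Z.S.G [true]).1 t) ((Z.S.G [false]).1 t)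
    (Z.S.K.1 t) ((Sm.d true Z.S.K).1 t) ((Sm.d false Z.S.K).1 t) t.2.1.1 t.2.1.2 (σ.1 t) (φ.1 t)
    ((gam : Sm ι).1 t) ((gam' : Sm ι).1 t) ((Z.S.Y φ - σ * Z.S.Y Z.s).1 t) om0 omη (Nat.cast_nonneg _)
    (by exact_mod_cast hk) hL (hN.v0 t) (hN.vn t) (hN.Ln t) (hN.u t) (hN.u1 t) (hN.v1 _ t) (hN.v1 _ t)
    (hN.f _ t ht1) (hN.f _ t ht1) (hN.K t ht1) (hN.K1 t ht1) (hN.K2 t ht1) hx hy (σ0 t) (h1 t ht1) g1.1 g2
    g1.2 (hY t) (Re.main_part (η := η) (Nat.cast_nonneg _) ?_ hη ht (h2 t) ?_ ?_ g2 g1.2 (σ2 t)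
      (h3 t ht1)) a b
  · have eXg : Z.S.X (Z.S.v * gam) = gam * (Z.S.v * Sm.d true Z.S.v) := by
      rw [Sys.X_apply, Z.hd, Sys.leib, d_gam_true]; ring
    have eYg : Z.S.Y (Z.S.v * gam) =
        Z.S.v * gam' + gam * (Sm.d false Z.S.v - Z.S.u * Sm.d true Z.S.v) := by
      rw [Sys.Y_apply, Z.hd, Sys.leib, Sys.leib, d_gam_true, d_gam_false]; ring
    have eY : Z.S.Y φ = σ * Z.S.Y Z.s + (Z.S.Y φ - σ * Z.S.Y Z.s) := by ring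
    have eXK : Z.S.X Z.S.K = Z.S.v * Sm.d true Z.S.K := by rw [Sys.X_apply, Z.hd]
    have eYK : Z.S.Y Z.S.K = Sm.d false Z.S.K - Z.S.u * Sm.d true Z.S.K := by rw [Sys.Y_apply, Z.hd]
    generalize Z.S.Y φ - σ * Z.S.Y Z.s = θ at key eY
    unfold Sys.cA Sys.cB Sys.cC Sys.β1
    rw [eXg, eYg, eY, hX, X_s, Y_s, eXK, eYK]
    exact key
  · rw [add_sub_cancel_left, abs_mul]
    exact (mul_le_mul (hN.u t) hy (abs_nonneg _) ((abs_nonneg _).trans (hN.u t))).trans_eq (mul_one _)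
  · have := le_tw_mul (h := 1 / 16) (τ := 1 / 16) (m := 1 / 16) (by norm_num) (by norm_num) le_rfl t.2.1.2
    rw [gam_apply]; linarith
  · have := tw_mul_nonneg (1 / 16) (1 / 16) t.2.1.2
    rw [gam_apply]; linarith

theorem abs_s_le {n η om : ℝ} (hN : Near Z n η om) (hη : η ≤ 1 / 1000) (t : ι × Om) :
    |Z.s.1 t - t.2.1.1| ≤ |t.2.1.2| := by
  rw [s_apply, add_sub_cancel_left, abs_mul]
  exact mul_le_of_le_one_left (abs_nonneg _) ((hN.u t).trans (by linarith))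

theorem abs_s_le' {n η om : ℝ} (hN : Near Z n η om) (hη : η ≤ 1 / 1000) (t : ι × Om) :
    |Z.s.1 t| ≤ |t.2.1.1| + |t.2.1.2| := by
  have := abs_add_le (Z.s.1 t - t.2.1.1) t.2.1.1
  rw [sub_add_cancel] at this
  linarith [Z.abs_s_le hN hη t]

theorem abs_K_le {n η om : ℝ} (hN : Near Z n η om) (hη : η ≤ 1 / 1000) (om0 : 0 < om) (omη : om ≤ η)
    (t : ι × Om) (ht : rr t.2 ≤ 1) : |Z.S.K.1 t| ≤ 1 := by
  have h := abs_le.1 (hN.K t ht)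
  have : 0 ≤ rr t.2 := by unfold rr; positivity
  have h2 : om ^ 2 ≤ 1 / 1000 := by nlinarith
  rw [abs_le]; constructor <;> nlinarith [sq_nonneg om]

theorem sq_g_le {n η om : ℝ} (hN : Near Z n η om) (t : ι × Om) {c : ℝ} (h : |(gam : Sm ι).1 t| ≤ c) :
    (Z.S.v * gam).1 t ^ 2 ≤ n ^ 2 * c ^ 2 := by
  change (Z.S.v.1 t * (gam : Sm ι).1 t) ^ 2 ≤ _
  rw [mul_pow, ← sq_abs ((gam : Sm ι).1 t)]
  have := hN.v0 t
  have := hN.vn t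
  gcongr

theorem bd_g {n η om : ℝ} (hn : 1 ≤ n) (hN : Near Z n η om) : Bd 1 (Z.S.v * gam) :=
  Bd.of n fun t ht => abs_le_of_sq_le_sq (by
    simpa using Z.sq_g_le hN t ((abs_gam_le t).trans (abs_le_one_of_rr ht).2)) (by linarith)

theorem coer1 {n η om : ℝ} (hn : 1 ≤ n) (hN : Near Z n η om) (hc : CoerAt n B η) (hη : η ≤ 1 / 1000)
    (om0 : 0 < om) (omη : om ≤ η) (k : ℕ) (hk : k + 1 ≤ B) :
    Coer Z k Z.s (Z.S.v * gam) 1 (Sm.par (fun _ => 2 * n ^ 2) * (Sm.cx ^ 2 + Sm.cy ^ 2)) := by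
  have hW : ∀ t : ι × Om, (Sm.par (fun _ => 2 * n ^ 2) * (Sm.cx ^ 2 + Sm.cy ^ 2) : Sm ι).1 t =
    2 * n ^ 2 * rr t.2 := fun t => rfl
  have r0 : ∀ p, 0 ≤ rr p := fun p => by unfold rr; positivity
  have n2 : 1 ≤ n ^ 2 := one_le_pow₀ hn
  have hs : ∀ t : ι × Om, rr t.2 ≤ 1 → |Z.s.1 t| ≤ 2 := fun t ht => by
    have := abs_le_one_of_rr ht
    linarith [Z.abs_s_le' hN hη t]
  have hg : ∀ t : ι × Om, (Z.S.v * gam).1 t ^ 2 ≤ 1 * (2 * n ^ 2 * rr t.2) := fun t => by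
    have := Z.sq_g_le hN t (abs_gam_le t)
    rw [sq_abs] at this
    unfold rr; nlinarith [sq_nonneg t.2.1.1, sq_nonneg t.2.1.2]
  refine ⟨Bd.of 2 hs, Z.bd_g hn hN, Bd.of (2 * n ^ 2) fun t ht => ?_, fun _ => zero_le_one,
    fun t => ?_, fun t ht => ?_, fun t _ => hg t, fun t ht => ?_, ?_, 4 * n ^ 2, by positivity,
    fun t ht => ?_⟩
  · rw [hW, abs_of_nonneg (by have := r0 t.2; positivity)]; nlinarith
  · rw [hW]; have := r0 t.2; positivity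
  · have h := pow_le_pow_left₀ (abs_nonneg _) (Z.abs_s_le' hN hη t) 2
    rw [sq_abs] at h
    change _ ≤ 1 * (2 * n ^ 2 * rr t.2)
    have h2 : (|t.2.1.1| + |t.2.1.2|) ^ 2 ≤ 2 * rr t.2 := by
      unfold rr; rw [← sq_abs t.2.1.1, ← sq_abs t.2.1.2]; nlinarith [sq_nonneg (|t.2.1.1| - |t.2.1.2|)]
    nlinarith [r0 t.2]
  · rw [mul_pow]
    refine le_trans (mul_le_of_le_one_right (sq_nonneg _) ?_) (hg t)
    rw [← sq_abs]; exact pow_le_one₀ (abs_nonneg _) (Z.abs_K_le hN hη om0 omη t ht)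
  · refine Z.pos_of hn hN hc hη om0 omη (by omega) (one_mul _).symm (fun t => ?_) (fun _ => zero_le_one)
      (fun _ => one_le_two) (fun t ht => (hs t ht).trans (by norm_num)) (fun t => mul_self_nonneg _)
      (fun t _ => by nlinarith) fun _ _ => le_rfl
    rw [one_mul, sub_self]
    simp only [ZeroMemClass.coe_zero, Pi.zero_apply, abs_zero, OneMemClass.coe_one, Pi.one_apply]
    positivity
  · have h1 := Z.rr_of_ind ht
    have e0 := Z.ε0 t.1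
    have h2 : ((Z.ε t.1)⁻¹ ^ (k + 3 - B)) ^ 2 ≤ ((Z.ε t.1)⁻¹ ^ 2) ^ 2 := by
      gcongr
      · exact Z.one_le_inv _
      · omega
    rw [hW]
    calc _ ≤ 2 * n ^ 2 * (2 * Z.ε t.1 ^ 2) * ((Z.ε t.1)⁻¹ ^ 2) ^ 2 := by gcongr
      _ = _ := by field_simp; ring

/-- the boundary of the hole -/
noncomputable def τ (c : ℝ) : Sm ι :=
  Sm.par (fun i => 3 * Z.ε i) - Sm.par (fun _ => c) * (cf Z.ε Sm.cy + cf Z.ε (-Sm.cy))
noncomputable def φh (c : ℝ) : Sm ι := cf Z.ε (Z.s - Z.τ c) - cf Z.ε (-Z.s - Z.τ c)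
noncomputable def σh (c : ℝ) : Sm ι := cs Z.ε (Z.s - Z.τ c) + cs Z.ε (-Z.s - Z.τ c)

theorem φh_apply (c : ℝ) (t : ι × Om) : (Z.φh c).1 t = tw (Z.ε t.1) ((Z.τ c).1 t) (Z.s.1 t) := by
  simp [φh, tw]
theorem σh_apply (c : ℝ) (t : ι × Om) : (Z.σh c).1 t = sg (Z.ε t.1) ((Z.τ c).1 t) (Z.s.1 t) := by
  simp [σh, sg]

theorem τ_bounds {c : ℝ} (c0 : 0 ≤ c) (t : ι × Om) : 3 * Z.ε t.1 - c * |t.2.1.2| ≤ (Z.τ c).1 t ∧
    (Z.τ c).1 t ≤ 3 * Z.ε t.1 - c * (|t.2.1.2| - Z.ε t.1) ∧ (Z.τ c).1 t ≤ 3 * Z.ε t.1 := by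
  have e : (Z.τ c).1 t = 3 * Z.ε t.1 - c * (ff (Z.ε t.1) t.2.1.2 + ff (Z.ε t.1) (-t.2.1.2)) := by
    simp [τ]
  have e0 := Z.ε0 t.1
  have h : ff (Z.ε t.1) t.2.1.2 + ff (Z.ε t.1) (-t.2.1.2) = ff (Z.ε t.1) |t.2.1.2| := by
    rcases le_total 0 t.2.1.2 with h | h
    · rw [abs_of_nonneg h, ff_zero e0 (neg_nonpos.2 h), add_zero]
    · rw [abs_of_nonpos h, ff_zero e0 h, zero_add]
  rw [e, h]
  have h1 := ff_le' e0 |t.2.1.2|
  rw [abs_abs] at h1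
  have h2 := le_ff e0 |t.2.1.2|
  have h3 := ff_nonneg e0 |t.2.1.2|
  exact ⟨by gcongr, by gcongr, by nlinarith⟩

theorem σh_zero {n η om c : ℝ} (hN : Near Z n η om) (hη : η ≤ 1 / 1000) (c0 : 0 ≤ c) (c1 : c ≤ 1)
    (t : ι × Om) (ht : ind Z.ε t ≠ 0) : (Z.σh c).1 t = 0 := by
  have h : ‖(t.2 : P)‖ ≤ Z.ε t.1 := by
    by_contra h'; exact ht (if_neg h')
  have h1 := (abs_fst_le _).trans h
  have h2 := (abs_snd_le _).trans h
  rw [σh_apply]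
  refine sg_zero (Z.ε0 _) ?_
  have := (Z.τ_bounds c0 t).1
  have := Z.abs_s_le' hN hη t
  have := mul_le_of_le_one_left (abs_nonneg t.2.1.2) c1
  linarith

theorem one_le_σh {n η om c : ℝ} (hN : Near Z n η om) (hη : η ≤ 1 / 1000) (c0 : 0 < c)
    (t : ι × Om) (ht : (5 + 4 / c) * Z.ε t.1 ≤ ‖(t.2 : P)‖) : 1 ≤ (Z.σh c).1 t := by
  rw [σh_apply]
  have e0 := Z.ε0 t.1
  refine one_le_sg e0 ?_
  obtain ⟨-, h1, h2⟩ := Z.τ_bounds c0.le t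
  rcases le_total (4 * Z.ε t.1) (c * (|t.2.1.2| - Z.ε t.1)) with h | h
  · linarith [abs_nonneg (Z.s.1 t)]
  · have h3 : |t.2.1.2| ≤ (1 + 4 / c) * Z.ε t.1 := by
      have : |t.2.1.2| - Z.ε t.1 ≤ 4 / c * Z.ε t.1 := by
        rw [div_mul_eq_mul_div, le_div_iff₀ c0]; linarith
      linarith
    have h4 : ‖(t.2 : P)‖ = |t.2.1.1| := by
      rw [Prod.norm_def] at ht ⊢
      rcases le_total ‖t.2.1.1‖ ‖t.2.1.2‖ with h | h
      · rw [max_eq_right h, Real.norm_eq_abs] at ht; nlinarith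
      · rw [max_eq_left h, Real.norm_eq_abs]
    have h5 := Z.abs_s_le hN hη t
    have h6 := abs_sub_abs_le_abs_sub t.2.1.1 (Z.s.1 t)
    rw [abs_sub_comm] at h6
    nlinarith

theorem coer2 {n η om : ℝ} (hn : 1 ≤ n) (hN : Near Z n η om) (hc : CoerAt n B η) (hη : η ≤ 1 / 1000)
    (om0 : 0 < om) (omη : om ≤ η) (h8 : ∀ i, 8 * Z.ε i ≤ η)
    (hΛ : ∀ i, (5 + 4 / (om / (40 * n))) * Z.ε i ≤ 1 / 16) :
    Coer Z B (Z.φh (om / (40 * n))) (Z.S.v * gam) (Z.σh (om / (40 * n)))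
      (Sm.par (fun _ => 100 * n ^ 2) * Z.σh (om / (40 * n))) := by
  obtain ⟨c, hcdef⟩ : ∃ c, c = om / (40 * n) := ⟨_, rfl⟩
  have c0 : 0 < c := by rw [hcdef]; positivity
  have c1 : c ≤ 1 := by rw [hcdef, div_le_one (by positivity)]; linarith
  have hY0 : ∀ t, |(Z.S.Y (Z.φh c) - Z.σh c * Z.S.Y Z.s).1 t| ≤ c * (Z.σh c).1 t := by
    intro t
    have e : Z.S.Y (Z.φh c) - Z.σh c * Z.S.Y Z.s = Sm.par (fun _ => c) *
        ((cs Z.ε Sm.cy - cs Z.ε (-Sm.cy)) * (cs Z.ε (Z.s - Z.τ c) - cs Z.ε (-Z.s - Z.τ c))) := by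
      have : Z.S.Y (Z.τ c) = -(Sm.par (fun _ => c) * (cs Z.ε Sm.cy - cs Z.ε (-Sm.cy))) := by
        simp only [τ, map_sub, map_add, map_neg, Sys.leib, Y_cf, Y_par, Y_cy]; ring
      simp only [φh, σh, map_sub, map_neg, Y_cf, this]; ring
    rw [e, σh]
    simp only [MulMemClass.coe_mul, Pi.mul_apply, Sm.par_apply, AddSubgroupClass.coe_sub, Pi.sub_apply,
      cs_apply, Subalgebra.coe_add, Pi.add_apply, abs_mul, abs_of_pos c0]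
    gcongr
    generalize (Z.s.1 t - (Z.τ c).1 t) / Z.ε t.1 = a1
    generalize ((-Z.s).1 t - (Z.τ c).1 t) / Z.ε t.1 = a2
    generalize (Sm.cy : Sm ι).1 t / Z.ε t.1 = a3
    generalize (-Sm.cy : Sm ι).1 t / Z.ε t.1 = a4
    have := Real.smoothTransition.nonneg a1
    have := Real.smoothTransition.nonneg a2
    have := Real.smoothTransition.nonneg a3
    have := Real.smoothTransition.nonneg a4
    have := Real.smoothTransition.le_one a3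
    have := Real.smoothTransition.le_one a4
    refine (mul_le_of_le_one_left (abs_nonneg _) (abs_le.2 ⟨by linarith, by linarith⟩)).trans
      (abs_le.2 ⟨by linarith, by linarith⟩)
  rw [← hcdef] at hΛ ⊢
  have σ0 : ∀ t, 0 ≤ (Z.σh c).1 t := fun t => by rw [σh_apply]; exact sg_nonneg _ _ _
  have σ2 : ∀ t, (Z.σh c).1 t ≤ 2 := fun t => by rw [σh_apply]; exact sg_le _ _ _
  have hW : ∀ t : ι × Om, (Sm.par (fun _ => 100 * n ^ 2) * Z.σh c : Sm ι).1 t =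
    100 * n ^ 2 * (Z.σh c).1 t := fun t => rfl
  have n2 : 1 ≤ n ^ 2 := one_le_pow₀ hn
  have hs : ∀ t : ι × Om, rr t.2 ≤ 1 → |Z.s.1 t| ≤ 2 := fun t ht => by
    have := abs_le_one_of_rr ht
    linarith [Z.abs_s_le' hN hη t]
  have h1 : ∀ t : ι × Om, rr t.2 ≤ 1 → |(Z.φh c).1 t| ≤ 10 * (Z.σh c).1 t := fun t ht => by
    rw [φh_apply, σh_apply]
    refine (abs_tw_le (Z.ε0 _) _ _).trans (mul_le_mul_of_nonneg_right ?_ (sg_nonneg _ _ _))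
    obtain ⟨a1, -, a2⟩ := Z.τ_bounds c0.le t
    have := Z.ε0 t.1
    have := Z.ε1 t.1
    have := mul_le_one₀ c1 (abs_nonneg _) (abs_le_one_of_rr ht).2
    have : |(Z.τ c).1 t| ≤ 1 := abs_le.2 ⟨by linarith, by linarith⟩
    linarith [hs t ht]
  have h4 : ∀ t : ι × Om, 1 / 16 ≤ |t.2.1.2| → 1 ≤ (Z.σh c).1 t := fun t ht =>
    Z.one_le_σh hN hη c0 t ((hΛ _).trans (ht.trans (abs_snd_le _)))
  have hg : ∀ t : ι × Om, rr t.2 ≤ 1 →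
      (Z.S.v * gam).1 t ^ 2 ≤ (Z.σh c).1 t * (100 * n ^ 2 * (Z.σh c).1 t) := fun t ht => by
    have : |(gam : Sm ι).1 t| ≤ (Z.σh c).1 t := by
      rcases le_total |t.2.1.2| (1 / 16) with h | h
      · have := abs_tw_le (h := 1 / 16) (by norm_num) (1 / 16) t.2.1.2
        rw [gam_apply, abs_mul]
        rw [sg_zero (by norm_num) h] at this
        have := σ0 t
        nlinarith [abs_nonneg (1 / 2 : ℝ)]
      · exact (abs_gam_le t).trans ((abs_le_one_of_rr ht).2.trans (h4 t h))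
    have := Z.sq_g_le hN t this
    nlinarith [sq_nonneg (n * (Z.σh c).1 t)]
  refine ⟨Bd.of 20 fun t ht => by linarith [h1 t ht, σ2 t], Z.bd_g hn hN,
    Bd.of (200 * n ^ 2) fun t ht => ?_, σ0,
    fun t => ?_, fun t ht => ?_, hg, fun t ht => ?_, ?_, 0, le_rfl, fun t ht => ?_⟩
  · rw [hW, abs_of_nonneg (by have := σ0 t; positivity)]; nlinarith [σ2 t]
  · rw [hW]; have := σ0 t; positivity
  · have h := pow_le_pow_left₀ (abs_nonneg _) (h1 t ht) 2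
    rw [sq_abs] at h
    rw [hW]; nlinarith [sq_nonneg ((Z.σh c).1 t)]
  · rw [mul_pow]
    refine le_trans (mul_le_of_le_one_right (sq_nonneg _) ?_) (hg t ht)
    rw [← sq_abs]; exact pow_le_one₀ (abs_nonneg _) (Z.abs_K_le hN hη om0 omη t ht)
  · refine Z.pos_of hn hN hc hη om0 omη le_rfl ?_ (hcdef ▸ hY0) σ0 σ2 h1 (fun t => ?_) (fun t ht => ?_) h4
    · have : Z.S.X (Z.τ c) = 0 := by
        simp only [τ, map_sub, map_add, map_neg, Sys.leib, X_cf, X_par, X_cy]; ring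
      simp only [φh, σh, map_sub, map_neg, X_cf, this]; ring
    · rw [φh_apply]; exact tw_mul_nonneg _ _ _
    · rw [φh_apply]
      have e0 := Z.ε0 t.1
      have := le_tw_mul e0 (by positivity) (Z.τ_bounds c0.le t).2.2 (Z.s.1 t)
      nlinarith [hs t ht, h8 t.1]
  · rw [hW, Z.σh_zero hN hη c0.le c1 t ht]; simp

end Setup

end Crest.Agent.R220
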