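import Crest.Agent.R220.Basic

/-! Row 220, part B: rescaling and rotating. -/

set_option autoImplicit false
open scoped ContDiff Topology
open Set Filter Metric

namespace Crest.Agent.R220

namespace B

theorem exists_cut {U : Set P} (hU : IsOpen U) {q : P} {r : ℝ} (hr : 0 < r)
    (hsub : closedBall q (2 * r) ⊆ U) {f : P → ℝ} (hf : ContDiffOn ℝ ∞ f U) :
    ∃ g : P → ℝ, ContDiff ℝ ∞ g ∧ ∀ x ∈ closedBall q r, g x = f x := by
  let χ : ContDiffBump q := ⟨r, 2 * r, hr, by linarith⟩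
  refine ⟨fun x => χ x * f x, contDiff_iff_contDiffAt.2 fun x => ?_, fun x hx => ?_⟩
  · by_cases hx : x ∈ U
    · exact χ.contDiffAt.mul (hf.contDiffAt (hU.mem_nhds hx))
    · have h1 : x ∉ tsupport χ := by
        rw [χ.tsupport_eq]; exact fun h => hx (hsub h)
      have h2 : (fun x => χ x * f x) =ᶠ[𝓝 x] fun _ => 0 := by
        filter_upwards [notMem_tsupport_iff_eventuallyEq.1 h1] with y hy
        simp [hy]
      exact contDiffAt_const.congr_of_eventuallyEq h2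
  · show χ x * f x = f x
    rw [χ.one_of_mem_closedBall hx, one_mul]

/-- the rotation -/
def rot (a b : ℝ) (p : P) : P := (a * p.1 - b * p.2, b * p.1 + a * p.2)

/-- the similarity -/
def T (c : P) (R a b : ℝ) (p : P) : P := c + R • rot a b p

theorem contDiff_T (c : P) (R a b : ℝ) : ContDiff ℝ ∞ (T c R a b) := by
  unfold T rot; fun_prop

theorem fderiv_apply (f : P → ℝ) (p v : P) :
    fderiv ℝ f p v = v.1 * D true f p + v.2 * D false f p := by
  have : v = v.1 • ev true + v.2 • ev false := by ext <;> simp [ev]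
  conv_lhs => rw [this]
  simp [D]

theorem D_T {f : P → ℝ} (hf : ContDiff ℝ ∞ f) (c : P) (R a b : ℝ) (i : Bool) :
    D i (fun q => f (T c R a b q)) = fun p =>
      (R * cond i a (-b)) * D true f (T c R a b p) + (R * cond i b a) * D false f (T c R a b p) := by
  funext p
  let A : P →L[ℝ] P :=
    (a • ContinuousLinearMap.fst ℝ ℝ ℝ - b • ContinuousLinearMap.snd ℝ ℝ ℝ).prod
      (b • ContinuousLinearMap.fst ℝ ℝ ℝ + a • ContinuousLinearMap.snd ℝ ℝ ℝ)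
  have h1 : HasFDerivAt (T c R a b) (R • A) p := by
    have : T c R a b = fun q => c + R • A q := by
      funext q; simp [T, rot, A]
    rw [this]
    exact (A.hasFDerivAt.const_smul R).const_add c
  have h2 := (diffAt (hf.contDiffAt (x := T c R a b p))).hasFDerivAt.comp p h1
  refine (D_of_hasFDerivAt i h2).trans ?_
  rw [ContinuousLinearMap.comp_apply, fderiv_apply]
  cases i <;> simp [A, ev]

theorem Ds_T_bound (c : P) {R a b C : ℝ} (hR : 0 ≤ R) (ha : |a| ≤ 1) (hb : |b| ≤ 1) (p : P)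
    (l : List Bool) : ∀ {f : P → ℝ}, ContDiff ℝ ∞ f →
      (∀ l' : List Bool, l'.length = l.length → |Ds l' f (T c R a b p)| ≤ C) →
      |Ds l (fun q => f (T c R a b q)) p| ≤ (2 * R) ^ l.length * C := by
  induction l using List.reverseRecOn with
  | nil => intro f _ h; simpa using h [] rfl
  | append_singleton l i ih =>
    intro f hf h
    have hT := contDiff_T c R a b
    have s1 : ContDiff ℝ ∞ fun q => D true f (T c R a b q) := (contDiff_D true hf).comp hT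
    have s2 : ContDiff ℝ ∞ fun q => D false f (T c R a b q) := (contDiff_D false hf).comp hT
    have e : Ds (l ++ [i]) (fun q => f (T c R a b q)) p =
        (R * cond i a (-b)) * Ds l (fun q => D true f (T c R a b q)) p +
        (R * cond i b a) * Ds l (fun q => D false f (T c R a b q)) p := by
      rw [Ds_append]
      show Ds l (D i fun q => f (T c R a b q)) p = _
      rw [D_T hf, Ds_add l (contDiff_const.mul s1) (contDiff_const.mul s2), Ds_const_mul l _ s1,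
        Ds_const_mul l _ s2]
    have hk : ∀ j, |Ds l (fun q => D j f (T c R a b q)) p| ≤ (2 * R) ^ l.length * C := by
      intro j
      refine ih (contDiff_D j hf) fun l' hl' => ?_
      have := h (l' ++ [j]) (by simp [hl'])
      rwa [Ds_append] at this
    have c1 : |R * cond i a (-b)| ≤ R := by
      rw [abs_mul, abs_of_nonneg hR]
      exact mul_le_of_le_one_right hR (by cases i <;> simpa)
    have c2 : |R * cond i b a| ≤ R := by
      rw [abs_mul, abs_of_nonneg hR]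
      exact mul_le_of_le_one_right hR (by cases i <;> simpa)
    rw [e, List.length_append, List.length_singleton, pow_succ]
    refine (abs_add_le _ _).trans ?_
    rw [abs_mul, abs_mul (R * cond i b a)]
    have t1 := mul_le_mul c1 (hk true) (abs_nonneg _) hR
    have t2 := mul_le_mul c2 (hk false) (abs_nonneg _) hR
    linarith

/-- linear combination of three functions -/
def cb (α β γ : ℝ) (L M N : P → ℝ) (x : P) : ℝ := α * L x + β * M x + γ * N x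

theorem contDiff_cb (α β γ : ℝ) {L M N : P → ℝ} (hL : ContDiff ℝ ∞ L) (hM : ContDiff ℝ ∞ M)
    (hN : ContDiff ℝ ∞ N) : ContDiff ℝ ∞ (cb α β γ L M N) :=
  ((contDiff_const.mul hL).add (contDiff_const.mul hM)).add (contDiff_const.mul hN)

theorem Ds_cb (l : List Bool) (α β γ : ℝ) {L M N : P → ℝ} (hL : ContDiff ℝ ∞ L)
    (hM : ContDiff ℝ ∞ M) (hN : ContDiff ℝ ∞ N) :
    Ds l (cb α β γ L M N) = cb α β γ (Ds l L) (Ds l M) (Ds l N) := by
  unfold cb
  rw [Ds_add l ((contDiff_const.mul hL).add (contDiff_const.mul hM)) (contDiff_const.mul hN),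
    Ds_add l (contDiff_const.mul hL) (contDiff_const.mul hM), Ds_const_mul l _ hL,
    Ds_const_mul l _ hM, Ds_const_mul l _ hN]

theorem abs_cb {α β γ C : ℝ} {L M N : P → ℝ} {x : P} (hα : |α| ≤ 1) (hβ : |β| ≤ 1) (hγ : |γ| ≤ 1)
    (hL : |L x| ≤ C) (hM : |M x| ≤ C) (hN : |N x| ≤ C) : |cb α β γ L M N x| ≤ 3 * C := by
  unfold cb
  have h : ∀ {u v : ℝ}, |u| ≤ 1 → |v| ≤ C → |u * v| ≤ C := fun {u v} hu hv => by
    rw [abs_mul]; exact (mul_le_of_le_one_left (abs_nonneg _) hu).trans hv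
  have := abs_add_le (α * L x + β * M x) (γ * N x)
  have := abs_add_le (α * L x) (β * M x)
  linarith [h hα hL, h hβ hM, h hγ hN]

theorem gc_T {Φ φ L M N : P → ℝ} (hΦ : ContDiff ℝ ∞ Φ) (hL : ContDiff ℝ ∞ L)
    (hM : ContDiff ℝ ∞ M) (hN : ContDiff ℝ ∞ N) (c : P) {R a b s : ℝ} (hab : a ^ 2 + b ^ 2 = 1)
    (hs : s ^ 2 = 1) {p : P} (h : GC 1 Φ L M N (T c R a b p))
    (hφ : φ =ᶠ[𝓝 p] fun q => Φ (T c R a b q)) :
    GC (R ^ 2) φ (fun q => cb (s * a ^ 2) (s * (2 * a * b)) (s * b ^ 2) L M N (T c R a b q))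
      (fun q => cb (s * -(a * b)) (s * (a ^ 2 - b ^ 2)) (s * (a * b)) L M N (T c R a b q))
      (fun q => cb (s * b ^ 2) (s * -(2 * a * b)) (s * a ^ 2) L M N (T c R a b q)) p := by
  have hD : ∀ (j : Bool) (α β γ : ℝ), D j (cb α β γ L M N) = cb α β γ (D j L) (D j M) (D j N) :=
    fun j α β γ => Ds_cb [j] α β γ hL hM hN
  have e0 : φ p = Φ (T c R a b p) := hφ.eq_of_nhds
  have e1 : ∀ i, D i φ p = _ := fun i => (D_congr i hφ).eq_of_nhds.trans
    (congrFun (D_T hΦ c R a b i) p)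
  have hT := contDiff_T c R a b
  have e2 : ∀ i, Ds [i, i] φ p =
      (R * cond i a (-b)) * ((R * cond i a (-b)) * D true (D true Φ) (T c R a b p) +
        (R * cond i b a) * D false (D true Φ) (T c R a b p)) +
      (R * cond i b a) * ((R * cond i a (-b)) * D false (D true Φ) (T c R a b p) +
        (R * cond i b a) * D false (D false Φ) (T c R a b p)) := by
    intro i
    have s1 : ContDiff ℝ ∞ fun q => D true Φ (T c R a b q) := (contDiff_D true hΦ).comp hT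
    have s2 : ContDiff ℝ ∞ fun q => D false Φ (T c R a b q) := (contDiff_D false hΦ).comp hT
    rw [(Ds_congr [i, i] hφ).eq_of_nhds]
    show D i (D i fun q => Φ (T c R a b q)) p = _
    rw [D_T hΦ, D_add i (diffAt (contDiff_const.mul s1).contDiffAt)
      (diffAt (contDiff_const.mul s2).contDiffAt), D_const_mul i _ (diffAt s1.contDiffAt),
      D_const_mul i _ (diffAt s2.contDiffAt), D_T (contDiff_D true hΦ), D_T (contDiff_D false hΦ)]
    simp only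
    rw [D_comm true false hΦ.contDiffAt]
  have c1 := h.c1
  have c2 := h.c2
  have ga : 1 * _ = -(_ * (D true (D true Φ) _ + D false (D false Φ) _)) := h.ga
  refine ⟨?_, ?_, ?_⟩
  · rw [D_T (contDiff_cb _ _ _ hL hM hN), D_T (contDiff_cb _ _ _ hL hM hN), e1]
    simp only [hD, cb, cond]
    linear_combination (s * R * a * (a ^ 2 + b ^ 2)) * c1 + (s * R * b * (a ^ 2 + b ^ 2)) * c2
  · rw [D_T (contDiff_cb _ _ _ hL hM hN), D_T (contDiff_cb _ _ _ hL hM hN), e1]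
    simp only [hD, cb, cond]
    linear_combination (-(s * R * b * (a ^ 2 + b ^ 2))) * c1 + (s * R * a * (a ^ 2 + b ^ 2)) * c2
  · rw [e2, e2, e0]
    simp only [cb, cond]
    linear_combination (R ^ 2 * (a ^ 2 + b ^ 2)) * ga +
      R ^ 2 * (a ^ 2 + b ^ 2) * (L (T c R a b p) * N (T c R a b p) - M (T c R a b p) ^ 2) *
        (s ^ 2 * hab + hs)

theorem exists_rot (L M N : ℝ) : ∃ a b s : ℝ, a ^ 2 + b ^ 2 = 1 ∧ s ^ 2 = 1 ∧
    s * -(a * b) * L + s * (a ^ 2 - b ^ 2) * M + s * (a * b) * N = 0 ∧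
    0 ≤ s * a ^ 2 * L + s * (2 * a * b) * M + s * b ^ 2 * N ∧
    L ^ 2 + 2 * M ^ 2 + N ^ 2 ≤ 2 * (s * a ^ 2 * L + s * (2 * a * b) * M + s * b ^ 2 * N) ^ 2 := by
  obtain ⟨a, b, hab, h0⟩ : ∃ a b : ℝ, a ^ 2 + b ^ 2 = 1 ∧
      -(a * b) * L + (a ^ 2 - b ^ 2) * M + (a * b) * N = 0 := by
    let f : ℝ → ℝ := fun θ => -(Real.cos θ * Real.sin θ) * L +
      (Real.cos θ ^ 2 - Real.sin θ ^ 2) * M + (Real.cos θ * Real.sin θ) * N
    have hf : ContinuousOn f (uIcc 0 (Real.pi / 2)) := by fun_prop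
    have h0 : (0 : ℝ) ∈ uIcc (f 0) (f (Real.pi / 2)) := by
      simp only [f, Real.cos_zero, Real.sin_zero, Real.cos_pi_div_two, Real.sin_pi_div_two]
      rcases le_total 0 M with h | h
      · exact mem_uIcc.2 (Or.inr ⟨by linarith, by linarith⟩)
      · exact mem_uIcc.2 (Or.inl ⟨by linarith, by linarith⟩)
    obtain ⟨θ, -, hθ⟩ := intermediate_value_uIcc hf h0
    exact ⟨Real.cos θ, Real.sin θ, Real.cos_sq_add_sin_sq θ, hθ⟩
  obtain ⟨a, b, hab, h0, h1⟩ : ∃ a b : ℝ, a ^ 2 + b ^ 2 = 1 ∧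
      -(a * b) * L + (a ^ 2 - b ^ 2) * M + (a * b) * N = 0 ∧
      L ^ 2 + 2 * M ^ 2 + N ^ 2 ≤ 2 * (a ^ 2 * L + (2 * a * b) * M + b ^ 2 * N) ^ 2 := by
    have key : (a ^ 2 * L + (2 * a * b) * M + b ^ 2 * N) ^ 2 +
        (b ^ 2 * L - (2 * a * b) * M + a ^ 2 * N) ^ 2 = L ^ 2 + 2 * M ^ 2 + N ^ 2 := by
      linear_combination (L ^ 2 + 2 * M ^ 2 + N ^ 2) * (a ^ 2 + b ^ 2 + 1) * hab -
        2 * (-(a * b) * L + (a ^ 2 - b ^ 2) * M + (a * b) * N) * h0
    rcases le_total ((b ^ 2 * L - (2 * a * b) * M + a ^ 2 * N) ^ 2)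
      ((a ^ 2 * L + (2 * a * b) * M + b ^ 2 * N) ^ 2) with h | h
    · exact ⟨a, b, hab, h0, by linarith⟩
    · refine ⟨-b, a, by linarith, by linarith, ?_⟩
      have : ((-b) ^ 2 * L + 2 * -b * a * M + a ^ 2 * N) =
        (b ^ 2 * L - (2 * a * b) * M + a ^ 2 * N) := by ring
      rw [this]; linarith
  rcases le_total 0 (a ^ 2 * L + (2 * a * b) * M + b ^ 2 * N) with h | h
  · exact ⟨a, b, 1, hab, by norm_num, by linarith, by linarith, by simpa using h1⟩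
  · refine ⟨a, b, -1, hab, by norm_num, by linarith, by linarith, ?_⟩
    have : (-1 * a ^ 2 * L + -1 * (2 * a * b) * M + -1 * b ^ 2 * N) ^ 2 =
      (a ^ 2 * L + (2 * a * b) * M + b ^ 2 * N) ^ 2 := by ring
    rw [this]; exact h1

theorem lip {g : P → ℝ} (hg : ContDiff ℝ ∞ g) {K : ℝ} (hK0 : 0 ≤ K)
    (hK : ∀ i, ∀ p ∈ Om, |D i g p| ≤ K) {p : P} (hp : p ∈ Om) : |g p - g 0| ≤ 4 * K := by
  have h0 : (0 : P) ∈ Om := mem_ball_self two_pos
  have h := (convex_ball (0 : P) 2).norm_image_sub_le_of_norm_fderiv_le (𝕜 := ℝ) (f := g)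
    (C := 2 * K) (fun x _ => diffAt hg.contDiffAt) (fun x hx => ?_) h0 hp
  · have h2 : ‖p‖ < 2 := by simpa [Om] using hp
    rw [Real.norm_eq_abs, sub_zero] at h
    nlinarith
  · refine ContinuousLinearMap.opNorm_le_bound _ (by positivity) fun v => ?_
    rw [fderiv_apply, Real.norm_eq_abs]
    refine (abs_add_le _ _).trans ?_
    rw [abs_mul, abs_mul]
    have t1 := mul_le_mul (abs_fst_le v) (hK true x hx) (abs_nonneg _) (norm_nonneg _)
    have t2 := mul_le_mul (abs_snd_le v) (hK false x hx) (abs_nonneg _) (norm_nonneg _)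
    linarith

theorem exists_bound {f : P → ℝ} (hf : ContDiff ℝ ∞ f) {K : Set P} (hK : IsCompact K) (k : ℕ) :
    ∃ C : ℝ, 0 ≤ C ∧ ∀ l : List Bool, l.length ≤ k → ∀ p ∈ K, |Ds l f p| ≤ C := by
  choose C hC0 hC using fun l => Ds_bound_of_compact l hf hK
  have hfin : {l : List Bool | l.length ≤ k}.Finite := List.finite_length_le Bool k
  refine ⟨∑ l ∈ hfin.toFinset, C l, Finset.sum_nonneg fun l _ => hC0 l, fun l hl p hp => ?_⟩
  exact (hC l p hp).trans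
    (Finset.single_le_sum (fun l _ => hC0 l) (hfin.mem_toFinset.2 hl))

theorem rot_sq {a b : ℝ} (hab : a ^ 2 + b ^ 2 = 1) (p : P) :
    (rot a b p).1 ^ 2 + (rot a b p).2 ^ 2 = p.1 ^ 2 + p.2 ^ 2 := by
  simp only [rot]; linear_combination (p.1 ^ 2 + p.2 ^ 2) * hab

theorem lens_rot {a b : ℝ} (hab : a ^ 2 + b ^ 2 = 1) (B : ℕ) (δ ε : ℝ) (p : P) :
    lens B δ ε (rot a b p) = lens B δ ε p := by
  simp only [lens, prof, bump, rot_sq hab]

theorem sq_lt_of_Om {p : P} (hp : p ∈ Om) : p.1 ^ 2 + p.2 ^ 2 ≤ 9 := by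
  have h2 : ‖p‖ < 2 := by simpa [Om] using hp
  have h3 := abs_fst_le p
  have h4 := abs_snd_le p
  nlinarith [sq_abs p.1, sq_abs p.2, abs_nonneg p.1, abs_nonneg p.2]

theorem GC_congr {Φ L M N L' M' N' : P → ℝ} {p : P} (h : GC 1 Φ L M N p) (hL : L' =ᶠ[𝓝 p] L)
    (hM : M' =ᶠ[𝓝 p] M) (hN : N' =ᶠ[𝓝 p] N) : GC 1 Φ L' M' N' p := by
  refine ⟨?_, ?_, ?_⟩
  · rw [(D_congr _ hL).eq_of_nhds, (D_congr _ hM).eq_of_nhds, hL.eq_of_nhds, hN.eq_of_nhds]
    exact h.c1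
  · rw [(D_congr _ hM).eq_of_nhds, (D_congr _ hN).eq_of_nhds, hL.eq_of_nhds, hN.eq_of_nhds]
    exact h.c2
  · rw [hL.eq_of_nhds, hM.eq_of_nhds, hN.eq_of_nhds]
    exact h.ga

theorem coef {a b s : ℝ} (hab : a ^ 2 + b ^ 2 = 1) (hs : s ^ 2 = 1) :
    |a| ≤ 1 ∧ |b| ≤ 1 ∧ |s * a ^ 2| ≤ 1 ∧ |s * b ^ 2| ≤ 1 ∧ |s * (2 * a * b)| ≤ 1 ∧
      |s * -(2 * a * b)| ≤ 1 ∧ |s * (a * b)| ≤ 1 ∧ |s * -(a * b)| ≤ 1 ∧
      |s * (a ^ 2 - b ^ 2)| ≤ 1 := by
  have hs1 : |s| = 1 :=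
    (sq_eq_sq₀ (abs_nonneg s) zero_le_one).1 (by rw [sq_abs, hs]; norm_num)
  have k : ∀ {u : ℝ}, |u| ≤ 1 → |s * u| ≤ 1 := fun {u} hu => by rw [abs_mul, hs1, one_mul]; exact hu
  refine ⟨?_, ?_, k ?_, k ?_, k ?_, k ?_, k ?_, k ?_, k ?_⟩
  · rw [← sq_le_one_iff_abs_le_one]; nlinarith [sq_nonneg b]
  · rw [← sq_le_one_iff_abs_le_one]; nlinarith [sq_nonneg a]
  · rw [abs_of_nonneg (sq_nonneg a)]; nlinarith [sq_nonneg b]
  · rw [abs_of_nonneg (sq_nonneg b)]; nlinarith [sq_nonneg a]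
  · exact abs_le.2 ⟨by nlinarith [sq_nonneg (a + b)], by nlinarith [sq_nonneg (a - b)]⟩
  · exact abs_le.2 ⟨by nlinarith [sq_nonneg (a - b)], by nlinarith [sq_nonneg (a + b)]⟩
  · exact abs_le.2 ⟨by nlinarith [sq_nonneg (a + b)], by nlinarith [sq_nonneg (a - b)]⟩
  · exact abs_le.2 ⟨by nlinarith [sq_nonneg (a - b)], by nlinarith [sq_nonneg (a + b)]⟩
  · exact abs_le.2 ⟨by nlinarith [sq_nonneg a], by nlinarith [sq_nonneg b]⟩

theorem norm_rot {a b : ℝ} (hab : a ^ 2 + b ^ 2 = 1) {p : P} (hp : p ∈ Om) : ‖rot a b p‖ ≤ 3 := by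
  have h1 := norm_sq_le (rot a b p)
  rw [rot_sq hab] at h1
  have := sq_lt_of_Om hp
  nlinarith [norm_nonneg (rot a b p)]

theorem core {Φ L M N : P → ℝ} {q : P} {r : ℝ} (hr : 0 < r) (hΦ : ContDiff ℝ ∞ Φ)
    (hL : ContDiff ℝ ∞ L) (hM : ContDiff ℝ ∞ M) (hN : ContDiff ℝ ∞ N)
    (hgc : ∀ p ∈ ball q r, GC 1 Φ L M N p) (hq : ¬ (L q = 0 ∧ M q = 0 ∧ N q = 0)) :
    ∃ n₀ : ℕ, ∃ η > (0 : ℝ), ∀ n ≥ n₀, ∀ c : P, dist c q < η → ∀ R ∈ Ioo 0 η,
      ∀ (B : ℕ) (δ ε : ℝ), (∀ p : P, p.1 ^ 2 + p.2 ^ 2 ≤ 9 → Φ (c + R • p) = lens B δ ε p) →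
        ∃ L' M' N' : P → ℝ, Hyp n B R δ ε L' M' N' := by
  obtain ⟨C₁, h₁, b₁⟩ := exists_bound hL (isCompact_closedBall q r) 7
  obtain ⟨C₂, h₂, b₂⟩ := exists_bound hM (isCompact_closedBall q r) 7
  obtain ⟨C₃, h₃, b₃⟩ := exists_bound hN (isCompact_closedBall q r) 7
  obtain ⟨C, hC⟩ : ∃ C : ℝ, C = C₁ + C₂ + C₃ + 1 := ⟨_, rfl⟩
  have hC0 : 1 ≤ C := by linarith
  obtain ⟨m, hm0, hm⟩ : ∃ m : ℝ, 0 < m ∧ 2 * m ^ 2 < L q ^ 2 + 2 * M q ^ 2 + N q ^ 2 := by
    have h0 : 0 < L q ^ 2 + 2 * M q ^ 2 + N q ^ 2 := by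
      by_contra h
      apply hq
      refine ⟨?_, ?_, ?_⟩ <;> apply pow_eq_zero_iff (two_ne_zero) |>.1 <;>
        nlinarith [sq_nonneg (L q), sq_nonneg (M q), sq_nonneg (N q)]
    refine ⟨√(L q ^ 2 + 2 * M q ^ 2 + N q ^ 2) / 2, by positivity, ?_⟩
    rw [div_pow, Real.sq_sqrt h0.le]; linarith
  obtain ⟨η₁, hη₁, hev⟩ : ∃ η₁ > (0 : ℝ), ∀ c, dist c q < η₁ →
      2 * m ^ 2 < L c ^ 2 + 2 * M c ^ 2 + N c ^ 2 := by
    have hc : Continuous fun c => L c ^ 2 + 2 * M c ^ 2 + N c ^ 2 := by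
      have := hL.continuous; have := hM.continuous; have := hN.continuous; fun_prop
    exact Metric.eventually_nhds_iff.1 (hc.continuousAt.eventually (lt_mem_nhds hm))
  obtain ⟨n₀, hn₀⟩ := exists_nat_ge (max (2 / m) (24 * C))
  refine ⟨n₀, min (min η₁ (r / 4)) (min (1 / 2) (m / (48 * C))), by positivity, ?_⟩
  intro n hn c hc R hR B δ ε hlens
  have hn' : (n₀ : ℝ) ≤ n := by exact_mod_cast hn
  have hn1 : 2 / m ≤ n := ((le_max_left _ _).trans hn₀).trans hn'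
  have hn2 : 24 * C ≤ n := ((le_max_right _ _).trans hn₀).trans hn'
  have hR0 : 0 < R := hR.1
  simp only [lt_min_iff, mem_Ioo] at hc hR
  obtain ⟨-, ⟨-, hRr⟩, hR1, hRm⟩ := hR
  obtain ⟨⟨hc1, hcr⟩, -⟩ := hc
  obtain ⟨a, b, s, hab, hs, h0, hpos, hbig⟩ := exists_rot (L c) (M c) (N c)
  obtain ⟨ha, hb, k1, k2, k3, k4, k5, k6, k7⟩ := coef hab hs
  have hT0 : T c R a b 0 = c := by simp [T, rot]
  have hmem : ∀ p ∈ Om, T c R a b p ∈ ball q r := by
    intro p hp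
    have h1 := norm_rot hab hp
    have h2 : dist (T c R a b p) c ≤ R * 3 := by
      rw [dist_eq_norm, T, add_sub_cancel_left, norm_smul, Real.norm_eq_abs, abs_of_pos hR0]
      gcongr
    have := dist_triangle (T c R a b p) c q
    rw [mem_ball]; linarith
  have hbd : ∀ α β γ : ℝ, |α| ≤ 1 → |β| ≤ 1 → |γ| ≤ 1 → ∀ l : List Bool, l.length ≤ 7 →
      ∀ p ∈ Om, |Ds l (fun x => cb α β γ L M N (T c R a b x)) p| ≤ (2 * R) ^ l.length * (3 * C) := by
    intro α β γ hα hβ hγ l hl p hp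
    refine Ds_T_bound c hR0.le ha hb p l (contDiff_cb _ _ _ hL hM hN) fun l' hl' => ?_
    rw [Ds_cb l' _ _ _ hL hM hN]
    have hp' := ball_subset_closedBall (hmem p hp)
    exact abs_cb hα hβ hγ ((b₁ l' (by omega) _ hp').trans (by linarith))
      ((b₂ l' (by omega) _ hp').trans (by linarith)) ((b₃ l' (by omega) _ hp').trans (by linarith))
  have hbd0 : ∀ α β γ : ℝ, |α| ≤ 1 → |β| ≤ 1 → |γ| ≤ 1 →
      ∀ p ∈ Om, |cb α β γ L M N (T c R a b p)| ≤ 3 * C := by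
    intro α β γ hα hβ hγ p hp
    simpa using hbd α β γ hα hβ hγ [] (by simp) p hp
  have hbd1 : ∀ α β γ : ℝ, |α| ≤ 1 → |β| ≤ 1 → |γ| ≤ 1 → ∀ l : List Bool, 1 ≤ l.length →
      l.length ≤ 7 → ∀ p ∈ Om,
      |Ds l (fun x => cb α β γ L M N (T c R a b x)) p| ≤ 6 * C * R := by
    intro α β γ hα hβ hγ l hl1 hl p hp
    refine (hbd α β γ hα hβ hγ l hl p hp).trans ?_
    have : (2 * R) ^ l.length ≤ 2 * R :=
      (pow_le_pow_of_le_one (by positivity) (by linarith) hl1).trans (pow_one _).le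
    calc _ ≤ 2 * R * (3 * C) := by gcongr
      _ = _ := by ring
  have hsm : ∀ α β γ : ℝ, ContDiff ℝ ∞ fun x => cb α β γ L M N (T c R a b x) :=
    fun α β γ => (contDiff_cb _ _ _ hL hM hN).comp (contDiff_T c R a b)
  have hlip : ∀ α β γ : ℝ, |α| ≤ 1 → |β| ≤ 1 → |γ| ≤ 1 → ∀ p ∈ Om,
      |cb α β γ L M N (T c R a b p) - cb α β γ L M N c| ≤ 24 * C * R := by
    intro α β γ hα hβ hγ p hp
    have := lip (hsm α β γ) (K := 6 * C * R) (by positivity)
      (fun i p hp => hbd1 α β γ hα hβ hγ [i] (by simp) (by simp) p hp) hp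
    rw [hT0] at this
    linarith
  have hnR : 24 * C * R ≤ n * R := by gcongr
  refine ⟨_, _, _, hsm (s * a ^ 2) (s * (2 * a * b)) (s * b ^ 2),
    hsm (s * -(a * b)) (s * (a ^ 2 - b ^ 2)) (s * (a * b)),
    hsm (s * b ^ 2) (s * -(2 * a * b)) (s * a ^ 2), fun p hp => ?_, fun p hp => ?_,
    fun p hp => ?_, fun p hp => ?_, fun p hp => ?_, ?_, fun l hl1 hl f hf p hp => ?_⟩
  · refine gc_T hΦ hL hM hN c hab hs (hgc _ (hmem p hp)) ?_
    filter_upwards [isOpen_ball.mem_nhds hp] with x hx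
    rw [T, hlens _ (by rw [rot_sq hab]; exact sq_lt_of_Om hx), lens_rot hab]
  · have h1 := abs_le.1 (hlip _ _ _ k1 k3 k2 p hp)
    have h2 : m ≤ cb (s * a ^ 2) (s * (2 * a * b)) (s * b ^ 2) L M N c := by
      have := hev c hc1
      unfold cb
      exact (sq_le_sq₀ hm0.le hpos).1 (by linarith)
    have h3 : 24 * C * R ≤ m / 2 := by
      rw [lt_div_iff₀ (by positivity)] at hRm; linarith
    have h4 : 1 / (n : ℝ) ≤ m / 2 := by
      have hn0 : (0 : ℝ) < n := by linarith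
      rw [div_le_iff₀ hm0] at hn1
      rw [div_le_iff₀ hn0]; linarith
    linarith [h1.1]
  · linarith [(abs_le.1 (hbd0 _ _ _ k1 k3 k2 p hp)).2]
  · have h1 := hlip _ _ _ k6 k7 k5 p hp
    have h2 : cb (s * -(a * b)) (s * (a ^ 2 - b ^ 2)) (s * (a * b)) L M N c = 0 := h0
    rw [h2, sub_zero] at h1
    exact h1.trans hnR
  · linarith [hbd0 _ _ _ k2 k4 k1 p hp]
  · show cb _ _ _ L M N (T c R a b 0) = 0
    rw [hT0]; exact h0
  · have h6 : 6 * C * R ≤ n * R := by gcongr; linarith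
    simp only [List.mem_cons, List.not_mem_nil, or_false] at hf
    rcases hf with rfl | rfl | rfl
    · exact (hbd1 _ _ _ k1 k3 k2 l hl1 hl p hp).trans h6
    · exact (hbd1 _ _ _ k6 k7 k5 l hl1 hl p hp).trans h6
    · exact (hbd1 _ _ _ k2 k4 k1 l hl1 hl p hp).trans h6

end B

theorem scale : ScaleStmt := by
  intro U Φ L M N q hU hΦ hL hM hN hgc hqU hq
  obtain ⟨r, hr, hsub⟩ : ∃ r > (0 : ℝ), closedBall q (2 * r) ⊆ U := by
    obtain ⟨r, hr, h⟩ := Metric.nhds_basis_closedBall.mem_iff.1 (hU.mem_nhds hqU)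
    exact ⟨r / 2, by positivity, by rwa [mul_div_cancel₀ _ two_ne_zero]⟩
  obtain ⟨L', hL', eL⟩ := B.exists_cut hU hr hsub hL
  obtain ⟨M', hM', eM⟩ := B.exists_cut hU hr hsub hM
  obtain ⟨N', hN', eN⟩ := B.exists_cut hU hr hsub hN
  have ev : ∀ {f g : P → ℝ}, (∀ x ∈ closedBall q r, g x = f x) → ∀ p ∈ ball q r,
      g =ᶠ[𝓝 p] f := fun {f g} h p hp => by
    filter_upwards [isOpen_ball.mem_nhds hp] with x hx using h x (ball_subset_closedBall hx)
  have h0 : q ∈ closedBall q r := mem_closedBall_self hr.le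
  refine B.core hr hΦ hL' hM' hN' (fun p hp => ?_) (by rwa [eL q h0, eM q h0, eN q h0])
  have hpU : p ∈ U :=
    hsub (closedBall_subset_closedBall (by linarith) (ball_subset_closedBall hp))
  exact B.GC_congr (hgc p hpU) (ev eL p hp) (ev eM p hp) (ev eN p hp)

end Crest.Agent.R220
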